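import Vale.Agent.P236Z.Cat.Wir

/-!
# P236: the norm of a sum
-/

open CategoryTheory MonoidalCategory Limits Pretriangulated
open Functor.LaxMonoidal Functor.OplaxMonoidal
open Vale.Agent.P251 Vale.Agent.P251.T Vale.Agent.P251.G
open scoped CategoryTheory.Obj

noncomputable section
namespace Vale.Agent.P236Z.Cat

variable {T₀ : TTC} {F : I.SpaceFunctor T₀.C} {T T' : TTC} {K : Type 1} [Category.{0} K]
  [MonoidalCategory K] [SymmetricCategory K] {tK : Tw K} {u : K ⥤ I.FCat} {v : I.FCat ⥤ K}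
  [v.Braided] {hv : ∀ X, (tK.h (v.obj X)).hom = 𝟙 _} {L : Lvl T₀ F T tK u v}
  {L' : Lvl T₀ F T' (Rt.tw tK) (Rt.U tK ⋙ u) (Rt.triv v hv)} (s : Step L L')

namespace Step

namespace AddN

variable {A B C : T.C}

/-- the map `a ⊗ b ⊗ c` between the restrictions of the norms -/
def w (a b c : A ⟶ B) : s.U.F.obj (s.N.obj A) ⟶ s.U.F.obj (s.N.obj B) :=
  s.ν.hom.app A ≫ (a ⊗ₘ b ⊗ₘ c) ≫ s.ν.inv.app B

theorem w_comp (a b c : A ⟶ B) (a' b' c' : B ⟶ C) :
    w s a b c ≫ w s a' b' c' = w s (a ≫ a') (b ≫ b') (c ≫ c') := by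
  simp only [w, Category.assoc, Iso.inv_hom_id_app_assoc, tensorHom_comp_tensorHom_assoc,
    tensorHom_comp_tensorHom]

theorem U_N (a : A ⟶ B) : s.U.F.map (s.N.map a) = w s a a a := by
  rw [w, ← Category.assoc]
  exact (Iso.eq_comp_inv (s.ν.app B)).2 (s.ν.hom.naturality a)

theorem w_conj (a b c : A ⟶ B) : s.γ' _ ≫ w s a b c ≫ s.γ _ = w s c a b := by
  have h1 : s.ν.inv.app B ≫ s.γ _ = L.t.rot B ≫ s.ν.inv.app B := by
    rw [← cancel_mono (s.ν.hom.app B), Category.assoc, s.ν_h, Iso.inv_hom_id_app_assoc,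
      Category.assoc, Iso.inv_hom_id_app, Category.comp_id]
  have h2 : (a ⊗ₘ b ⊗ₘ c) ≫ L.t.rot B = L.t.rot A ≫ (c ⊗ₘ a ⊗ₘ b) := by
    simp only [Tw.rot, rot_natural_assoc, Category.assoc, tensorHom_comp_tensorHom, L.t.nat,
      Category.comp_id, Category.id_comp]
  simp only [w, Category.assoc]
  rw [h1, reassoc_of% h2, ← reassoc_of% s.ν_h A, ← s.U.F.map_comp_assoc, Iso.inv_hom_id,
    s.U.F.map_id, Category.id_comp]

theorem U_tr_w (a b c : A ⟶ B) :
    s.U.F.map (s.tr (w s a b c)) = w s a b c + w s c a b + w s b c a := by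
  rw [U_tr, Fin.sum_univ_three, ← w_conj s c a b, ← w_conj s a b c]
  simp [pw]

theorem w_add (p q : A ⟶ B) : w s (p + q) (p + q) (p + q) = w s p p p + w s q q q +
    ((w s p p q + w s q p p + w s p q p) + (w s p q q + w s q p q + w s q q p)) := by
  simp only [w, MonoidalPreadditive.add_tensor, MonoidalPreadditive.tensor_add,
    Preadditive.add_comp, Preadditive.comp_add]
  abel

end AddN

open AddN

theorem N_zero {A B : T.C} : s.N.map (0 : A ⟶ B) = 0 := by
  obtain ⟨Z, hZ⟩ := HasZeroObject.zero (C := T.C)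
  have h : IsZero (s.N.obj Z) := s.cons _ ((IsZero.iff_id_eq_zero _).2 (by
    rw [← s.U.F.map_id, ← s.N.map_id, U_N, hZ.eq_of_src (𝟙 Z) 0, w,
      MonoidalPreadditive.zero_tensor, zero_comp, comp_zero]))
  rw [← zero_comp (f := (0 : Z ⟶ B)), s.N.map_comp, h.eq_of_src (s.N.map _) 0, comp_zero]

theorem AddN.split {P : T.C} {p q : P ⟶ P} (h : p + q = 𝟙 P) (hp : p ≫ p = p) (hq : q ≫ q = q)
    (hpq : p ≫ q = 0) (hqp : q ≫ p = 0) :
    s.N.map p + s.N.map q + s.tr (w s p p q + w s p q q) = 𝟙 _ := by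
  set e := s.N.map p + s.N.map q + s.tr (w s p p q + w s p q q) with he
  have h1 : s.U.F.map e = 𝟙 _ := by
    rw [he, s.U.F.map_add, s.U.F.map_add, tr_add, s.U.F.map_add, U_N, U_N, U_tr_w, U_tr_w, ← w_add,
      h, ← U_N, s.N.map_id, s.U.F.map_id]
  have h2 : ∀ r : P ⟶ P, e ≫ s.N.map r = s.N.map (p ≫ r) + s.N.map (q ≫ r) +
      s.tr (w s (p ≫ r) (p ≫ r) (q ≫ r) + w s (p ≫ r) (q ≫ r) (q ≫ r)) := fun r => by
    have h3 := s.tr_comp (𝟙 _) (w s p p q + w s p q q) (s.N.map r)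
    rw [s.U.F.map_id, Category.id_comp, Category.id_comp, U_N, Preadditive.add_comp, w_comp,
      w_comp] at h3
    rw [he, Preadditive.add_comp, Preadditive.add_comp, h3, s.N.map_comp, s.N.map_comp]
  have h3 : e ≫ s.tr (w s p p q + w s p q q) = s.tr (w s p p q + w s p q q) := by
    have h3 := s.tr_comp e (w s p p q + w s p q q) (𝟙 _)
    rw [s.U.F.map_id, h1, Category.id_comp, Category.comp_id, Category.comp_id] at h3
    exact h3.symm
  have h4 : e ≫ e = e := by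
    conv_lhs => rw [he]
    rw [Preadditive.comp_add, Preadditive.comp_add, ← he, h3, h2, h2, hp, hq, hpq, hqp, N_zero]
    simp [w, tr_zero, he]
  have : IsIso (s.U.F.map e) := h1 ▸ inferInstance
  have : IsIso e := isIso_of_reflects_iso e s.U.F
  rw [← cancel_epi e, h4, Category.comp_id]

theorem N_add {A B : T.C} (f g : A ⟶ B) : s.N.map (f + g) = s.N.map f + s.N.map g +
    s.tr (s.ν.hom.app A ≫ ((f ⊗ₘ f ⊗ₘ g) + (f ⊗ₘ g ⊗ₘ g)) ≫ s.ν.inv.app B) := by
  have h := AddN.split s (P := A ⊞ A) (p := biprod.fst ≫ biprod.inl) (q := biprod.snd ≫ biprod.inr)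
    biprod.total (by simp) (by simp) (by simp) (by simp)
  have h1 : f + g = biprod.lift (𝟙 A) (𝟙 A) ≫ biprod.desc f g := by simp
  rw [h1, s.N.map_comp, ← Category.id_comp (s.N.map (biprod.desc f g)), ← h, Preadditive.add_comp,
    Preadditive.add_comp, Preadditive.comp_add, Preadditive.comp_add, ← tr_comp, U_N, U_N,
    Preadditive.add_comp, Preadditive.comp_add, w_comp, w_comp, w_comp, w_comp]
  simp [← Functor.map_comp, w]

end Step

end Vale.Agent.P236Z.Cat
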