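import Vale.Agent.P236Z.Cat.Defs
import Mathlib.CategoryTheory.Monoidal.CommMon_

/-!
# P236: definitions for a step of the Borel tower
-/

open CategoryTheory MonoidalCategory Limits Pretriangulated
open Functor.LaxMonoidal Functor.OplaxMonoidal
open Vale.Agent.P251 Vale.Agent.P251.T Vale.Agent.P251.G
open scoped CategoryTheory.Obj

noncomputable section
namespace Vale.Agent.P236Z.Cat

variable {T₀ : TTC} {F : I.SpaceFunctor T₀.C} {T T' : TTC} {K : Type 1} [Category.{0} K]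
  [MonoidalCategory K] [SymmetricCategory K] {tK : Tw K} {u : K ⥤ I.FCat} {v : I.FCat ⥤ K}
  [v.Braided] {hv : ∀ X, (tK.h (v.obj X)).hom = 𝟙 _} {L : Lvl T₀ F T tK u v}
  {L' : Lvl T₀ F T' (Rt.tw tK) (Rt.U tK ⋙ u) (Rt.triv v hv)} (s : Step L L')

namespace Step
/-- the action of the generator on the restriction -/
abbrev γ (X : T'.C) : s.U.F.obj X ⟶ s.U.F.obj X := s.U.F.map (L'.t.h X).hom
/-- its inverse -/
abbrev γ' (X : T'.C) : s.U.F.obj X ⟶ s.U.F.obj X := s.U.F.map (L'.t.h X).inv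


/-- the projection map -/
def projMap (X : T'.C) (Y : T.C) : s.ind.obj (s.U.F.obj X ⊗ Y) ⟶ X ⊗ s.ind.obj Y :=
  (s.adj.homEquiv _ _).symm (s.U.F.obj X ◁ s.adj.unit.app Y ≫ μ s.U.F X (s.ind.obj Y))

/-- the comparison of the internal homs -/
def ihomMap (X Y : T'.C) :
    s.U.F.obj ((ihom X).obj Y) ⟶ (ihom (s.U.F.obj X)).obj (s.U.F.obj Y) :=
  MonoidalClosed.curry (μ s.U.F X ((ihom X).obj Y) ≫ s.U.F.map ((ihom.ev X).app Y))

/-- the threefold product -/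
def mul3 {D : Type 1} [Category.{0} D] [MonoidalCategory D] (R : D) [MonObj R] : R ⊗ R ⊗ R ⟶ R :=
  R ◁ MonObj.mul (X := R) ≫ MonObj.mul (X := R)

/-- `nm` is a norm map of the ring `R` -/
structure IsNm (R : T'.C) [MonObj R] (nm : s.N.obj (s.U.F.obj R) ⟶ R) : Prop where
  mon : IsMonHom nm
  res : s.U.F.map nm =
    s.ν.hom.app _ ≫ (𝟙 _ ⊗ₘ s.γ R ⊗ₘ (s.γ R ≫ s.γ R)) ≫ mul3 (s.U.F.obj R)
  conj : s.N.map (s.γ R) ≫ nm = nm ≫ (L'.t.h R).hom

/-- the norm map of `N Y` -/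
def nmN (Y : T.C) [MonObj Y] : s.N.obj (s.U.F.obj (s.N.obj Y)) ⟶ s.N.obj Y :=
  s.N.map (s.ν.hom.app Y) ≫ s.sh.hom.app Y ≫ s.N.map (mul3 Y)

/-- the rotation of `N U A` -/
def rotN (A : T'.C) : s.N.obj (s.U.F.obj A) ⟶ s.N.obj (s.U.F.obj A) :=
  s.N.map (s.γ' A) ≫ (L'.t.h _).hom

end Step

end Vale.Agent.P236Z.Cat
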