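import Vale.Agent.P251.H.BrownApp
import Mathlib.CategoryTheory.Shift.Adjunction

/-!
# P236: compact generators along adjunctions
-/

open CategoryTheory Limits Pretriangulated MonoidalCategory
open Vale.Agent.P251 Vale.Agent.P251.H Vale.Agent.P251.T

universe v u v' u'

namespace Vale.Agent.P236Z.Cat

section adj

variable {C : Type u} [Category.{v} C] [Preadditive C] [HasShift C ℤ]
  {D : Type u'} [Category.{v'} D] [Preadditive D] [HasShift D ℤ]
  {F : C ⥤ D} {U : D ⥤ C} (adj : F ⊣ U) [U.CommShift ℤ]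

/-- the left adjoint commutes with the shift -/
noncomputable def adjShift (G : C) (n : ℤ) : F.obj (G⟦n⟧) ≅ (F.obj G)⟦n⟧ :=
  letI := adj.leftAdjointCommShift ℤ
  (F.commShiftIso n).app G

include adj in
theorem isCpt_adj [HasZeroObject C] [HasZeroObject D] [∀ n : ℤ, (shiftFunctor C n).Additive]
    [∀ n : ℤ, (shiftFunctor D n).Additive] [Pretriangulated C] [Pretriangulated D]
    [HasCoproducts.{0} C] [HasCoproducts.{0} D] [∀ I : Type, PreservesColimitsOfShape (Discrete I) U] {G : C} (hG : IsCpt G) :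
    IsCpt (F.obj G) := by
  intro n I X f
  obtain ⟨s, g, hg⟩ := hG n (fun i => U.obj (X i))
    (adj.homEquiv _ _ ((adjShift adj G n).hom ≫ f) ≫ inv (sigmaComparison U X))
  refine ⟨s, (adjShift adj G n).inv ≫ (adj.homEquiv _ _).symm
    (g ≫ sigmaComparison U (fun i : s => X i)), ?_⟩
  have h : sigmaComparison U (fun i : s => X i) ≫ U.map (Sigma.desc fun i : s => Sigma.ι X i) =
      Sigma.desc (fun i : s => Sigma.ι (fun i => U.obj (X i)) i) ≫ sigmaComparison U X := by
    refine Limits.Sigma.hom_ext _ _ fun i => ?_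
    rw [ι_comp_sigmaComparison_assoc, ← U.map_comp, Sigma.ι_desc, Sigma.ι_desc_assoc,
      ι_comp_sigmaComparison]
  rw [Category.assoc, Iso.inv_comp_eq, ← adj.homEquiv_naturality_right_symm, Category.assoc, h,
    reassoc_of% hg, IsIso.inv_hom_id, Category.comp_id, Equiv.symm_apply_apply]

include adj in
theorem isGen_adj [U.PreservesZeroMorphisms] (hU : ∀ X, IsZero (U.obj X) → IsZero X) {G : C}
    (hG : IsGen G) : IsGen (F.obj G) := fun X h => hU X (hG _ fun n f => by
  have h1 := h n ((adjShift adj G n).inv ≫ (adj.homEquiv _ _).symm f)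
  rw [Iso.inv_comp_eq, comp_zero, Equiv.symm_apply_eq] at h1
  rw [h1, Adjunction.homEquiv_unit, U.map_zero, comp_zero])

omit [Preadditive C] [Preadditive D] in
include adj in
theorem small_adj [LocallySmall.{0} C] (G : C) (n : ℤ) (X : D) :
    Small.{0} ((F.obj G)⟦n⟧ ⟶ X) :=
  small_of_surjective (f := fun f : G⟦n⟧ ⟶ U.obj X =>
    (adjShift adj G n).inv ≫ (adj.homEquiv _ _).symm f) fun g =>
      ⟨adj.homEquiv _ _ ((adjShift adj G n).hom ≫ g), by simp⟩

end adj

variable {T : Type u} [Category.{v} T] [Preadditive T] [HasZeroObject T]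
  [HasShift T ℤ] [∀ n : ℤ, (shiftFunctor T n).Additive] [Pretriangulated T]
  [MonoidalCategory T] [SymmetricCategory T] [TensorTriangulated T] [HasCoproducts.{0} T]

theorem nonempty_closed [LocallySmall.{0} T] {G : T} (hc : IsCpt G) (hg : IsGen G)
    (hpres : ∀ (A : T) {I : Type} (X : I → T),
      PreservesColimit (Discrete.functor X) (tensorLeft A)) :
    Nonempty (MonoidalClosed T) := by
  have H : ∀ A N : T, ∃ (Y : T) (y : A ⊗ Y ⟶ N), ∀ B,
      Function.Bijective (fun f : B ⟶ Y => A ◁ f ≫ y) := by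
    intro A N
    exact brown_cpt hc hg (tensorCoh hpres A N)
      (fun n => inferInstanceAs (Small.{0} (A ⊗ G⟦n⟧ ⟶ N)))
  choose Y y hy using H
  let e : ∀ (A B N : T), (A ⊗ B ⟶ N) ≃ (B ⟶ Y A N) := fun A B N =>
    (Equiv.ofBijective _ (hy A N B)).symm
  refine ⟨{ closed := fun A => ⟨Adjunction.rightAdjointOfEquiv (F := tensorLeft A)
    (G_obj := Y A) (fun B N => e A B N) ?_, Adjunction.adjunctionOfEquivRight _ _⟩ }⟩
  intro X' X N f g
  apply (e A X' N).symm.injective
  rw [Equiv.symm_apply_apply]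
  show A ◁ f ≫ g = A ◁ (f ≫ e A X N g) ≫ y A N
  rw [MonoidalCategory.whiskerLeft_comp, Category.assoc]
  exact congrArg (A ◁ f ≫ ·) ((e A X N).symm_apply_apply g).symm

end Vale.Agent.P236Z.Cat
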