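import Vale.Agent.P236Z.Cat.Sh

/-!
# P236: composition of commutative squares of monoidal functors; the squares for `Rt`
-/

open CategoryTheory MonoidalCategory Functor.LaxMonoidal Functor.OplaxMonoidal

noncomputable section
namespace Vale.Agent.P236Z.Cat

section inst
variable {A B E : Type*} [Category* A] [Category* B] [Category* E] [MonoidalCategory A]
  [MonoidalCategory B] [MonoidalCategory E]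

instance {F G H : A ⥤ B} [F.LaxMonoidal] [G.LaxMonoidal] [H.LaxMonoidal] (e : F ≅ G) (e' : G ≅ H)
    [NatTrans.IsMonoidal e.hom] [NatTrans.IsMonoidal e'.hom] :
    NatTrans.IsMonoidal (e ≪≫ e').hom := inferInstanceAs (NatTrans.IsMonoidal (e.hom ≫ e'.hom))

instance {F G : A ⥤ B} [F.LaxMonoidal] [G.LaxMonoidal] (e : F ≅ G) [NatTrans.IsMonoidal e.hom] :
    NatTrans.IsMonoidal e.symm.hom := inferInstanceAs (NatTrans.IsMonoidal e.inv)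

instance {F G : A ⥤ B} [F.LaxMonoidal] [G.LaxMonoidal] (e : F ≅ G) [NatTrans.IsMonoidal e.hom]
    (H : B ⥤ E) [H.LaxMonoidal] : NatTrans.IsMonoidal (Functor.isoWhiskerRight e H).hom :=
  inferInstanceAs (NatTrans.IsMonoidal (Functor.whiskerRight e.hom H))

instance {F G : B ⥤ E} [F.LaxMonoidal] [G.LaxMonoidal] (e : F ≅ G) [NatTrans.IsMonoidal e.hom]
    (H : A ⥤ B) [H.LaxMonoidal] : NatTrans.IsMonoidal (Functor.isoWhiskerLeft H e).hom :=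
  inferInstanceAs (NatTrans.IsMonoidal (H.whiskerLeft e.hom))

end inst

section sq
variable {C₁ C₂ C₃ D₁ D₂ D₃ : Type*} [Category* C₁] [Category* C₂] [Category* C₃] [Category* D₁]
  [Category* D₂] [Category* D₃]

/-- vertical composition of squares -/
def vc {L₁ : C₁ ⥤ D₁} {L₂ : C₂ ⥤ D₂} {L₃ : C₃ ⥤ D₃} {Φ : C₁ ⥤ C₂} {Ψ : C₂ ⥤ C₃} {F : D₁ ⥤ D₂}
    {G : D₂ ⥤ D₃} (e₁ : L₁ ⋙ F ≅ Φ ⋙ L₂) (e₂ : L₂ ⋙ G ≅ Ψ ⋙ L₃) :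
    L₁ ⋙ F ⋙ G ≅ (Φ ⋙ Ψ) ⋙ L₃ :=
  (Functor.associator _ _ _).symm ≪≫ Functor.isoWhiskerRight e₁ G ≪≫ Functor.associator _ _ _ ≪≫
    Functor.isoWhiskerLeft Φ e₂ ≪≫ (Functor.associator _ _ _).symm

theorem vc_hom {L₁ : C₁ ⥤ D₁} {L₂ : C₂ ⥤ D₂} {L₃ : C₃ ⥤ D₃} {Φ : C₁ ⥤ C₂} {Ψ : C₂ ⥤ C₃}
    {F : D₁ ⥤ D₂} {G : D₂ ⥤ D₃} (e₁ : L₁ ⋙ F ≅ Φ ⋙ L₂) (e₂ : L₂ ⋙ G ≅ Ψ ⋙ L₃) (X : C₁) :
    (vc e₁ e₂).hom.app X = G.map (e₁.hom.app X) ≫ e₂.hom.app (Φ.obj X) := by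
  simp [vc]

theorem vc_inv {L₁ : C₁ ⥤ D₁} {L₂ : C₂ ⥤ D₂} {L₃ : C₃ ⥤ D₃} {Φ : C₁ ⥤ C₂} {Ψ : C₂ ⥤ C₃}
    {F : D₁ ⥤ D₂} {G : D₂ ⥤ D₃} (e₁ : L₁ ⋙ F ≅ Φ ⋙ L₂) (e₂ : L₂ ⋙ G ≅ Ψ ⋙ L₃) (X : C₁) :
    (vc e₁ e₂).inv.app X = e₂.inv.app (Φ.obj X) ≫ G.map (e₁.inv.app X) := by
  simp [vc]

/-- horizontal composition of squares -/
def hc {j : C₁ ⥤ C₂} {L : C₂ ⥤ C₃} {j' : D₁ ⥤ D₂} {L' : D₂ ⥤ D₃} {Θ : C₁ ⥤ D₁} {Ψ : C₂ ⥤ D₂}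
    {G : C₃ ⥤ D₃} (θ : j ⋙ Ψ ≅ Θ ⋙ j') (e : L ⋙ G ≅ Ψ ⋙ L') :
    (j ⋙ L) ⋙ G ≅ Θ ⋙ j' ⋙ L' :=
  Functor.associator _ _ _ ≪≫ Functor.isoWhiskerLeft j e ≪≫ (Functor.associator _ _ _).symm ≪≫
    Functor.isoWhiskerRight θ L' ≪≫ Functor.associator _ _ _

theorem hc_hom {j : C₁ ⥤ C₂} {L : C₂ ⥤ C₃} {j' : D₁ ⥤ D₂} {L' : D₂ ⥤ D₃} {Θ : C₁ ⥤ D₁}
    {Ψ : C₂ ⥤ D₂} {G : C₃ ⥤ D₃} (θ : j ⋙ Ψ ≅ Θ ⋙ j') (e : L ⋙ G ≅ Ψ ⋙ L') (X : C₁) :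
    (hc θ e).hom.app X = e.hom.app (j.obj X) ≫ L'.map (θ.hom.app X) := by
  simp [hc]

theorem hc_inv {j : C₁ ⥤ C₂} {L : C₂ ⥤ C₃} {j' : D₁ ⥤ D₂} {L' : D₂ ⥤ D₃} {Θ : C₁ ⥤ D₁}
    {Ψ : C₂ ⥤ D₂} {G : C₃ ⥤ D₃} (θ : j ⋙ Ψ ≅ Θ ⋙ j') (e : L ⋙ G ≅ Ψ ⋙ L') (X : C₁) :
    (hc θ e).inv.app X = L'.map (θ.inv.app X) ≫ e.inv.app (j.obj X) := by
  simp [hc]

variable [MonoidalCategory C₁] [MonoidalCategory C₂] [MonoidalCategory C₃] [MonoidalCategory D₁]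
  [MonoidalCategory D₂] [MonoidalCategory D₃]

instance {L₁ : C₁ ⥤ D₁} {L₂ : C₂ ⥤ D₂} {L₃ : C₃ ⥤ D₃} {Φ : C₁ ⥤ C₂} {Ψ : C₂ ⥤ C₃} {F : D₁ ⥤ D₂}
    {G : D₂ ⥤ D₃} [L₁.LaxMonoidal] [L₂.LaxMonoidal] [L₃.LaxMonoidal] [Φ.LaxMonoidal]
    [Ψ.LaxMonoidal] [F.LaxMonoidal] [G.LaxMonoidal] (e₁ : L₁ ⋙ F ≅ Φ ⋙ L₂)
    (e₂ : L₂ ⋙ G ≅ Ψ ⋙ L₃) [NatTrans.IsMonoidal e₁.hom] [NatTrans.IsMonoidal e₂.hom] :
    NatTrans.IsMonoidal (vc e₁ e₂).hom := by unfold vc; infer_instance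

instance {j : C₁ ⥤ C₂} {L : C₂ ⥤ C₃} {j' : D₁ ⥤ D₂} {L' : D₂ ⥤ D₃} {Θ : C₁ ⥤ D₁} {Ψ : C₂ ⥤ D₂}
    {G : C₃ ⥤ D₃} [j.LaxMonoidal] [L.LaxMonoidal] [j'.LaxMonoidal] [L'.LaxMonoidal]
    [Θ.LaxMonoidal] [Ψ.LaxMonoidal] [G.LaxMonoidal] (θ : j ⋙ Ψ ≅ Θ ⋙ j') (e : L ⋙ G ≅ Ψ ⋙ L')
    [NatTrans.IsMonoidal θ.hom] [NatTrans.IsMonoidal e.hom] :
    NatTrans.IsMonoidal (hc θ e).hom := by unfold hc; infer_instance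

end sq

namespace Rt

variable {B D D' : Type*} [Category* B] [Category* D] [Category* D'] [MonoidalCategory B]
  [MonoidalCategory D] [MonoidalCategory D'] {t : Tw D} {t' : Tw D'}

/-- restriction commutes with induced functors -/
def mapU (F : D ⥤ D') (hF : ∀ X, F.map (t.h X).hom = (t'.h (F.obj X)).hom) :
    map F hF ⋙ U t' ≅ U t ⋙ F :=
  NatIso.ofComponents (fun _ => Iso.refl _) fun _ =>
    (Category.comp_id _).trans (Category.id_comp _).symm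

instance (F : D ⥤ D') [F.Monoidal] (hF : ∀ X, F.map (t.h X).hom = (t'.h (F.obj X)).hom) :
    NatTrans.IsMonoidal (mapU F hF).hom where
  unit := by
    change (𝟙 _ ≫ ε F) ≫ 𝟙 _ = ε F ≫ F.map (𝟙 _)
    simp
  tensor X Y := by
    change (𝟙 _ ≫ μ F X.obj Y.obj) ≫ 𝟙 _ = (𝟙 _ ⊗ₘ 𝟙 _) ≫ μ F X.obj Y.obj ≫ F.map (𝟙 _)
    simp

/-- the restriction of the trivial action -/
def trivU (F : D ⥤ D') (hF : ∀ X, (t'.h (F.obj X)).hom = 𝟙 _) : triv F hF ⋙ U t' ≅ F :=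
  NatIso.ofComponents (fun _ => Iso.refl _) fun _ =>
    (Category.comp_id _).trans (Category.id_comp _).symm

instance (F : D ⥤ D') [F.Monoidal] (hF : ∀ X, (t'.h (F.obj X)).hom = 𝟙 _) :
    NatTrans.IsMonoidal (trivU F hF).hom where
  unit := by
    change (𝟙 _ ≫ ε F) ≫ 𝟙 _ = ε F
    simp
  tensor X Y := by
    change (𝟙 _ ≫ μ F X Y) ≫ 𝟙 _ = (𝟙 _ ⊗ₘ 𝟙 _) ≫ μ F X Y
    simp

/-- trivial actions and induced functors -/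
def trivMap {E : Type*} [Category* E] {v : B ⥤ D} (hv : ∀ X, (t.h (v.obj X)).hom = 𝟙 _)
    {j : D ⥤ D'} (hj : ∀ X, j.map (t.h X).hom = (t'.h (j.obj X)).hom) {j₀ : B ⥤ E} {Φ : E ⥤ D'}
    (hΦ : ∀ X, (t'.h (Φ.obj X)).hom = 𝟙 _) (θ : v ⋙ j ≅ j₀ ⋙ Φ) :
    triv v hv ⋙ map j hj ≅ j₀ ⋙ triv Φ hΦ :=
  NatIso.ofComponents (fun X => isoMk (θ.app X) (by
    change j.map (𝟙 _) ≫ θ.hom.app X = θ.hom.app X ≫ 𝟙 _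
    simp)) fun f => hom_ext (θ.hom.naturality f)

instance {E : Type*} [Category* E] [MonoidalCategory E] {v : B ⥤ D} [v.Monoidal]
    (hv : ∀ X, (t.h (v.obj X)).hom = 𝟙 _) {j : D ⥤ D'} [j.Monoidal]
    (hj : ∀ X, j.map (t.h X).hom = (t'.h (j.obj X)).hom) {j₀ : B ⥤ E} [j₀.Monoidal] {Φ : E ⥤ D'}
    [Φ.Monoidal] (hΦ : ∀ X, (t'.h (Φ.obj X)).hom = 𝟙 _) (θ : v ⋙ j ≅ j₀ ⋙ Φ)
    [NatTrans.IsMonoidal θ.hom] : NatTrans.IsMonoidal (trivMap hv hj hΦ θ).hom where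
  unit := hom_ext (NatTrans.IsMonoidal.unit (τ := θ.hom))
  tensor X Y := hom_ext (NatTrans.IsMonoidal.tensor (τ := θ.hom) X Y)

variable [SymmetricCategory D] [SymmetricCategory D']

variable (t) in
/-- the restriction of the norm -/
def NU : N t ⋙ U t ≅ Cat.cube D :=
  NatIso.ofComponents (fun _ => Iso.refl _) fun _ =>
    (Category.comp_id _).trans (Category.id_comp _).symm

instance : NatTrans.IsMonoidal (NU t).hom where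
  unit := by
    change (𝟙 _ ≫ ε (Cat.cube D)) ≫ 𝟙 _ = ε (Cat.cube D)
    simp
  tensor X Y := by
    change (𝟙 _ ≫ μ (Cat.cube D) X Y) ≫ 𝟙 _ = (𝟙 _ ⊗ₘ 𝟙 _) ≫ μ (Cat.cube D) X Y
    simp

/-- the norm commutes with induced functors -/
def mapN (F : D ⥤ D') [F.Braided] (hF : ∀ X, F.map (t.h X).hom = (t'.h (F.obj X)).hom) :
    F ⋙ N t' ≅ N t ⋙ map F hF :=
  NatIso.ofComponents (fun X => isoMk ((cubeIso F).app X) (trot_m3 F (hF X)))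
    fun f => hom_ext ((cubeIso F).hom.naturality f)

instance (F : D ⥤ D') [F.Braided] (hF : ∀ X, F.map (t.h X).hom = (t'.h (F.obj X)).hom) :
    NatTrans.IsMonoidal (mapN F hF).hom where
  unit := hom_ext (NatTrans.IsMonoidal.unit (τ := (cubeIso F).hom))
  tensor X Y := hom_ext (NatTrans.IsMonoidal.tensor (τ := (cubeIso F).hom) X Y)

end Rt

end Vale.Agent.P236Z.Cat
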