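import Vale.Agent.P236Z.Cat.Ind
import Vale.Agent.P236Z.Cat.Gen
import Vale.Agent.P236Z.Cat.Sq
import Vale.Agent.P251.H.Assemble

/-!
# P236: the inductive step of the construction of the tower: the new level
-/

open CategoryTheory Limits MonoidalCategory ZeroObject Pretriangulated
open Functor.LaxMonoidal Functor.OplaxMonoidal
open Vale.Agent.P251 Vale.Agent.P251.H Vale.Agent.P251.H.CofCat Vale.Agent.P251.H.TensorCofCat

universe v₄

noncomputable section
namespace Vale.Agent.P236Z.Cat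

variable {C : Type 1} [Category.{0} C] [HasZeroObject C] [HasZeroMorphisms C]
  [HasBinaryCoproducts C] [CofCat C] [MonoidalCategory C] [SymmetricCategory C] [TensorCofCat C]
  [HasCoproducts.{0} C] [∀ J : Type, CofCoproducts C J]

section good
variable (P : StabModel C) {D : Type 1} [Category.{0} D] (L : C ⥤ D)
  [L.IsLocalization (W (C := C))]

/-- a compactly generated localization -/
structure Good where
  pres : ∀ {J : Type} (Z : C) (X : J → C), PreservesColimit (Discrete.functor X) (tensorLeft Z)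
  sat : ∀ X : C, IsZero ((TT.L P L).obj X) → W (0 : X ⟶ 0)
  /-- the generator -/
  G : TT P L
  cpt : IsCpt G
  gen : IsGen G

variable {P L}

/-- the tensor triangulated category -/
abbrev Good.T (g : Good P L) : TTC :=
  { C := TT P L, G := g.G, cpt := g.cpt, gen := g.gen,
    closed := (nonempty_closed g.cpt g.gen
      fun A _ X => TT.preservesColimit_tensorLeft P L g.pres A X).some,
    products := hasProducts_of_cpt g.cpt g.gen }

variable {t : Tw C} [TwI t] (h : TwP P t)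

section
variable (L) {D' : Type 1} [Category.{v₄} D'] (L' : Rt t ⥤ D') [L'.IsLocalization (W (C := Rt t))]

instance : (Rt.UL h L L').IsTriangulated := ((Rt.mfU h).lft L' L).isTriangulated

instance (J : Type) : PreservesColimitsOfShape (Discrete J) (Rt.UL h L L') :=
  ((Rt.mfU h).lft L' L).cop J

end

include h in
theorem Good.exists_loc (g : Good P L) : ∃ (D' : Type 1) (_ : Category.{0} D') (L' : Rt t ⥤ D'),
    L'.IsLocalization (W (C := Rt t)) := by
  have h1 : LocallySmall.{0} (TT (Rt.stabModel h) (W (C := Rt t)).Q) :=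
    locallySmall_of_cpt (isCpt_adj (Rt.adjL h L _) g.cpt)
      (isGen_adj (Rt.adjL h L _) (Rt.cons h L _ g.sat) g.gen) (small_adj (Rt.adjL h L _) g.G)
  have h2 : LocallySmall.{0} (W (C := Rt t)).Localization := h1
  exact exists_small_localization (W (C := Rt t)) (W (C := Rt t)).Q

/-- the next localization is compactly generated -/
def Good.next (g : Good P L) {D' : Type 1} [Category.{0} D'] (L' : Rt t ⥤ D')
    [L'.IsLocalization (W (C := Rt t))] : Good (Rt.stabModel h) L' where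
  pres := Rt.preservesColimit_tensorLeft g.pres
  sat X hX := Rt.sat h L L' g.sat X ((Rt.UL h L L').map_isZero hX)
  G := (Rt.indL h L L').obj g.G
  cpt := isCpt_adj (Rt.adjL h L L') g.cpt
  gen := isGen_adj (Rt.adjL h L L') (Rt.cons h L L' g.sat) g.gen

end good

variable {C₀ : Type 1} [Category.{0} C₀] [HasZeroObject C₀] [HasZeroMorphisms C₀]
  [HasBinaryCoproducts C₀] [CofCat C₀] [MonoidalCategory C₀] [SymmetricCategory C₀]
  [TensorCofCat C₀] [HasCoproducts.{0} C₀] [∀ J : Type, CofCoproducts C₀ J]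
  {P₀ : StabModel C₀} {D₀ : Type 1} [Category.{0} D₀] {L₀ : C₀ ⥤ D₀}
  [L₀.IsLocalization (W (C := C₀))]
  {P : StabModel C} {D : Type 1} [Category.{0} D] {L : C ⥤ D} [L.IsLocalization (W (C := C))]

/-- the exact functor given by an induced functor -/
abbrev Lft.exF {φ : MF P₀ P} [∀ J : Type, PreservesColimitsOfShape (Discrete J) φ.Φ]
    {F : TT P₀ L₀ ⥤ TT P L} [F.Braided] [F.CommShift ℤ] (l : Lft L₀ φ L F) (g₀ : Good P₀ L₀)
    (g : Good P L) : ExF g₀.T g.T :=
  { F := F, tri := l.isTriangulated, cop := fun J => l.cop J, e_eq := l.e_eq }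

variable {g₀ : Good P₀ L₀} {F : I.SpaceFunctor g₀.T.C} {j₀ : I.FCat ⥤ C₀} [j₀.Braided]
  (e₀ : F.S ≅ j₀ ⋙ TT.L P₀ L₀) (g : Good P L) (t : Tw C)
  {K : Type 1} [Category.{0} K] [MonoidalCategory K] [SymmetricCategory K] {tK : Tw K}
  {u : K ⥤ I.FCat} {v : I.FCat ⥤ K} [v.Braided]

instance (E : ExF g₀.T g.T) : E.F.Braided := E.br
instance (E : ExF g₀.T g.T) : E.F.CommShift ℤ := E.cs
instance (Lv : Lvl g₀.T F g.T tK u v) : Lv.J.Braided := Lv.Jbr
instance : F.S.Braided := F.braided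
instance (Lv : Lvl g₀.T F g.T tK u v) : NatTrans.IsMonoidal Lv.Jtv.hom := Lv.Jtv_mon

/-- the level `Lv` is given by the model `C` -/
structure Rel (Lv : Lvl g₀.T F g.T tK u v) where
  ht : ∀ X, (Lv.t.h ((TT.L P L).obj X)).hom = (TT.L P L).map (t.h X).hom
  /-- the trivial action -/
  φ : MF P₀ P
  φ_h : ∀ X, (t.h (φ.Φ.obj X)).hom = 𝟙 _
  [φ_cop : ∀ J : Type, PreservesColimitsOfShape (Discrete J) φ.Φ]
  /-- the trivial action is induced -/
  l : Lft L₀ φ L Lv.tv.F
  /-- the spaces -/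
  j : K ⥤ C
  [jbr : j.Braided]
  j_h : ∀ X, j.map (tK.h X).hom = (t.h (j.obj X)).hom
  /-- the suspension spectra -/
  eJ : Lv.J ≅ j ⋙ TT.L P L
  [eJ_mon : NatTrans.IsMonoidal eJ.hom]
  /-- the spaces with trivial action -/
  jtv : v ⋙ j ≅ j₀ ⋙ φ.Φ
  [jtv_mon : NatTrans.IsMonoidal jtv.hom]
  Jtv : ∀ X, Lv.Jtv.hom.app X ≫ Lv.tv.F.map (e₀.hom.app X) ≫ l.e.hom.app (j₀.obj X) =
    eJ.hom.app (v.obj X) ≫ (TT.L P L).map (jtv.hom.app X)
  conn : ∀ {A B Q : K} {i : A ⟶ B} {q : B ⟶ Q} (h : IsCof u i q),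
    IsConn (TT.τ P L) (j.map i) (j.map q)
      (eJ.inv.app Q ≫ Lv.cδ h ≫ (eJ.hom.app A)⟦(1 : ℤ)⟧')

attribute [instance] Rel.φ_cop Rel.jbr Rel.eJ_mon Rel.jtv_mon

namespace Rel

variable {e₀ g t} {Lv : Lvl g₀.T F g.T tK u v} (r : Rel e₀ g t Lv) [TwI t] (h : TwP P t)

/-- the trivial action -/
abbrev φ' : MF P₀ (Rt.stabModel h) :=
  { Φ := Rt.triv r.φ.Φ r.φ_h
    zero := ⟨fun _ _ => Rt.hom_ext (r.φ.Φ.map_zero _ _)⟩
    w := r.φ.w
    cof := r.φ.cof
    po := fun h hi => Rt.isPushout_of_hom (r.φ.po h hi)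
    ci := Rt.isoMk r.φ.ci ((Category.id_comp _).trans (Category.comp_id _).symm)
    s := Rt.isoMk r.φ.s ((Category.id_comp _).trans (Category.comp_id _).symm)
    c_ci := Rt.hom_ext r.φ.c_ci
    s_s := Rt.hom_ext r.φ.s_s }

instance (J : Type) : PreservesColimitsOfShape (Discrete J) (Rt.triv r.φ.Φ r.φ_h) :=
  have : PreservesColimitsOfShape (Discrete J) (Rt.triv r.φ.Φ r.φ_h ⋙ Rt.U t) := r.φ_cop J
  have : ReflectsColimitsOfShape (Discrete J) (Rt.U t) := ⟨fun {_} => inferInstance⟩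
  preservesColimitsOfShape_of_reflects_of_preserves _ (Rt.U t)

/-- the spaces with an action -/
abbrev j' : Rt tK ⥤ Rt t := Rt.map r.j r.j_h

variable {D' : Type 1} [Category.{0} D'] (L' : Rt t ⥤ D') [L'.IsLocalization (W (C := Rt t))]

theorem exists_conn {A B Q : Rt tK} {i : A ⟶ B} {q : B ⟶ Q} (hc : IsCof (Rt.U tK ⋙ u) i q) :
    ∃ d, IsConn (TT.τ (Rt.stabModel h) L') (r.j'.map i) (r.j'.map q) d :=
  exists_isConn _ (r.conn (i := i.hom) (q := q.hom) hc).cof
    (Rt.isPushout_zero_of_hom (r.conn (i := i.hom) (q := q.hom) hc).isPushout)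

variable (hv : ∀ X, (tK.h (v.obj X)).hom = 𝟙 _) [NatTrans.IsMonoidal e₀.hom]

/-- the suspension spectra of spaces with trivial action -/
def Jtv' : Rt.triv v hv ⋙ r.j' ⋙ TT.L (Rt.stabModel h) L' ≅ F.S ⋙ (r.φ' h).F L₀ L' :=
  (hc (Rt.trivMap hv r.j_h r.φ_h r.jtv).symm ((r.φ' h).e L₀ L')).symm ≪≫
    Functor.isoWhiskerRight e₀.symm _

instance : NatTrans.IsMonoidal (r.Jtv' h L' hv).hom := by unfold Jtv'; infer_instance

omit [NatTrans.IsMonoidal e₀.hom] in
theorem Jtv'_hom (X : I.FCat) : (r.Jtv' h L' hv).hom.app X =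
    ((TT.L (Rt.stabModel h) L').map ((Rt.trivMap hv r.j_h r.φ_h r.jtv).hom.app X) ≫
      ((r.φ' h).e L₀ L').inv.app (j₀.obj X)) ≫ ((r.φ' h).F L₀ L').map (e₀.inv.app X) :=
  congrArg (· ≫ _) (hc_inv _ _ X)

/-- the next level -/
abbrev lvl : Lvl g₀.T F (g.next h L').T (Rt.tw tK) (Rt.U tK ⋙ u) (Rt.triv v hv) :=
  { t := (Rt.tw t).loc (TT.L (Rt.stabModel h) L') W
    tv := ((r.φ' h).lft L₀ L').exF g₀ _
    tv_h := fun X => ess_ext (TT.L P₀ L₀)
      (((r.φ' h).F L₀ L').whiskerLeft ((Rt.tw t).loc (TT.L (Rt.stabModel h) L') W).nt) (𝟙 _)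
      (fun Y => by
        have h1 := ((Rt.tw t).loc (TT.L (Rt.stabModel h) L') W).nat
          (((r.φ' h).e L₀ L').hom.app Y)
        have h2 := ((Rt.tw t).loc_h (TT.L (Rt.stabModel h) L') W
          ((Rt.triv r.φ.Φ r.φ_h).obj Y)).trans ((TT.L (Rt.stabModel h) L').map_id _)
        exact (cancel_mono (((r.φ' h).e L₀ L').hom.app Y)).1 (h1.symm.trans
          ((congrArg (_ ≫ ·) h2).trans ((Category.comp_id _).trans (Category.id_comp _).symm)))) X
    J := r.j' ⋙ TT.L (Rt.stabModel h) L'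
    J_h := fun X => ((Rt.tw t).loc_h (TT.L (Rt.stabModel h) L') W (r.j'.obj X)).symm
    Jtv := r.Jtv' h L' hv
    cδ := fun hc => (r.exists_conn h L' hc).choose
    dist := fun hc => (r.exists_conn h L' hc).choose_spec.mem_dist
    cδ_nat := fun hc hc' _ _ _ w₁ w₂ => (r.exists_conn h L' hc).choose_spec.naturality
      (r.exists_conn h L' hc').choose_spec
      (((r.j'.map_comp _ _).symm.trans (congrArg r.j'.map w₁)).trans (r.j'.map_comp _ _))
      (((r.j'.map_comp _ _).symm.trans (congrArg r.j'.map w₂)).trans (r.j'.map_comp _ _)) }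

/-- the next level is given by the next model -/
def next : Rel e₀ (g.next h L') (Rt.tw t) (r.lvl h L' hv) where
  ht := (Rt.tw t).loc_h (TT.L (Rt.stabModel h) L') W
  φ := r.φ' h
  φ_h _ := rfl
  l := (r.φ' h).lft L₀ L'
  j := r.j'
  j_h _ := rfl
  eJ := Iso.refl _
  eJ_mon := NatTrans.IsMonoidal.id
  jtv := Rt.trivMap hv r.j_h r.φ_h r.jtv
  Jtv X := by
    change (r.Jtv' h L' hv).hom.app X ≫ ((r.φ' h).F L₀ L').map (e₀.hom.app X) ≫
      ((r.φ' h).e L₀ L').hom.app (j₀.obj X) = 𝟙 _ ≫ _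
    rw [Jtv'_hom]
    simp [← Functor.map_comp_assoc]
  conn {A B Q i q} hc := by
    have h1 := (r.exists_conn h L' hc).choose_spec
    have h2 : 𝟙 _ ≫ (r.exists_conn h L' hc).choose ≫ (𝟙 _)⟦(1 : ℤ)⟧' =
        (r.exists_conn h L' hc).choose := by simp
    exact h2.symm ▸ h1

end Rel

end Vale.Agent.P236Z.Cat
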