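import Vale.Agent.P236Z.Cat.Asm

/-!
# P236: the inductive step of the construction of the tower: restriction, induction and norm
-/

open CategoryTheory Limits MonoidalCategory ZeroObject Pretriangulated
open Functor.LaxMonoidal Functor.OplaxMonoidal
open Vale.Agent.P251 Vale.Agent.P251.H Vale.Agent.P251.H.CofCat Vale.Agent.P251.H.TensorCofCat

noncomputable section
namespace Vale.Agent.P236Z.Cat

theorem cs_aux {A B E : Type*} [Category* A] [Category* B] [Category* E] [MonoidalCategory A]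
    [MonoidalCategory B] [MonoidalCategory E] {F₁ : A ⥤ B} {F₂ : B ⥤ E} {F₃ : A ⥤ E} [F₁.Monoidal]
    [F₂.Monoidal] [F₃.Monoidal] (τ : F₁ ⋙ F₂ ⟶ F₃) [h : NatTrans.IsMonoidal τ] {K₀ : A} {K₁ : B}
    {K₂ : E} (k₁ : F₁.obj K₀ ⟶ K₁) (k₂ : F₂.obj K₁ ⟶ K₂) (k₃ : F₃.obj K₀ ⟶ K₂)
    (hk : F₂.map k₁ ≫ k₂ = τ.app K₀ ≫ k₃) (X : A) :
    (F₂.map (δ F₁ X K₀ ≫ F₁.obj X ◁ k₁) ≫ δ F₂ _ K₁ ≫ F₂.obj (F₁.obj X) ◁ k₂) ≫ τ.app X ▷ K₂ =
      τ.app (X ⊗ K₀) ≫ δ F₃ X K₀ ≫ F₃.obj X ◁ k₃ := by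
  let x : ∀ Y, F₂.obj (F₁.obj Y) ⟶ F₃.obj Y := τ.app
  have m : (μ F₂ _ _ ≫ F₂.map (μ F₁ X K₀)) ≫ x (X ⊗ K₀) = (x X ⊗ₘ x K₀) ≫ μ F₃ X K₀ :=
    h.tensor X K₀
  have hk' : F₂.map k₁ ≫ k₂ = x K₀ ≫ k₃ := hk
  change (F₂.map (δ F₁ X K₀ ≫ F₁.obj X ◁ k₁) ≫ δ F₂ _ K₁ ≫ F₂.obj (F₁.obj X) ◁ k₂) ≫ x X ▷ K₂ =
      x (X ⊗ K₀) ≫ δ F₃ X K₀ ≫ F₃.obj X ◁ k₃
  rw [← cancel_epi (μ F₂ _ _ ≫ F₂.map (μ F₁ X K₀)), ← Category.assoc _ (x (X ⊗ K₀)), m]
  simp only [Category.assoc, ← Functor.map_comp_assoc, Functor.Monoidal.μ_δ_assoc]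
  rw [← δ_natural_right_assoc, Functor.Monoidal.μ_δ_assoc,
    ← MonoidalCategory.whiskerLeft_comp_assoc, hk', tensorHom_def', Category.assoc,
    MonoidalCategory.whiskerLeft_comp_assoc, whisker_exchange]

variable {C : Type 1} [Category.{0} C] [HasZeroObject C] [HasZeroMorphisms C]
  [HasBinaryCoproducts C] [CofCat C] [MonoidalCategory C] [SymmetricCategory C] [TensorCofCat C]
  {P : StabModel C} {D : Type 1} [Category.{0} D] (L : C ⥤ D) [L.IsLocalization (W (C := C))]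
  {t : Tw C} [TwI t] (h : TwP P t)
  {D' : Type 1} [Category.{0} D'] (L' : Rt t ⥤ D') [L'.IsLocalization (W (C := Rt t))]

namespace Rt

/-- the restriction of an object of the model -/
def xU (Y : Rt t) : (UL h L L').obj ((TT.L (stabModel h) L').obj Y) ≅ (TT.L P L).obj Y.obj :=
  (eU h L L').app Y

@[reassoc]
theorem xU_nat {X Y : Rt t} (f : X ⟶ Y) :
    (UL h L L').map ((TT.L (stabModel h) L').map f) ≫ (xU L h L' Y).hom =
      (xU L h L' X).hom ≫ (TT.L P L).map f.hom := (eU h L L').hom.naturality f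

/-- the restriction of a norm of the model -/
def xUN (Z : C) : (UL h L L').obj ((TT.L (stabModel h) L').obj ((N t).obj Z)) ⟶
    (TT.L P L).obj (Z ⊗ Z ⊗ Z) := (xU L h L' ((N t).obj Z)).hom

@[reassoc]
theorem xUN_nat {X Y : C} (f : (N t).obj X ⟶ (N t).obj Y) (g : X ⊗ X ⊗ X ⟶ Y ⊗ Y ⊗ Y)
    (hg : f.hom = g) : (UL h L L').map ((TT.L (stabModel h) L').map f) ≫ xUN L h L' Y =
      xUN L h L' X ≫ (TT.L P L).map g := hg ▸ xU_nat L h L' f

theorem N_inverts : (W (C := C)).IsInvertedBy (N t ⋙ TT.L (stabModel h) L') :=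
  fun _ _ f hf => Localization.inverts (TT.L (stabModel h) L') W ((N t).map f)
    (W.tensorHom_mem f _ hf (W.tensorHom_mem f f hf hf))

/-- the norm -/
def NL : TT P L ⥤ TT (stabModel h) L' := lf (TT.L P L) W _ (N_inverts h L')

instance : (NL L h L').Braided := inferInstanceAs (lf (TT.L P L) W _ (N_inverts h L')).Braided

/-- the norm is induced -/
def eN : TT.L P L ⋙ NL L h L' ≅ N t ⋙ TT.L (stabModel h) L' := lfIso (TT.L P L) W _ (N_inverts h L')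

instance : NatTrans.IsMonoidal (eN L h L').hom :=
  inferInstanceAs (NatTrans.IsMonoidal (lfIso (TT.L P L) W _ (N_inverts h L')).hom)

/-- the norm of an object of the model -/
def xN (Y : C) : (NL L h L').obj ((TT.L P L).obj Y) ≅ (TT.L (stabModel h) L').obj ((N t).obj Y) :=
  (eN L h L').app Y

@[reassoc]
theorem xN_nat {X Y : C} (f : X ⟶ Y) : (NL L h L').map ((TT.L P L).map f) ≫ (xN L h L' Y).hom =
    (xN L h L' X).hom ≫ (TT.L (stabModel h) L').map ((N t).map f) := (eN L h L').hom.naturality f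

/-- the restriction of the norm -/
def νL : NL L h L' ⋙ UL h L L' ≅ Cat.cube (TT P L) :=
  desc (TT.L P L) W (vc (eN L h L') (eU h L L') ≪≫ Functor.isoWhiskerRight (NU t) _ ≪≫
    (cubeIso (TT.L P L)).symm)

instance : NatTrans.IsMonoidal (νL L h L').hom := by unfold νL; infer_instance

/-- the restriction of the norm -/
def yν (Y : TT P L) : (UL h L L').obj ((NL L h L').obj Y) ⟶ Y ⊗ Y ⊗ Y := (νL L h L').hom.app Y

@[reassoc]
theorem yν_nat {X Y : TT P L} (f : X ⟶ Y) : (UL h L L').map ((NL L h L').map f) ≫ yν L h L' Y =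
    yν L h L' X ≫ (f ⊗ₘ f ⊗ₘ f) := (νL L h L').hom.naturality f

@[reassoc]
theorem yν_m3 (Z : C) : yν L h L' ((TT.L P L).obj Z) ≫ m3 (TT.L P L) Z Z Z =
    (UL h L L').map (xN L h L' Z).hom ≫ xUN L h L' Z := by
  have h1 : yν L h L' ((TT.L P L).obj Z) = ((UL h L L').map (xN L h L' Z).hom ≫ xUN L h L' Z) ≫
      (TT.L P L).map (𝟙 (Z ⊗ Z ⊗ Z)) ≫ inv (m3 (TT.L P L) Z Z Z) :=
    (desc_app _ _ _ Z).trans (congrArg (· ≫ _) (vc_hom (eN L h L') (eU h L L') Z))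
  rw [h1]
  simp

/-- the shear -/
def shL : Cat.cube (TT P L) ⋙ NL L h L' ≅ Cat.cube (TT P L) ⋙ NL L h L' :=
  desc (TT.L P L) W (vc (cubeIso (TT.L P L)) (eN L h L') ≪≫ Functor.isoWhiskerRight (sh t) _ ≪≫
    (vc (cubeIso (TT.L P L)) (eN L h L')).symm)

instance : NatTrans.IsMonoidal (shL L h L').hom := by unfold shL; infer_instance

/-- the shear -/
def ysh (Y : TT P L) : (NL L h L').obj (Y ⊗ Y ⊗ Y) ⟶ (NL L h L').obj (Y ⊗ Y ⊗ Y) :=
  (shL L h L').hom.app Y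

/-- the shear -/
def sh' (Z : C) : (N t).obj (Z ⊗ Z ⊗ Z) ⟶ (N t).obj (Z ⊗ Z ⊗ Z) := (sh t).hom.app Z

@[reassoc]
theorem ysh_m3 (Z : C) : ysh L h L' ((TT.L P L).obj Z) ≫ (NL L h L').map (m3 (TT.L P L) Z Z Z) ≫
    (xN L h L' (Z ⊗ Z ⊗ Z)).hom = (NL L h L').map (m3 (TT.L P L) Z Z Z) ≫
      (xN L h L' (Z ⊗ Z ⊗ Z)).hom ≫ (TT.L (stabModel h) L').map (sh' Z) := by
  have h1 : ysh L h L' ((TT.L P L).obj Z) = (vc (cubeIso (TT.L P L)) (eN L h L')).hom.app Z ≫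
      (TT.L (stabModel h) L').map (sh' Z) ≫ (vc (cubeIso (TT.L P L)) (eN L h L')).inv.app Z :=
    desc_app _ _ _ Z
  have h2 : (vc (cubeIso (TT.L P L)) (eN L h L')).hom.app Z =
    (NL L h L').map (m3 (TT.L P L) Z Z Z) ≫ (xN L h L' (Z ⊗ Z ⊗ Z)).hom := vc_hom _ _ Z
  refine (congrArg₂ (· ≫ ·) h1 h2.symm).trans ?_
  refine Eq.trans ?_ ((congrArg (· ≫ _) h2).trans (Category.assoc _ _ _))
  simp

variable {tD : Tw (TT P L)} (ht : ∀ X, (tD.h ((TT.L P L).obj X)).hom = (TT.L P L).map (t.h X).hom)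

/-- the central automorphism -/
abbrev tL : Tw (TT (stabModel h) L') := (tw t).loc (TT.L (stabModel h) L') W

theorem tL_h (X : Rt t) : ((tL h L').h ((TT.L (stabModel h) L').obj X)).hom =
    (TT.L (stabModel h) L').map ((tw t).h X).hom := (tw t).loc_h _ _ X

include ht in
theorem cube_hL (X : TT (stabModel h) L') : (UL h L L').map (((tL h L').h X).hom ≫
    ((tL h L').h X).hom ≫ ((tL h L').h X).hom) = (tD.h ((UL h L L').obj X)).hom :=
  ess_ext (TT.L (stabModel h) L') (F := UL h L L') (G := UL h L L')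
    (Functor.whiskerRight ((tL h L').nt ≫ (tL h L').nt ≫ (tL h L').nt) (UL h L L'))
    ((UL h L L').whiskerLeft tD.nt) (fun Y => by
      change (UL h L L').map (((tL h L').h ((TT.L (stabModel h) L').obj Y)).hom ≫
        ((tL h L').h ((TT.L (stabModel h) L').obj Y)).hom ≫
        ((tL h L').h ((TT.L (stabModel h) L').obj Y)).hom) =
        (tD.h ((UL h L L').obj ((TT.L (stabModel h) L').obj Y))).hom
      rw [← cancel_mono (xU L h L' Y).hom, ← tD.nat, ht, tL_h, ← Functor.map_comp,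
        ← Functor.map_comp, xU_nat, ← Y.cube]
      rfl) X

include ht in
theorem ν_hL (Y : TT P L) : (UL h L L').map ((tL h L').h ((NL L h L').obj Y)).hom ≫ yν L h L' Y =
    yν L h L' Y ≫ tD.rot Y :=
  ess_ext (TT.L P L) (F := NL L h L' ⋙ UL h L L') (G := Cat.cube _)
    ((NL L h L').whiskerLeft (Functor.whiskerRight (tL h L').nt (UL h L L')) ≫ (νL L h L').hom)
    ((νL L h L').hom ≫ tD.rotN) (fun Z => by
      change (UL h L L').map ((tL h L').h _).hom ≫ yν L h L' _ = yν L h L' _ ≫ tD.rot _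
      rw [← cancel_mono (m3 (TT.L P L) Z Z Z), Category.assoc, Category.assoc, yν_m3,
        trot_m3 _ (ht Z).symm, yν_m3_assoc, ← Functor.map_comp_assoc, ← (tL h L').nat, tL_h,
        Functor.map_comp_assoc, xUN_nat L h L' _ (t.rot Z) rfl]) Y

include ht in
theorem sh_UL (Y : TT P L) : (UL h L L').map (ysh L h L' Y) ≫ yν L h L' (Y ⊗ Y ⊗ Y) =
    yν L h L' (Y ⊗ Y ⊗ Y) ≫ tD.shear Y := by
  rw [← tD.shearN_app]
  refine ess_ext (TT.L P L) (F := Cat.cube _ ⋙ NL L h L' ⋙ UL h L L') (G := Cat.cube _ ⋙ Cat.cube _)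
    (Functor.whiskerRight (shL L h L').hom (UL h L L') ≫ (Cat.cube _).whiskerLeft (νL L h L').hom)
    ((Cat.cube _).whiskerLeft (νL L h L').hom ≫ tD.shearN) (fun Z => ?_) Y
  change (UL h L L').map (ysh L h L' _) ≫ yν L h L' _ = yν L h L' _ ≫ tD.shearN.app _
  have hi : IsIso ((m3 (TT.L P L) Z Z Z ⊗ₘ m3 (TT.L P L) Z Z Z ⊗ₘ m3 (TT.L P L) Z Z Z)) :=
    inferInstance
  rw [tD.shearN_app, ← cancel_mono ((m3 (TT.L P L) Z Z Z ⊗ₘ m3 (TT.L P L) Z Z Z ⊗ₘ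
    m3 (TT.L P L) Z Z Z) ≫ m3 (TT.L P L) _ _ _), Category.assoc, Category.assoc,
    t.shear_m3 _ (ht Z).symm, ← yν_nat_assoc, ← yν_nat_assoc, yν_m3, yν_m3_assoc,
    ← Functor.map_comp_assoc, ← Functor.map_comp_assoc, Category.assoc, ysh_m3,
    Functor.map_comp_assoc, Functor.map_comp_assoc, xUN_nat L h L' _ (t.shear Z) rfl]

include ht in
theorem sh_rotL (Y : TT P L) : (NL L h L').map (tD.rot Y) ≫ ysh L h L' Y =
    ysh L h L' Y ≫ (NL L h L').map (rot Y Y Y ≫ rot Y Y Y) ≫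
      ((tL h L').h ((NL L h L').obj (Y ⊗ Y ⊗ Y))).hom :=
  ess_ext (TT.L P L) (F := Cat.cube _ ⋙ NL L h L') (G := Cat.cube _ ⋙ NL L h L')
    (Functor.whiskerRight tD.rotN (NL L h L') ≫ (shL L h L').hom)
    ((shL L h L').hom ≫ Functor.whiskerRight (rotN _ ≫ rotN _) (NL L h L') ≫
      (Cat.cube _ ⋙ NL L h L').whiskerLeft (tL h L').nt) (fun Z => by
    change (NL L h L').map (tD.rot _) ≫ ysh L h L' _ = ysh L h L' _ ≫
      (NL L h L').map (rot _ _ _ ≫ rot _ _ _) ≫ ((tL h L').h ((NL L h L').obj (_ ⊗ _ ⊗ _))).hom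
    have e : (N t).map (t.rot Z) ≫ sh' Z = sh' Z ≫ (N t).map (rot Z Z Z ≫ rot Z Z Z) ≫
        ((tw t).h _).hom := hom_ext (t.shear_rot Z)
    rw [← cancel_mono ((NL L h L').map (m3 (TT.L P L) Z Z Z) ≫ (xN L h L' (Z ⊗ Z ⊗ Z)).hom),
      Category.assoc, Category.assoc, Category.assoc, ysh_m3, ← (tL h L').nat, tL_h,
      ← Functor.map_comp_assoc, trot_m3 _ (ht Z).symm, Functor.map_comp_assoc, xN_nat_assoc,
      ← Functor.map_comp, e, Category.assoc, ← Functor.map_comp_assoc (NL L h L') (_ ≫ _),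
      Category.assoc, rot_m3, rot_m3_assoc, ← Functor.map_comp,
      Functor.map_comp_assoc (NL L h L') (m3 _ _ _ _), xN_nat_assoc, ysh_m3_assoc, Functor.map_comp, Functor.map_comp (TT.L (stabModel h) L')]) Y

end Rt

end Vale.Agent.P236Z.Cat
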