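import Vale.Agent.P236Z.Cat.Asm2

/-!
# P236: the inductive step of the construction of the tower: the step
-/

open CategoryTheory Limits MonoidalCategory ZeroObject Pretriangulated
open Functor.LaxMonoidal Functor.OplaxMonoidal
open Vale.Agent.P251 Vale.Agent.P251.H Vale.Agent.P251.H.CofCat Vale.Agent.P251.H.TensorCofCat

noncomputable section
namespace Vale.Agent.P236Z.Cat

variable {C : Type 1} [Category.{0} C] [HasZeroObject C] [HasZeroMorphisms C]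
  [HasBinaryCoproducts C] [CofCat C] [MonoidalCategory C] [SymmetricCategory C] [TensorCofCat C]
  [HasCoproducts.{0} C] [∀ J : Type, CofCoproducts C J]
  {C₀ : Type 1} [Category.{0} C₀] [HasZeroObject C₀] [HasZeroMorphisms C₀]
  [HasBinaryCoproducts C₀] [CofCat C₀] [MonoidalCategory C₀] [SymmetricCategory C₀]
  [TensorCofCat C₀] [HasCoproducts.{0} C₀] [∀ J : Type, CofCoproducts C₀ J]
  {P₀ : StabModel C₀} {D₀ : Type 1} [Category.{0} D₀] {L₀ : C₀ ⥤ D₀}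
  [L₀.IsLocalization (W (C := C₀))]
  {P : StabModel C} {D : Type 1} [Category.{0} D] {L : C ⥤ D} [L.IsLocalization (W (C := C))]
  {g₀ : Good P₀ L₀} {F : I.SpaceFunctor g₀.T.C} {j₀ : I.FCat ⥤ C₀} [j₀.Braided]
  {e₀ : F.S ≅ j₀ ⋙ TT.L P₀ L₀} {g : Good P L} {t : Tw C}
  {K : Type 1} [Category.{0} K] [MonoidalCategory K] [SymmetricCategory K] {tK : Tw K}
  {u : K ⥤ I.FCat} {v : I.FCat ⥤ K} [v.Braided]
  {Lv : Lvl g₀.T F g.T tK u v} (r : Rel e₀ g t Lv) [TwI t] (h : TwP P t)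
  {D' : Type 1} [Category.{0} D'] (L' : Rt t ⥤ D') [L'.IsLocalization (W (C := Rt t))]

namespace Rel

open Rt

/-- the trivial action functor of the level -/
abbrev tvF (Lv : Lvl g₀.T F g.T tK u v) : TT P₀ L₀ ⥤ TT P L := Lv.tv.F

/-- the suspension spectra of the level -/
abbrev JF (Lv : Lvl g₀.T F g.T tK u v) : K ⥤ TT P L := Lv.J

/-- the restriction of the trivial action -/
def tvU : (r.φ' h).F L₀ L' ⋙ UL h L L' ≅ tvF Lv :=
  desc (TT.L P₀ L₀) W (vc ((r.φ' h).e L₀ L') (eU h L L') ≪≫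
    Functor.isoWhiskerRight (trivU r.φ.Φ r.φ_h) _ ≪≫ r.l.e.symm)

instance : NatTrans.IsMonoidal (r.tvU h L').hom := by unfold tvU; infer_instance

/-- the trivial action on an object of the model -/
def xT (Y : C₀) : ((r.φ' h).F L₀ L').obj ((TT.L P₀ L₀).obj Y) ⟶
    (TT.L (stabModel h) L').obj ((triv r.φ.Φ r.φ_h).obj Y) := ((r.φ' h).e L₀ L').hom.app Y

/-- the trivial action on an object of the model -/
def xl (Y : C₀) : (tvF Lv).obj ((TT.L P₀ L₀).obj Y) ≅ (TT.L P L).obj (r.φ.Φ.obj Y) := r.l.e.app Y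

/-- the restriction of the trivial action on an object of the model -/
def xUT (Y : C₀) : (UL h L L').obj ((TT.L (stabModel h) L').obj ((triv r.φ.Φ r.φ_h).obj Y)) ⟶
    (TT.L P L).obj (r.φ.Φ.obj Y) := (xU L h L' ((triv r.φ.Φ r.φ_h).obj Y)).hom

/-- the restriction of the trivial action -/
def ytv (X : TT P₀ L₀) : (UL h L L').obj (((r.φ' h).F L₀ L').obj X) ⟶ (tvF Lv).obj X :=
  (r.tvU h L').hom.app X

@[reassoc]
theorem ytv_nat {X Y : TT P₀ L₀} (f : X ⟶ Y) :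
    (UL h L L').map (((r.φ' h).F L₀ L').map f) ≫ r.ytv h L' Y = r.ytv h L' X ≫ (tvF Lv).map f :=
  (r.tvU h L').hom.naturality f

@[reassoc]
theorem ytv_xl (Y : C₀) : r.ytv h L' ((TT.L P₀ L₀).obj Y) ≫ (r.xl Y).hom =
    (UL h L L').map (r.xT h L' Y) ≫ r.xUT h L' Y := by
  have h1 : r.ytv h L' ((TT.L P₀ L₀).obj Y) = ((UL h L L').map (r.xT h L' Y) ≫ r.xUT h L' Y) ≫
      (TT.L P L).map (𝟙 (r.φ.Φ.obj Y)) ≫ (r.xl Y).inv :=
    (desc_app _ _ _ Y).trans (congrArg (· ≫ _) (vc_hom ((r.φ' h).e L₀ L') (eU h L L') Y))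
  rw [h1]
  simp

theorem tvU_k : (UL h L L').map ((r.φ' h).lft L₀ L').k ≫ ((mfU h).lft L' L).k =
    r.ytv h L' (KK P₀ L₀) ≫ r.l.k := by
  let s : (triv r.φ.Φ r.φ_h).obj P₀.m.S ⟶ (stabModel h).m.S := (r.φ' h).s.hom
  have h1 : ((r.φ' h).F L₀ L').map (κ P₀ L₀).hom ≫ ((r.φ' h).lft L₀ L').k =
      r.xT h L' P₀.m.S ≫ (TT.L (stabModel h) L').map s ≫ (κ (stabModel h) L').hom :=
    ((r.φ' h).lft L₀ L').hk
  have h2 : (UL h L L').map (κ (stabModel h) L').hom ≫ ((mfU h).lft L' L).k =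
      (xU L h L' (stabModel h).m.S).hom ≫ (κ P L).hom :=
    ((mfU h).lft L' L).hk.trans (congrArg (_ ≫ ·)
      ((congrArg (· ≫ _) ((TT.L P L).map_id P.m.S)).trans (Category.id_comp _)))
  have h3 : (tvF Lv).map (κ P₀ L₀).hom ≫ r.l.k =
      (r.xl P₀.m.S).hom ≫ (TT.L P L).map r.φ.s.hom ≫ (κ P L).hom := r.l.hk
  rw [← cancel_epi ((UL h L L').map (((r.φ' h).F L₀ L').map (κ P₀ L₀).hom)), ytv_nat_assoc, h3,
    ytv_xl_assoc, ← Functor.map_comp_assoc, h1, Functor.map_comp_assoc, Functor.map_comp_assoc, h2]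
  exact congrArg (_ ≫ ·) (xU_nat_assoc L h L' s _)

theorem tvU_cs : NatTrans.CommShift (r.tvU h L').hom ℤ :=
  S.natTrans_commShift_of_one _ fun X => by
    rw [Functor.commShiftIso_comp_hom_app, ((r.φ' h).lft L₀ L').hcs, ((mfU h).lft L' L).hcs,
      r.l.hcs]
    exact cs_aux (r.tvU h L').hom _ _ _ (r.tvU_k h L') X

/-- the restriction of suspension spectra -/
def JU : (r.j' ⋙ TT.L (stabModel h) L') ⋙ UL h L L' ≅ U tK ⋙ JF Lv :=
  hc (mapU r.j r.j_h) (eU h L L') ≪≫ Functor.isoWhiskerLeft (U tK) r.eJ.symm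

instance : NatTrans.IsMonoidal (r.JU h L').hom := by unfold JU; infer_instance

/-- the suspension spectra -/
def xJ (X : K) : (JF Lv).obj X ≅ (TT.L P L).obj (r.j.obj X) := r.eJ.app X

/-- the restriction of suspension spectra -/
def xUJ (X : Rt tK) : (UL h L L').obj ((TT.L (stabModel h) L').obj (r.j'.obj X)) ≅
    (TT.L P L).obj (r.j.obj X.obj) := xU L h L' (r.j'.obj X)

theorem JU_hom (X : Rt tK) : (r.JU h L').hom.app X = (r.xUJ h L' X).hom ≫ (r.xJ X.obj).inv := by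
  have h1 : (r.JU h L').hom.app X = ((r.xUJ h L' X).hom ≫ (TT.L P L).map (𝟙 (r.j.obj X.obj))) ≫
      (r.xJ X.obj).inv := congrArg (· ≫ _) (hc_hom (mapU r.j r.j_h) (eU h L L') X)
  rw [h1, CategoryTheory.Functor.map_id, Category.comp_id]

/-- the norm of suspension spectra -/
def JN : JF Lv ⋙ NL L h L' ≅ N tK ⋙ r.j' ⋙ TT.L (stabModel h) L' :=
  Functor.isoWhiskerRight r.eJ _ ≪≫ hc (mapN r.j r.j_h) (eN L h L')

instance : NatTrans.IsMonoidal (r.JN h L').hom := by unfold JN; infer_instance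

theorem JN_U (X : K) : (UL h L L').map ((r.JN h L').hom.app X) ≫ (r.JU h L').hom.app ((N tK).obj X) =
    yν L h L' ((JF Lv).obj X) ≫ m3 (JF Lv) X X X := by
  let a : (N t).obj (r.j.obj X) ⟶ r.j'.obj ((N tK).obj X) := (mapN r.j r.j_h).hom.app X
  have h1 : (r.JN h L').hom.app X = (NL L h L').map (r.xJ X).hom ≫ (xN L h L' (r.j.obj X)).hom ≫
      (TT.L (stabModel h) L').map a := congrArg (_ ≫ ·) (hc_hom (mapN r.j r.j_h) (eN L h L') X)
  have h2 : ((r.xJ X).hom ⊗ₘ (r.xJ X).hom ⊗ₘ (r.xJ X).hom) ≫ m3 (TT.L P L) _ _ _ ≫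
      (TT.L P L).map (m3 r.j X X X) = m3 (JF Lv) X X X ≫ (r.xJ (X ⊗ X ⊗ X)).hom :=
    (congrArg (_ ≫ ·) (m3_comp r.j (TT.L P L) X X X).symm).trans (m3_mon r.eJ.hom X X X)
  have h3 : (UL h L L').map ((TT.L (stabModel h) L').map a) ≫ (r.xUJ h L' ((N tK).obj X)).hom =
      xUN L h L' (r.j.obj X) ≫ (TT.L P L).map (m3 r.j X X X) := xU_nat L h L' a
  refine (congrArg₂ (fun a b => (UL h L L').map a ≫ b) h1 (r.JU_hom h L' _)).trans ?_
  rw [← Category.assoc]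
  refine (Iso.comp_inv_eq (r.xJ (X ⊗ X ⊗ X))).2 ?_
  rw [Category.assoc, ← h2, ← yν_nat_assoc, yν_m3_assoc, ← h3, Functor.map_comp, Functor.map_comp,
    Category.assoc, Category.assoc]
  rfl

variable (hv : ∀ X, (tK.h (v.obj X)).hom = 𝟙 _) [NatTrans.IsMonoidal e₀.hom]

theorem JU_tv (X : I.FCat) :
    (UL h L L').map ((r.Jtv' h L' hv).hom.app X) ≫ r.ytv h L' (F.S.obj X) =
      (r.JU h L').hom.app ((triv v hv).obj X) ≫ Lv.Jtv.hom.app X := by
  let a : r.j'.obj ((triv v hv).obj X) ⟶ (triv r.φ.Φ r.φ_h).obj (j₀.obj X) :=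
    (trivMap hv r.j_h r.φ_h r.jtv).hom.app X
  let b : (TT.L (stabModel h) L').obj (r.j'.obj ((triv v hv).obj X)) ⟶
    ((r.φ' h).F L₀ L').obj (F.S.obj X) := (r.Jtv' h L' hv).hom.app X
  let c : (JF Lv).obj (v.obj X) ⟶ (tvF Lv).obj (F.S.obj X) := Lv.Jtv.hom.app X
  let e : F.S.obj X ≅ (TT.L P₀ L₀).obj (j₀.obj X) := e₀.app X
  let d : r.j.obj (v.obj X) ⟶ r.φ.Φ.obj (j₀.obj X) := r.jtv.hom.app X
  let y : (UL h L L').obj ((TT.L (stabModel h) L').obj (r.j'.obj ((triv v hv).obj X))) ⟶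
    (TT.L P L).obj (r.j.obj (v.obj X)) := (r.xUJ h L' ((triv v hv).obj X)).hom
  have h1 : b ≫ ((r.φ' h).F L₀ L').map e.hom ≫ r.xT h L' (j₀.obj X) =
      𝟙 _ ≫ (TT.L (stabModel h) L').map a := (r.next h L' hv).Jtv X
  have h2 : c ≫ (tvF Lv).map e.hom ≫ (r.xl (j₀.obj X)).hom =
      (r.xJ (v.obj X)).hom ≫ (TT.L P L).map d := r.Jtv X
  have h3 : (UL h L L').map ((TT.L (stabModel h) L').map a) ≫ r.xUT h L' (j₀.obj X) =
      y ≫ (TT.L P L).map d := xU_nat L h L' a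
  refine Eq.trans ?_ (congrArg (· ≫ c) (r.JU_hom h L' ((triv v hv).obj X)).symm)
  change (UL h L L').map b ≫ r.ytv h L' (F.S.obj X) = (y ≫ (r.xJ (v.obj X)).inv) ≫ c
  rw [← cancel_mono ((tvF Lv).map e.hom ≫ (r.xl (j₀.obj X)).hom), Category.assoc, Category.assoc,
    Category.assoc, h2, Iso.inv_hom_id_assoc, ← ytv_nat_assoc, ytv_xl, ← Functor.map_comp_assoc,
    ← Functor.map_comp_assoc, Category.assoc, h1, Category.id_comp, h3]

omit [NatTrans.IsMonoidal e₀.hom] in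
theorem cδ_U {A B Q : Rt tK} {i : A ⟶ B} {q : B ⟶ Q} (hc : IsCof (U tK ⋙ u) i q) :
    (UL h L L').map (r.exists_conn h L' hc).choose ≫
      ((UL h L L').commShiftIso (1 : ℤ)).hom.app _ ≫ ((r.JU h L').hom.app A)⟦(1 : ℤ)⟧' =
      (r.JU h L').hom.app Q ≫ Lv.cδ (i := i.hom) (q := q.hom) hc := by
  let d : (JF Lv).obj Q.obj ⟶ ((JF Lv).obj A.obj)⟦(1 : ℤ)⟧ := Lv.cδ (i := i.hom) (q := q.hom) hc
  have h1 : (r.xUJ h L' Q).inv ≫ (UL h L L').map (r.exists_conn h L' hc).choose ≫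
      ((UL h L L').commShiftIso (1 : ℤ)).hom.app _ ≫ (r.xUJ h L' A).hom⟦(1 : ℤ)⟧' =
      (r.xJ Q.obj).inv ≫ d ≫ (r.xJ A.obj).hom⟦(1 : ℤ)⟧' :=
    (((mfU h).lft L' L).conn (r.exists_conn h L' hc).choose_spec).unique
      (r.conn (i := i.hom) (q := q.hom) hc)
  rw [Iso.inv_comp_eq] at h1
  rw [JU_hom, JU_hom]
  change (UL h L L').map (r.exists_conn h L' hc).choose ≫
      ((UL h L L').commShiftIso (1 : ℤ)).hom.app _ ≫
        ((r.xUJ h L' A).hom ≫ (r.xJ A.obj).inv)⟦(1 : ℤ)⟧' =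
      ((r.xUJ h L' Q).hom ≫ (r.xJ Q.obj).inv) ≫ d
  rw [Functor.map_comp, reassoc_of% h1, ← Functor.map_comp, Iso.hom_inv_id,
    CategoryTheory.Functor.map_id, Category.comp_id, Category.assoc]

/-- the step -/
def step : Step (hv := hv) Lv (r.lvl h L' hv) where
  U := ((mfU h).lft L' L).exF _ _
  cons := cons h L L' g.sat
  cube_h := cube_hL L h L' r.ht
  ind := indL h L L'
  adj := adjL h L L'
  cofan := cofanL h L L' _ (tL_h h L')
  N := NL L h L'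
  ν := νL L h L'
  ν_h := ν_hL L h L' r.ht
  sh := shL L h L'
  sh_U := sh_UL L h L' r.ht
  sh_rot := sh_rotL L h L' r.ht
  tvU := r.tvU h L'
  tvU_cs := r.tvU_cs h L'
  JU := r.JU h L'
  JU_tv := r.JU_tv h L' hv
  cδ_U := r.cδ_U h L'
  JN := r.JN h L'
  JN_U := r.JN_U h L'

end Rel

end Vale.Agent.P236Z.Cat
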