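import Mathlib.CategoryTheory.Monoidal.Braided.Basic
import Mathlib.CategoryTheory.Monoidal.NaturalTransformation

/-!
# P236: third tensor powers in symmetric monoidal categories

`Tw D`: a monoidal automorphism `h` of the identity functor. `cube D`: the functor `Y ↦ Y ⊗ Y ⊗ Y`.
`rot`: the rotation `a ⊗ b ⊗ c ↦ c ⊗ a ⊗ b`; `t.rot Y`: the twisted rotation
`a ⊗ b ⊗ c ↦ h c ⊗ a ⊗ b`, with third power `h ⊗ h ⊗ h`. `t.shear Y`: the isomorphism which defines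
the norm maps.
-/

open CategoryTheory MonoidalCategory Functor.LaxMonoidal Functor.OplaxMonoidal

universe v u v' u'

namespace Vale.Agent.P236Z.Cat

/-- a monoidal natural automorphism of the identity functor -/
structure Tw (D : Type u) [Category.{v} D] [MonoidalCategory D] where
  /-- the automorphisms -/
  h : ∀ X : D, X ≅ X
  nat : ∀ {X Y : D} (f : X ⟶ Y), f ≫ (h Y).hom = (h X).hom ≫ f
  ten : ∀ X Y : D, (h (X ⊗ Y)).hom = (h X).hom ⊗ₘ (h Y).hom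
  one : (h (𝟙_ D)).hom = 𝟙 _

variable {D : Type u} [Category.{v} D] [MonoidalCategory D]

/-- the identity -/
def Tw.id (D : Type u) [Category.{v} D] [MonoidalCategory D] : Tw D where
  h X := Iso.refl X
  nat f := by simp
  ten X Y := by simp
  one := rfl

variable [SymmetricCategory D]

@[reassoc]
theorem tensorμ_β (A B C E : D) : tensorμ A B C E ≫ ((β_ A C).hom ⊗ₘ (β_ B E).hom) =
    (β_ (A ⊗ B) (C ⊗ E)).hom ≫ tensorμ C E A B := by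
  simp [tensorμ, tensorHom_def]
  rw [← MonoidalCategory.whiskerLeft_comp_assoc C ((β_ A E).hom ▷ B), ← comp_whiskerRight,
    SymmetricCategory.symmetry]
  simp

@[reassoc]
theorem tensorμ_β' (A B C E : D) : tensorμ A B C E ≫ (β_ (A ⊗ C) (B ⊗ E)).hom =
    ((β_ A B).hom ⊗ₘ (β_ C E).hom) ≫ tensorμ B A E C := by
  simp [tensorμ, SymmetricCategory.braiding_swap_eq_inv_braiding C B, tensorHom_def]

variable (D) in
/-- the functor `Y ↦ Y ⊗ Y ⊗ Y` -/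
abbrev cube : D ⥤ D where
  obj Y := Y ⊗ Y ⊗ Y
  map f := f ⊗ₘ f ⊗ₘ f

/-- the shuffle -/
def mix (A B C A' B' C' : D) :
    (A ⊗ B ⊗ C) ⊗ (A' ⊗ B' ⊗ C') ⟶ (A ⊗ A') ⊗ (B ⊗ B') ⊗ (C ⊗ C') :=
  tensorμ A (B ⊗ C) A' (B' ⊗ C') ≫ (A ⊗ A') ◁ tensorμ B C B' C'

@[reassoc]
theorem mix_natural {A B C A' B' C' X Y Z X' Y' Z' : D} (a : A ⟶ X) (b : B ⟶ Y) (c : C ⟶ Z)
    (a' : A' ⟶ X') (b' : B' ⟶ Y') (c' : C' ⟶ Z') :
    ((a ⊗ₘ b ⊗ₘ c) ⊗ₘ (a' ⊗ₘ b' ⊗ₘ c')) ≫ mix X Y Z X' Y' Z' =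
      mix A B C A' B' C' ≫ ((a ⊗ₘ a') ⊗ₘ (b ⊗ₘ b') ⊗ₘ (c ⊗ₘ c')) := by
  simp only [mix, tensorμ_natural_assoc, Category.assoc, ← id_tensorHom, tensorHom_comp_tensorHom,
    Category.comp_id, Category.id_comp, tensorμ_natural]

instance : (cube D).Monoidal :=
  inferInstanceAs ((𝟭 D).prod' ((𝟭 D).prod' (𝟭 D) ⋙ tensor D) ⋙ tensor D).Monoidal

theorem cube_μ (X Y : D) : μ (cube D) X Y = mix X X X Y Y Y := by
  change tensorμ X (X ⊗ X) Y (Y ⊗ Y) ≫ ((μ ((𝟭 D).prod' ((𝟭 D).prod' (𝟭 D) ⋙ tensor D)) X Y).1 ⊗ₘ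
    (μ ((𝟭 D).prod' ((𝟭 D).prod' (𝟭 D) ⋙ tensor D)) X Y).2) = _
  simp [mix]

theorem cube_ε : ε (cube D) = (λ_ (𝟙_ D)).inv ≫ 𝟙_ D ◁ (λ_ (𝟙_ D)).inv := by
  change (λ_ (𝟙_ D)).inv ≫ ((ε ((𝟭 D).prod' ((𝟭 D).prod' (𝟭 D) ⋙ tensor D))).1 ⊗ₘ
    (ε ((𝟭 D).prod' ((𝟭 D).prod' (𝟭 D) ⋙ tensor D))).2) = _
  simp

instance : (cube D).Braided where
  braided X Y := by
    simp only [cube_μ, mix, Category.assoc]
    rw [← tensorμ_β_assoc, ← id_tensorHom, ← id_tensorHom, tensorHom_comp_tensorHom,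
      tensorHom_comp_tensorHom, tensorμ_β, Category.comp_id, Category.id_comp]

/-- the rotation `a ⊗ b ⊗ c ↦ c ⊗ a ⊗ b` -/
def rot (A B C : D) : A ⊗ B ⊗ C ⟶ C ⊗ A ⊗ B := (α_ A B C).inv ≫ (β_ (A ⊗ B) C).hom

instance (A B C : D) : IsIso (rot A B C) := by unfold rot; infer_instance

@[reassoc]
theorem rot_natural {A B C X Y Z : D} (a : A ⟶ X) (b : B ⟶ Y) (c : C ⟶ Z) :
    (a ⊗ₘ b ⊗ₘ c) ≫ rot X Y Z = rot A B C ≫ (c ⊗ₘ a ⊗ₘ b) := by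
  simp only [rot, associator_inv_naturality_assoc, Category.assoc, BraidedCategory.braiding_naturality]

@[reassoc (attr := simp)]
theorem rot_rot_rot (A B C : D) : rot A B C ≫ rot C A B ≫ rot B C A = 𝟙 _ := by
  have h : rot C A B ≫ rot B C A = (β_ C (A ⊗ B)).hom ≫ (α_ A B C).hom := by
    simp only [rot, BraidedCategory.braiding_tensor_left_hom,
      BraidedCategory.braiding_tensor_right_hom, Category.assoc, Iso.inv_hom_id_assoc,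
      Iso.inv_hom_id, Category.comp_id]
    rw [← reassoc_of% BraidedCategory.yang_baxter C A B, Iso.hom_inv_id_assoc,
      ← comp_whiskerRight_assoc (β_ A B).hom, SymmetricCategory.symmetry]
    simp
  rw [h, rot, Category.assoc, SymmetricCategory.symmetry_assoc, Iso.inv_hom_id]

@[reassoc]
theorem mix_rot (A B C A' B' C' : D) : mix A B C A' B' C' ≫ rot _ _ _ =
    (rot A B C ⊗ₘ rot A' B' C') ≫ mix C A B C' A' B' := by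
  have h : mix A B C A' B' C' ≫ (α_ _ _ _).inv = ((α_ A B C).inv ⊗ₘ (α_ A' B' C').inv) ≫
      tensorμ (A ⊗ B) C (A' ⊗ B') C' ≫ tensorμ A B A' B' ▷ (C ⊗ C') := by
    rw [Iso.comp_inv_eq, Category.assoc, Category.assoc, associator_monoidal,
      tensorHom_comp_tensorHom_assoc, Iso.inv_hom_id, Iso.inv_hom_id, id_tensorHom_id,
      Category.id_comp, mix]
  rw [rot, reassoc_of% h, BraidedCategory.braiding_naturality_left, tensorμ_β'_assoc, rot, rot,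
    ← tensorHom_comp_tensorHom, Category.assoc, mix]

theorem ε_rot : ε (cube D) ≫ rot _ _ _ = ε (cube D) := by
  simp [cube_ε, rot]
  monoidal

/-- the transposition of the ninth tensor power -/
def tr3 (Y : D) : (Y ⊗ Y ⊗ Y) ⊗ (Y ⊗ Y ⊗ Y) ⊗ (Y ⊗ Y ⊗ Y) ⟶
    (Y ⊗ Y ⊗ Y) ⊗ (Y ⊗ Y ⊗ Y) ⊗ (Y ⊗ Y ⊗ Y) :=
  (Y ⊗ Y ⊗ Y) ◁ mix Y Y Y Y Y Y ≫ mix Y Y Y (Y ⊗ Y) (Y ⊗ Y) (Y ⊗ Y)

namespace Tw

variable (t : Tw D)

/-- the twisted rotation `a ⊗ b ⊗ c ↦ h c ⊗ a ⊗ b` -/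
def rot (Y : D) : Y ⊗ Y ⊗ Y ⟶ Y ⊗ Y ⊗ Y := Cat.rot Y Y Y ≫ ((t.h Y).hom ⊗ₘ 𝟙 Y ⊗ₘ 𝟙 Y)

instance (Y : D) : IsIso (t.rot Y) := by unfold rot; infer_instance

@[reassoc]
theorem rot_natural {X Y : D} (f : X ⟶ Y) :
    (f ⊗ₘ f ⊗ₘ f) ≫ t.rot Y = t.rot X ≫ (f ⊗ₘ f ⊗ₘ f) := by
  simp only [rot, rot_natural_assoc, Category.assoc, tensorHom_comp_tensorHom, t.nat,
    Category.comp_id, Category.id_comp]

theorem rot_cube (Y : D) : t.rot Y ≫ t.rot Y ≫ t.rot Y = (t.h (Y ⊗ Y ⊗ Y)).hom := by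
  simp only [rot, Cat.rot_natural_assoc, Category.assoc, tensorHom_comp_tensorHom, t.ten,
    Category.comp_id, Category.id_comp, rot_rot_rot_assoc]

@[reassoc]
theorem mix_rot (X Y : D) :
    mix X X X Y Y Y ≫ t.rot (X ⊗ Y) = (t.rot X ⊗ₘ t.rot Y) ≫ mix X X X Y Y Y := by
  rw [rot, mix_rot_assoc, rot, rot, ← tensorHom_comp_tensorHom, Category.assoc, mix_natural, t.ten,
    id_tensorHom_id X Y]

theorem ε_rot : ε (cube D) ≫ t.rot (𝟙_ D) = ε (cube D) := by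
  rw [rot, t.one, id_tensorHom_id, id_tensorHom_id, Category.comp_id, Cat.ε_rot]

/-- the isomorphism which defines the norm maps -/
def shear (Y : D) : (Y ⊗ Y ⊗ Y) ⊗ (Y ⊗ Y ⊗ Y) ⊗ (Y ⊗ Y ⊗ Y) ⟶
    (Y ⊗ Y ⊗ Y) ⊗ (Y ⊗ Y ⊗ Y) ⊗ (Y ⊗ Y ⊗ Y) :=
  (𝟙 _ ⊗ₘ t.rot Y ⊗ₘ (t.rot Y ≫ t.rot Y)) ≫ tr3 Y ≫
    (𝟙 _ ⊗ₘ (Cat.rot Y Y Y ≫ Cat.rot Y Y Y) ⊗ₘ Cat.rot Y Y Y)

end Tw

end Vale.Agent.P236Z.Cat
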