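import Vale.Agent.P236Z.Cat.Rt
import Vale.Agent.P251.H.BrownApp
import Vale.Agent.P251.I.Spaces
import Vale.Agent.P251.St.Base
import Mathlib.CategoryTheory.Triangulated.Functor

/-!
# P236: the interface of the Borel equivariant categories for the groups `1 ⊆ C₃ ⊆ C₉`

`Lvl` is one level (a tensor triangulated category with the central action `t` of the generator of
the group, the trivial action functor `tv`, and the suspension spectrum functor `J` of the spaces with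
an action). `Step` relates two consecutive levels (restriction `U`, induction `ind`, norm `N`).
`Tower` collects the three levels. All further properties (transfer, projection formula, norm maps
of rings, additivity of the norm) are consequences of the fields.
-/

open CategoryTheory MonoidalCategory Limits Pretriangulated
open Functor.LaxMonoidal Functor.OplaxMonoidal
open Vale.Agent.P251 Vale.Agent.P251.T Vale.Agent.P251.G

namespace Vale.Agent.P236Z.Cat

/-- a closed tensor triangulated category with a compact generator (not the unit in general) -/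
structure TTC where
  /-- the objects -/
  C : Type 1
  [cat : Category.{0} C]
  [preadditive : Preadditive C]
  [zero : HasZeroObject C]
  [shift : HasShift C ℤ]
  [additive : ∀ n : ℤ, (shiftFunctor C n).Additive]
  [pretriangulated : Pretriangulated C]
  [triangulated : IsTriangulated C]
  [monoidal : MonoidalCategory C]
  [symmetric : SymmetricCategory C]
  [tensor : TensorTriangulated C]
  [closed : MonoidalClosed C]
  [coproducts : HasCoproducts.{0} C]
  [products : HasProducts.{0} C]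
  /-- the generator -/
  G : C
  cpt : H.IsCpt G
  gen : H.IsGen G

attribute [instance] TTC.cat TTC.preadditive TTC.zero TTC.shift TTC.additive TTC.pretriangulated
  TTC.triangulated TTC.monoidal TTC.symmetric TTC.tensor TTC.closed TTC.coproducts TTC.products

/-- the stable homotopy category given by a `TTC` with compact generating unit -/
abbrev TTC.toSH (T : TTC) (h : StableCat T.C) : St.SHCat := { C := T.C, stable := h }

/-- an exact symmetric monoidal functor which preserves coproducts -/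
structure ExF (T T' : TTC) where
  /-- the functor -/
  F : T.C ⥤ T'.C
  [br : F.Braided]
  [cs : F.CommShift ℤ]
  [tri : F.IsTriangulated]
  [cop : ∀ I : Type, PreservesColimitsOfShape (Discrete I) F]
  e_eq : ∀ X : T.C, μ F X ((𝟙_ T.C)⟦(1 : ℤ)⟧) ≫ F.map (TensorTriangulated.e X).hom ≫
    (F.commShiftIso (1 : ℤ)).hom.app X =
    F.obj X ◁ ((F.commShiftIso (1 : ℤ)).hom.app (𝟙_ T.C) ≫ (η F)⟦(1 : ℤ)⟧') ≫
      (TensorTriangulated.e (F.obj X)).hom

attribute [instance] ExF.br ExF.cs ExF.tri ExF.cop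

/-- the identity -/
abbrev ExF.id (T : TTC) : ExF T T :=
  { F := 𝟭 T.C, e_eq := fun X => by simp }

/-- `A ⟶ B ⟶ Q` is a cofibre sequence of the underlying spaces -/
def IsCof {K : Type 1} [Category.{0} K] (u : K ⥤ I.FCat) {A B Q : K} (i : A ⟶ B) (q : B ⟶ Q) :
    Prop :=
  LC.Cofib (u.map i).hom ∧
    IsPushout (u.map i).hom (0 : (u.obj A).obj ⟶ LC.of Empty) (u.map q).hom 0

/-- One level: `K` is the category of finite cell spaces with an action, `u` the underlying space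
and `v` the trivial action. -/
structure Lvl (T₀ : TTC) (F : I.SpaceFunctor T₀.C) (T : TTC) {K : Type 1} [Category.{0} K]
    [MonoidalCategory K] [SymmetricCategory K] (tK : Tw K) (u : K ⥤ I.FCat) (v : I.FCat ⥤ K)
    [v.Braided] where
  /-- the action of the generator -/
  t : Tw T.C
  /-- the trivial action -/
  tv : ExF T₀ T
  tv_h : ∀ X, (t.h (tv.F.obj X)).hom = 𝟙 _
  /-- the suspension spectra -/
  J : K ⥤ T.C
  [Jbr : J.Braided]
  J_h : ∀ X, J.map (tK.h X).hom = (t.h (J.obj X)).hom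
  /-- the suspension spectra of spaces with trivial action -/
  Jtv : v ⋙ J ≅ F.S ⋙ tv.F
  [Jtv_mon : NatTrans.IsMonoidal Jtv.hom]
  /-- the connecting morphism of a cofibre sequence -/
  cδ : ∀ {A B Q : K} {i : A ⟶ B} {q : B ⟶ Q}, IsCof u i q → (J.obj Q ⟶ (J.obj A)⟦(1 : ℤ)⟧)
  dist : ∀ {A B Q : K} {i : A ⟶ B} {q : B ⟶ Q} (h : IsCof u i q),
    Triangle.mk (J.map i) (J.map q) (cδ h) ∈ distTriang T.C
  cδ_nat : ∀ {A B Q A' B' Q' : K} {i : A ⟶ B} {q : B ⟶ Q} {i' : A' ⟶ B'} {q' : B' ⟶ Q'}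
    (h : IsCof u i q) (h' : IsCof u i' q') (a : A ⟶ A') (b : B ⟶ B') (c : Q ⟶ Q'),
    i ≫ b = a ≫ i' → q ≫ c = b ≫ q' → cδ h ≫ (J.map a)⟦(1 : ℤ)⟧' = J.map c ≫ cδ h'

attribute [instance] Lvl.Jbr Lvl.Jtv_mon

/-- the powers `1, γ, γ²` -/
def pw {D : Type 1} [Category.{0} D] {X : D} (γ : X ⟶ X) : Fin 3 → (X ⟶ X) := ![𝟙 X, γ, γ ≫ γ]

/-- Two consecutive levels. -/
structure Step {T₀ : TTC} {F : I.SpaceFunctor T₀.C} {T T' : TTC} {K : Type 1} [Category.{0} K]
    [MonoidalCategory K] [SymmetricCategory K] {tK : Tw K} {u : K ⥤ I.FCat} {v : I.FCat ⥤ K}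
    [v.Braided] {hv : ∀ X, (tK.h (v.obj X)).hom = 𝟙 _} (L : Lvl T₀ F T tK u v)
    (L' : Lvl T₀ F T' (Rt.tw tK) (Rt.U tK ⋙ u) (Rt.triv v hv)) where
  /-- the restriction -/
  U : ExF T' T
  cons : ∀ X, IsZero (U.F.obj X) → IsZero X
  cube_h : ∀ X, U.F.map ((L'.t.h X).hom ≫ (L'.t.h X).hom ≫ (L'.t.h X).hom) =
    (L.t.h (U.F.obj X)).hom
  /-- the induction -/
  ind : T.C ⥤ T'.C
  /-- induction is left adjoint to restriction -/
  adj : ind ⊣ U.F
  /-- the restriction of an induced object is the sum of three copies -/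
  cofan : ∀ Y, Nonempty (IsColimit (Cofan.mk (U.F.obj (ind.obj Y))
    fun i : Fin 3 => adj.unit.app Y ≫ U.F.map (pw (L'.t.h (ind.obj Y)).hom i)))
  /-- the norm -/
  N : T.C ⥤ T'.C
  [Nbr : N.Braided]
  /-- the restriction of a norm is the third tensor power -/
  ν : N ⋙ U.F ≅ cube T.C
  [ν_mon : NatTrans.IsMonoidal ν.hom]
  ν_h : ∀ Y, U.F.map (L'.t.h (N.obj Y)).hom ≫ ν.hom.app Y = ν.hom.app Y ≫ L.t.rot Y
  /-- the automorphism which defines the norm maps `N ν ≫ sh ≫ N (mul)` of `N Y` for a ring `Y` -/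
  sh : cube T.C ⋙ N ≅ cube T.C ⋙ N
  [sh_mon : NatTrans.IsMonoidal sh.hom]
  sh_U : ∀ Y, U.F.map (sh.hom.app Y) ≫ ν.hom.app (Y ⊗ Y ⊗ Y) =
    ν.hom.app (Y ⊗ Y ⊗ Y) ≫ L.t.shear Y
  sh_rot : ∀ Y, N.map (L.t.rot Y) ≫ sh.hom.app Y =
    sh.hom.app Y ≫ N.map (rot Y Y Y ≫ rot Y Y Y) ≫ (L'.t.h (N.obj (Y ⊗ Y ⊗ Y))).hom
  /-- the restriction of the trivial action -/
  tvU : L'.tv.F ⋙ U.F ≅ L.tv.F
  [tvU_mon : NatTrans.IsMonoidal tvU.hom]
  [tvU_cs : NatTrans.CommShift tvU.hom ℤ]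
  /-- the restriction of suspension spectra -/
  JU : L'.J ⋙ U.F ≅ Rt.U tK ⋙ L.J
  [JU_mon : NatTrans.IsMonoidal JU.hom]
  JU_tv : ∀ X, U.F.map (L'.Jtv.hom.app X) ≫ tvU.hom.app (F.S.obj X) =
    JU.hom.app ((Rt.triv v hv).obj X) ≫ L.Jtv.hom.app X
  cδ_U : ∀ {A B Q : Rt tK} {i : A ⟶ B} {q : B ⟶ Q} (h : IsCof (Rt.U tK ⋙ u) i q),
    U.F.map (L'.cδ h) ≫ (U.F.commShiftIso (1 : ℤ)).hom.app _ ≫ (JU.hom.app A)⟦(1 : ℤ)⟧' =
      JU.hom.app Q ≫ L.cδ (i := i.hom) (q := q.hom) h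
  /-- the norm of suspension spectra -/
  JN : L.J ⋙ N ≅ Rt.N tK ⋙ L'.J
  [JN_mon : NatTrans.IsMonoidal JN.hom]
  JN_U : ∀ X, U.F.map (JN.hom.app X) ≫ JU.hom.app ((Rt.N tK).obj X) =
    ν.hom.app (L.J.obj X) ≫ L.J.obj X ◁ μ L.J X X ≫ μ L.J X (X ⊗ X)

attribute [instance] Step.Nbr Step.ν_mon Step.sh_mon Step.tvU_mon Step.tvU_cs Step.JU_mon
  Step.JN_mon

/-- connecting morphisms for cofibre sequences of spaces -/
structure Conn (T₀ : TTC) (F : I.SpaceFunctor T₀.C) where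
  /-- the connecting morphism of a cofibre sequence -/
  cδ : ∀ {A B Q : I.FCat} {i : A ⟶ B} {q : B ⟶ Q}, IsCof (𝟭 _) i q →
    (F.S.obj Q ⟶ (F.S.obj A)⟦(1 : ℤ)⟧)
  dist : ∀ {A B Q : I.FCat} {i : A ⟶ B} {q : B ⟶ Q} (h : IsCof (𝟭 _) i q),
    Triangle.mk (F.S.map i) (F.S.map q) (cδ h) ∈ distTriang T₀.C
  cδ_nat : ∀ {A B Q A' B' Q' : I.FCat} {i : A ⟶ B} {q : B ⟶ Q} {i' : A' ⟶ B'} {q' : B' ⟶ Q'}
    (h : IsCof (𝟭 _) i q) (h' : IsCof (𝟭 _) i' q') (a : A ⟶ A') (b : B ⟶ B') (c : Q ⟶ Q'),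
    i ≫ b = a ≫ i' → q ≫ c = b ≫ q' → cδ h ≫ (F.S.map a)⟦(1 : ℤ)⟧' = F.S.map c ≫ cδ h'

/-- the level of the trivial group -/
abbrev lvl0 {T₀ : TTC} {F : I.SpaceFunctor T₀.C} (c : Conn T₀ F) :
    Lvl T₀ F T₀ (Tw.id I.FCat) (𝟭 _) (𝟭 _) :=
  { t := Tw.id _, tv := ExF.id _, tv_h := fun _ => rfl, J := F.S,
    J_h := fun X => F.S.map_id X, Jtv := F.S.leftUnitor ≪≫ F.S.rightUnitor.symm,
    Jtv_mon := inferInstanceAs (NatTrans.IsMonoidal (F.S.leftUnitor.hom ≫ F.S.rightUnitor.inv)),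
    cδ := c.cδ, dist := c.dist, cδ_nat := c.cδ_nat }

/-- finite cell spaces with an action of `C₃` -/
abbrev K1 : Type 1 := Rt (Tw.id I.FCat)

theorem hv0 (X : I.FCat) : ((Tw.id I.FCat).h ((𝟭 I.FCat).obj X)).hom = 𝟙 _ := rfl

/-- the trivial action of `C₃` -/
noncomputable abbrev v1 : I.FCat ⥤ K1 := Rt.triv (𝟭 _) hv0

theorem hv1 (X : I.FCat) : ((Rt.tw (Tw.id I.FCat)).h (v1.obj X)).hom = 𝟙 _ := rfl

/-- finite cell spaces with an action of `C₉` -/
abbrev K2 : Type 1 := Rt (Rt.tw (Tw.id I.FCat))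

/-- the trivial action of `C₉` -/
noncomputable abbrev v2 : I.FCat ⥤ K2 := Rt.triv v1 hv1

/-- The three levels. -/
structure Tower where
  /-- the stable homotopy category -/
  T₀ : TTC
  [stable : StableCat T₀.C]
  /-- the suspension spectra -/
  F : I.SpaceFunctor T₀.C
  /-- the connecting morphisms -/
  c : Conn T₀ F
  /-- the category of `C₃`-spectra -/
  T₁ : TTC
  /-- the category of `C₉`-spectra -/
  T₂ : TTC
  /-- the level of `C₃` -/
  L₁ : Lvl T₀ F T₁ (Rt.tw (Tw.id I.FCat)) (Rt.U _ ⋙ 𝟭 _) v1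
  /-- the level of `C₉` -/
  L₂ : Lvl T₀ F T₂ (Rt.tw (Rt.tw (Tw.id I.FCat))) (Rt.U _ ⋙ Rt.U _ ⋙ 𝟭 _) v2
  /-- from the trivial group to `C₃` -/
  s₁ : Step (hv := hv0) (lvl0 c) L₁
  /-- from `C₃` to `C₉` -/
  s₂ : Step (hv := hv1) L₁ L₂

attribute [instance] Tower.stable

/-- (CAT) the tower exists -/
def StTower : Prop := Nonempty Tower

end Vale.Agent.P236Z.Cat
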