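import Vale.Agent.P236Z.Cat.Lift
import Vale.Agent.P251.H.MonLoc.Final
import Vale.Agent.P251.S.CommShift

/-!
# P236: exact functors induced by functors of stable models
-/

open CategoryTheory Limits MonoidalCategory ZeroObject Pretriangulated
open Functor.LaxMonoidal Functor.OplaxMonoidal
open Vale.Agent.P251 Vale.Agent.P251.H Vale.Agent.P251.H.CofCat Vale.Agent.P251.H.TensorCofCat

universe v₁ u₁ v₂ u₂ v₃ u₃ v₄ u₄

noncomputable section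
namespace Vale.Agent.P236Z.Cat

variable {C : Type u₁} [Category.{v₁} C] [HasZeroObject C] [HasZeroMorphisms C]
  [HasBinaryCoproducts C] [CofCat C] [MonoidalCategory C] [SymmetricCategory C] [TensorCofCat C]
  {C' : Type u₂} [Category.{v₂} C'] [HasZeroObject C'] [HasZeroMorphisms C']
  [HasBinaryCoproducts C'] [CofCat C'] [MonoidalCategory C'] [SymmetricCategory C']
  [TensorCofCat C']

/-- a functor of stable models -/
structure MF (P : StabModel C) (P' : StabModel C') where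
  /-- the functor -/
  Φ : C ⥤ C'
  [br : Φ.Braided]
  [zero : Φ.PreservesZeroMorphisms]
  w : ∀ {X Y : C} (f : X ⟶ Y), W f → W (Φ.map f)
  cof : ∀ {X Y : C} (f : X ⟶ Y), Cof f → Cof (Φ.map f)
  po : ∀ {A B X Q : C} {i : A ⟶ B} {f : A ⟶ X} {j : B ⟶ Q} {k : X ⟶ Q}, IsPushout i f j k →
    Cof i → IsPushout (Φ.map i) (Φ.map f) (Φ.map j) (Φ.map k)
  /-- the cones -/
  ci : Φ.obj P.m.CI ≅ P'.m.CI
  /-- the circles -/
  s : Φ.obj P.m.S ≅ P'.m.S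
  c_ci : ε Φ ≫ Φ.map P.m.c ≫ ci.hom = P'.m.c
  s_s : Φ.map P.m.s ≫ s.hom = ci.hom ≫ P'.m.s

attribute [instance] MF.br MF.zero

/-- the identity -/
abbrev MF.id (P : StabModel C) : MF P P :=
  { Φ := 𝟭 C, w := fun _ h => h, cof := fun _ h => h, po := fun h _ => h, ci := Iso.refl _,
    s := Iso.refl _, c_ci := by simp, s_s := by simp }

namespace MF

variable {P : StabModel C} {P' : StabModel C'} (φ : MF P P')

/-- comparison of the cones -/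
def cone (A : C) : φ.Φ.obj (Cone.obj A) ≅ Cone.obj (φ.Φ.obj A) :=
  φ.Φ.mapIso (P.m.coneIso A).symm ≪≫ (Functor.Monoidal.μIso φ.Φ A P.m.CI).symm ≪≫
    whiskerLeftIso _ φ.ci ≪≫ P'.m.coneIso _

/-- comparison of the suspensions -/
def susp (A : C) : φ.Φ.obj (Susp.obj A) ≅ Susp.obj (φ.Φ.obj A) :=
  φ.Φ.mapIso (P.m.suspIso A).symm ≪≫ (Functor.Monoidal.μIso φ.Φ A P.m.S).symm ≪≫
    whiskerLeftIso _ φ.s ≪≫ P'.m.suspIso _

theorem map_cin (A : C) : φ.Φ.map (cin A) ≫ (φ.cone A).hom = cin (φ.Φ.obj A) := by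
  rw [← P.m.coneIn_coneIso A, ← P'.m.coneIn_coneIso (φ.Φ.obj A)]
  simp only [cone, Iso.trans_hom, Functor.mapIso_hom, Iso.symm_hom, Functor.Monoidal.μIso_inv,
    whiskerLeftIso_hom, ConeModel.coneIn, Functor.map_comp, Category.assoc, ← φ.c_ci]
  rw [← φ.Φ.map_comp_assoc (P.m.coneIso A).hom, Iso.hom_inv_id, φ.Φ.map_id, Category.id_comp,
    ← δ_natural_right_assoc, Functor.Monoidal.map_rightUnitor_inv]
  simp

theorem map_cpr (A : C) :
    φ.Φ.map (cpr A) ≫ (φ.susp A).hom = (φ.cone A).hom ≫ cpr (φ.Φ.obj A) := by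
  have h : cpr A ≫ (P.m.suspIso A).inv = (P.m.coneIso A).inv ≫ A ◁ P.m.s := by
    rw [Iso.comp_inv_eq, Category.assoc, ConeModel.s_suspIso, Iso.inv_hom_id_assoc]
  simp only [cone, susp, Iso.trans_hom, Functor.mapIso_hom, Iso.symm_hom,
    Functor.Monoidal.μIso_inv, whiskerLeftIso_hom, Category.assoc]
  rw [← φ.Φ.map_comp_assoc, h, φ.Φ.map_comp_assoc, ← δ_natural_right_assoc,
    ← MonoidalCategory.whiskerLeft_comp_assoc, φ.s_s, MonoidalCategory.whiskerLeft_comp_assoc,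
    ConeModel.s_suspIso]

theorem po_zero {A B Q : C} {j : A ⟶ B} {q : B ⟶ Q}
    (h : IsPushout j (0 : A ⟶ (0 : C)) q (0 : (0 : C) ⟶ Q)) (hj : Cof j) :
    IsPushout (φ.Φ.map j) (0 : _ ⟶ (0 : C')) (φ.Φ.map q) (0 : (0 : C') ⟶ _) :=
  (φ.po h hj).of_iso (Iso.refl _) (Iso.refl _)
    ((φ.Φ.map_isZero (isZero_zero C)).iso (isZero_zero C')) (Iso.refl _) (by simp)
    ((isZero_zero C').eq_of_tgt _ _) (by simp) ((φ.Φ.map_isZero (isZero_zero C)).eq_of_src _ _)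

section conn
variable {D : Type u₃} [Category.{v₃} D] [MonoidalCategory D] {L : C ⥤ D} [L.Monoidal]
  {D' : Type u₄} [Category.{v₄} D'] [MonoidalCategory D'] {L' : C' ⥤ D'} [L'.Monoidal]

theorem isConn {K : D} {κ : L.obj P.m.S ≅ K} {K' : D'} {κ' : L'.obj P'.m.S ≅ K'} (F : D ⥤ D')
    [F.Monoidal] (e : L ⋙ F ≅ φ.Φ ⋙ L') [he : NatTrans.IsMonoidal e.hom] (k : F.obj K ⟶ K')
    (hk : F.map κ.hom ≫ k = e.hom.app P.m.S ≫ L'.map φ.s.hom ≫ κ'.hom) {A B Q : C} {j : A ⟶ B}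
    {q : B ⟶ Q} {d : L.obj Q ⟶ L.obj A ⊗ K} (h : IsConn (P.m.shiftIso L κ) j q d) :
    IsConn (P'.m.shiftIso L' κ') (φ.Φ.map j) (φ.Φ.map q)
      (e.inv.app Q ≫ F.map d ≫ (δ F (L.obj A) K ≫ F.obj (L.obj A) ◁ k) ≫ e.hom.app A ▷ K') := by
  obtain ⟨R, a, b, r, d', hP, h1, h2, h3, h4, h5⟩ := h.exists_conn
  refine ⟨φ.cof j h.cof, φ.po_zero h.isPushout h.cof, φ.Φ.obj R, φ.Φ.map a,
    (φ.cone A).inv ≫ φ.Φ.map b, φ.Φ.map r, φ.Φ.map d' ≫ (φ.susp A).hom, ?_, ?_, ?_, ?_, ?_, ?_⟩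
  · exact (φ.po hP h.cof).of_iso (Iso.refl _) (Iso.refl _) (φ.cone A) (Iso.refl _) (by simp)
      (by rw [map_cin]; simp) (by simp) (by simp)
  · rw [← φ.Φ.map_comp, h1]
  · rw [Category.assoc, ← φ.Φ.map_comp, h2]
    simp
  · rw [← φ.Φ.map_comp_assoc, h3]
    simp
  · rw [Category.assoc, ← φ.Φ.map_comp_assoc, h4, map_cpr, Iso.inv_hom_id_assoc]
  · let x : ∀ X, F.obj (L.obj X) ≅ L'.obj (φ.Φ.obj X) := fun X => e.app X
    have n : ∀ {X Y : C} (f : X ⟶ Y), F.map (L.map f) ≫ (x Y).hom =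
        (x X).hom ≫ L'.map (φ.Φ.map f) := fun f => e.hom.naturality f
    have m : (μ F _ _ ≫ F.map (μ L A P.m.S)) ≫ (x (A ⊗ P.m.S)).hom =
        ((x A).hom ⊗ₘ (x P.m.S).hom) ≫ μ L' _ _ ≫ L'.map (μ φ.Φ A P.m.S) := he.tensor A P.m.S
    have m' : F.map (δ L A P.m.S) ≫ δ F _ _ ≫ ((x A).hom ⊗ₘ (x P.m.S).hom) =
        (x (A ⊗ P.m.S)).hom ≫ L'.map (δ φ.Φ A P.m.S) ≫ δ L' _ _ := by
      rw [← cancel_epi (μ F _ _ ≫ F.map (μ L A P.m.S)), ← Category.assoc _ (x (A ⊗ P.m.S)).hom, m]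
      simp [← Functor.map_comp_assoc]
    have hk' : F.map κ.hom ≫ k = (x P.m.S).hom ≫ L'.map φ.s.hom ≫ κ'.hom := hk
    have h5' : L.map r ≫ d = L.map d' ≫ L.map (P.m.suspIso A).inv ≫ δ L A P.m.S ≫
      L.obj A ◁ κ.hom := h5
    change L'.map (φ.Φ.map r) ≫ (x Q).inv ≫ F.map d ≫ (δ F (L.obj A) K ≫ F.obj (L.obj A) ◁ k) ≫
      (x A).hom ▷ K' = L'.map (φ.Φ.map d' ≫ (φ.susp A).hom) ≫
        L'.map (P'.m.suspIso (φ.Φ.obj A)).inv ≫ δ L' (φ.Φ.obj A) P'.m.S ≫ _ ◁ κ'.hom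
    rw [← cancel_epi (x R).hom, ← reassoc_of% n, Iso.hom_inv_id_assoc, ← F.map_comp_assoc, h5']
    simp only [F.map_comp, L'.map_comp, Category.assoc, susp, Iso.trans_hom, Functor.mapIso_hom,
      Iso.symm_hom, Functor.Monoidal.μIso_inv, whiskerLeftIso_hom]
    rw [← δ_natural_right_assoc, ← MonoidalCategory.whiskerLeft_comp_assoc, hk',
      ← reassoc_of% n, ← reassoc_of% n, ← L'.map_comp_assoc (P'.m.suspIso _).hom, Iso.hom_inv_id,
      L'.map_id, Category.id_comp, ← δ_natural_right_assoc, ← reassoc_of% m']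
    simp only [tensorHom_def', MonoidalCategory.whiskerLeft_comp, Category.assoc, whisker_exchange,
      whisker_exchange_assoc]

end conn

end MF

section loc
variable (P : StabModel C) {D₀ : Type u₃} [Category.{v₃} D₀] (L₀ : C ⥤ D₀)
  [L₀.IsLocalization (W (C := C))]

/-- the object which defines the shift -/
abbrev KK : TT P L₀ := (TT.inv P L₀).pow 1

/-- the circle defines the shift -/
def κ : (TT.L P L₀).obj P.m.S ≅ KK P L₀ := (λ_ ((TT.L P L₀).obj P.m.S)).symm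

instance : (TT.L P L₀).EssSurj := Localization.essSurj _ (W (C := C))

variable {P} {P' : StabModel C'} (φ : MF P P') {D₀' : Type u₄} [Category.{v₄} D₀']
  (L₀' : C' ⥤ D₀') [L₀'.IsLocalization (W (C := C'))]

/-- `F` is induced by `φ` -/
structure Lft (F : TT P L₀ ⥤ TT P' L₀') [F.Braided] [F.CommShift ℤ] where
  /-- the comparison -/
  e : TT.L P L₀ ⋙ F ≅ φ.Φ ⋙ TT.L P' L₀'
  [e_mon : NatTrans.IsMonoidal e.hom]
  /-- the comparison of the circles -/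
  k : F.obj (KK P L₀) ⟶ KK P' L₀'
  hk : F.map (κ P L₀).hom ≫ k = e.hom.app P.m.S ≫ (TT.L P' L₀').map φ.s.hom ≫ (κ P' L₀').hom
  hcs : ∀ X, (F.commShiftIso (1 : ℤ)).hom.app X =
    (δ F X (KK P L₀) ≫ F.obj X ◁ k : F.obj (X ⊗ KK P L₀) ⟶ F.obj X ⊗ KK P' L₀')

attribute [instance] Lft.e_mon

/-- the identity is induced by the identity -/
def Lft.id : Lft L₀ (MF.id P) L₀ (𝟭 _) where
  e := (TT.L P L₀).rightUnitor ≪≫ (TT.L P L₀).leftUnitor.symm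
  e_mon := inferInstanceAs
    (NatTrans.IsMonoidal ((TT.L P L₀).rightUnitor.hom ≫ (TT.L P L₀).leftUnitor.inv))
  k := 𝟙 _
  hk := by simp
  hcs X := (Functor.commShiftIso_id_hom_app _ _ _).trans (by simp; rfl)

theorem MF.inverts : (W (C := C)).IsInvertedBy (φ.Φ ⋙ TT.L P' L₀') := fun _ _ f hf =>
  Localization.inverts (TT.L P' L₀') W _ (φ.w f hf)

/-- the induced functor -/
def MF.F : TT P L₀ ⥤ TT P' L₀' := lf (TT.L P L₀) W (φ.Φ ⋙ TT.L P' L₀') (φ.inverts L₀')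

instance : (φ.F L₀ L₀').Braided :=
  inferInstanceAs (lf (TT.L P L₀) W (φ.Φ ⋙ TT.L P' L₀') (φ.inverts L₀')).Braided

/-- the comparison -/
def MF.e : TT.L P L₀ ⋙ φ.F L₀ L₀' ≅ φ.Φ ⋙ TT.L P' L₀' := lfIso _ W _ (φ.inverts L₀')

instance : NatTrans.IsMonoidal (φ.e L₀ L₀').hom :=
  inferInstanceAs (NatTrans.IsMonoidal (lfIso (TT.L P L₀) W _ (φ.inverts L₀')).hom)

/-- the comparison of the circles -/
def MF.k : (φ.F L₀ L₀').obj (KK P L₀) ≅ KK P' L₀' :=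
  (φ.F L₀ L₀').mapIso (κ P L₀).symm ≪≫ (φ.e L₀ L₀').app P.m.S ≪≫
    (TT.L P' L₀').mapIso φ.s ≪≫ κ P' L₀'

/-- the commutation with the shift -/
def MF.c : tensorRight (KK P L₀) ⋙ φ.F L₀ L₀' ≅ φ.F L₀ L₀' ⋙ tensorRight (KK P' L₀') :=
  NatIso.ofComponents (fun X => (Functor.Monoidal.μIso (φ.F L₀ L₀') X (KK P L₀)).symm ≪≫
    whiskerLeftIso _ (φ.k L₀ L₀')) (fun f => by simp [whisker_exchange])

instance : (φ.F L₀ L₀').CommShift ℤ := S.commShiftOfOne _ (φ.c L₀ L₀')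

/-- the induced functor is induced -/
def MF.lft : Lft L₀ φ L₀' (φ.F L₀ L₀') where
  e := φ.e L₀ L₀'
  k := (φ.k L₀ L₀').hom
  hk := by simp [MF.k]
  hcs X := congrArg (fun e => NatTrans.app (Iso.hom e) X)
    (S.commShiftOfOne_iso_one _ (φ.c L₀ L₀'))

namespace Lft

variable {L₀ φ L₀'} {F : TT P L₀ ⥤ TT P' L₀'} [F.Braided] [F.CommShift ℤ] (l : Lft L₀ φ L₀' F)

theorem conn {A B Q : C} {j : A ⟶ B} {q : B ⟶ Q}
    {d : (TT.L P L₀).obj Q ⟶ ((TT.L P L₀).obj A)⟦(1 : ℤ)⟧} (h : IsConn (TT.τ P L₀) j q d) :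
    IsConn (TT.τ P' L₀') (φ.Φ.map j) (φ.Φ.map q) (l.e.inv.app Q ≫ F.map d ≫
      (F.commShiftIso (1 : ℤ)).hom.app _ ≫ (l.e.hom.app A)⟦(1 : ℤ)⟧') := by
  rw [l.hcs]
  exact φ.isConn (κ := κ P L₀) (κ' := κ P' L₀') F l.e l.k l.hk h

include l in
theorem isTriangulated : F.IsTriangulated where
  map_distinguished T hT := by
    obtain ⟨A, B, Q, j, q, d, x, y, z, h, h1, h2, h3⟩ := exists_of_dist hT
    have n : ∀ {X Y : C} (f : X ⟶ Y), F.map ((TT.L P L₀).map f) ≫ l.e.hom.app Y =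
        l.e.hom.app X ≫ (TT.L P' L₀').map (φ.Φ.map f) := fun f => l.e.hom.naturality f
    refine dist_of_exists (l.conn h) (F.mapIso x ≪≫ l.e.app A) (F.mapIso y ≪≫ l.e.app B)
      (F.mapIso z ≪≫ l.e.app Q) ?_ ?_ ?_
    · change F.map T.mor₁ ≫ F.map y.hom ≫ l.e.hom.app B = (F.map x.hom ≫ l.e.hom.app A) ≫ _
      rw [← F.map_comp_assoc, h1, F.map_comp_assoc, n, Category.assoc]
    · change F.map T.mor₂ ≫ F.map z.hom ≫ l.e.hom.app Q = (F.map y.hom ≫ l.e.hom.app B) ≫ _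
      rw [← F.map_comp_assoc, h2, F.map_comp_assoc, n, Category.assoc]
    · change (F.map T.mor₃ ≫ (F.commShiftIso (1 : ℤ)).hom.app _) ≫
        (F.map x.hom ≫ l.e.hom.app A)⟦(1 : ℤ)⟧' = (F.map z.hom ≫ l.e.hom.app Q) ≫ _
      rw [Category.assoc, Category.assoc, Iso.hom_inv_id_app_assoc, Functor.map_comp,
        ← Functor.commShiftIso_hom_naturality_assoc, ← F.map_comp_assoc, h3, F.map_comp_assoc]

include l in
theorem e_eq (X : TT P L₀) : μ F X ((𝟙_ (TT P L₀))⟦(1 : ℤ)⟧) ≫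
    F.map (T.TensorTriangulated.e X).hom ≫ (F.commShiftIso (1 : ℤ)).hom.app X =
    F.obj X ◁ ((F.commShiftIso (1 : ℤ)).hom.app (𝟙_ _) ≫ (η F)⟦(1 : ℤ)⟧') ≫
      (T.TensorTriangulated.e (F.obj X)).hom := by
  rw [l.hcs, l.hcs]
  change μ F X (𝟙_ _ ⊗ KK P L₀) ≫ F.map (X ◁ (λ_ (KK P L₀)).hom) ≫ δ F X _ ≫ F.obj X ◁ l.k =
    F.obj X ◁ ((δ F (𝟙_ _) (KK P L₀) ≫ F.obj (𝟙_ _) ◁ l.k) ≫ η F ▷ KK P' L₀') ≫
      F.obj X ◁ (λ_ (KK P' L₀')).hom
  rw [← μ_natural_right_assoc, Functor.Monoidal.μ_δ_assoc, ← MonoidalCategory.whiskerLeft_comp,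
    ← MonoidalCategory.whiskerLeft_comp, Category.assoc, Category.assoc, whisker_exchange_assoc,
    leftUnitor_naturality, Functor.OplaxMonoidal.left_unitality_hom_assoc]

include l in
theorem cop (J : Type) [HasCoproductsOfShape J C] [CofCoproducts C J] [HasCoproductsOfShape J C']
    [CofCoproducts C' J] [PreservesColimitsOfShape (Discrete J) φ.Φ] :
    PreservesColimitsOfShape (Discrete J) F where
  preservesColimit {K} :=
    have := MonLoc.preservesColimit_discrete_of_iso l.e (fun _ => inferInstance)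
      (fun _ => inferInstance) (fun _ => inferInstance) (fun _ => inferInstance)
      (K.obj ∘ Discrete.mk)
    preservesColimit_of_iso_diagram F (Discrete.natIsoFunctor (F := K)).symm

end Lft

end loc

end Vale.Agent.P236Z.Cat
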