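import Vale.Agent.P236Z.Cat.Rt
import Vale.Agent.P251.H.MonLoc.Final
import Mathlib.CategoryTheory.Limits.Creates

/-!
# P236: the levelwise structure of a stable cofibration category on `Rt t`
-/

open CategoryTheory Limits MonoidalCategory ZeroObject
open Vale.Agent.P251.H Vale.Agent.P251.H.CofCat Vale.Agent.P251.H.TensorCofCat

universe w' w v u

namespace Vale.Agent.P236Z.Cat

namespace Rt

section colim
variable {C : Type u} [Category.{v} C] [MonoidalCategory C] {t : Tw C}

instance : (U t).ReflectsIsomorphisms :=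
  ⟨fun f h => have : IsIso f.hom := h; isIso_of_hom f⟩

variable {J : Type w} [Category.{w'} J] (K : J ⥤ Rt t)

/-- the cocone given by the actions -/
@[simps] def actCocone (c : Cocone (K ⋙ U t)) : Cocone (K ⋙ U t) where
  pt := c.pt
  ι :=
    { app := fun j => (K.obj j).γ ≫ c.ι.app j
      naturality := fun i j f => by
        have h := c.w f
        dsimp at h ⊢
        rw [← reassoc_of% (K.map f).comm, h, Category.comp_id] }

/-- the action on the colimit -/
def act (c : Cocone (K ⋙ U t)) (hc : IsColimit c) : c.pt ⟶ c.pt := hc.desc (actCocone K c)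

/-- the legs of a cocone -/
def leg (c : Cocone (K ⋙ U t)) (j : J) : (K.obj j).obj ⟶ c.pt := c.ι.app j

@[reassoc] theorem leg_act (c : Cocone (K ⋙ U t)) (hc : IsColimit c) (j : J) :
    leg K c j ≫ act K c hc = (K.obj j).γ ≫ leg K c j := hc.fac (actCocone K c) j

theorem leg_ext (c : Cocone (K ⋙ U t)) (hc : IsColimit c) {Z : C} {f g : c.pt ⟶ Z}
    (h : ∀ j, leg K c j ≫ f = leg K c j ≫ g) : f = g := hc.hom_ext h

/-- the lifted cocone -/
@[simps] def liftCocone (c : Cocone (K ⋙ U t)) (hc : IsColimit c) : Cocone K where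
  pt := ⟨c.pt, act K c hc, leg_ext K c hc fun j => by
    simp only [leg_act_assoc, leg_act, t.nat, reassoc_of% (K.obj j).cube]⟩
  ι :=
    { app := fun j => ⟨leg K c j, (leg_act K c hc j).symm⟩
      naturality := fun _ _ f => hom_ext (c.ι.naturality f) }

/-- the morphism induced by a cocone -/
def desc' (c : Cocone (K ⋙ U t)) (hc : IsColimit c) (s : Cocone K) : c.pt ⟶ s.pt.obj :=
  hc.desc ((U t).mapCocone s)

/-- the legs of a cocone -/
def leg' (s : Cocone K) (j : J) : K.obj j ⟶ s.pt := s.ι.app j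

@[reassoc] theorem leg_desc' (c : Cocone (K ⋙ U t)) (hc : IsColimit c) (s : Cocone K) (j : J) :
    leg K c j ≫ desc' K c hc s = (leg' K s j).hom := hc.fac ((U t).mapCocone s) j

noncomputable instance : CreatesColimit K (U t) :=
  createsColimitOfReflectsIso fun c hc =>
    { liftedCocone := liftCocone K c hc
      validLift := Iso.refl _
      makesColimit :=
        { desc := fun s => ⟨desc' K c hc s, leg_ext K c hc fun j => by
            change leg K c j ≫ act K c hc ≫ desc' K c hc s = leg K c j ≫ desc' K c hc s ≫ s.pt.γ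
            rw [leg_act_assoc, leg_desc', leg_desc'_assoc]
            exact (leg' K s j).comm⟩
          fac := fun s j => hom_ext (leg_desc' K c hc s j)
          uniq := fun s m h => hom_ext (hc.uniq ((U t).mapCocone s) m.hom
            fun j => congrArg Hom.hom (h j)) } }

instance [HasColimitsOfShape J C] : HasColimitsOfShape J (Rt t) :=
  ⟨fun K => hasColimit_of_created K (U t)⟩

instance [HasColimitsOfShape J C] : PreservesColimitsOfShape J (U t) :=
  ⟨fun {K} => preservesColimit_of_createsColimit_and_hasColimit K (U t)⟩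

theorem isPushout_of_hom {A B X Q : Rt t} {i : A ⟶ B} {f : A ⟶ X} {j : B ⟶ Q} {k : X ⟶ Q}
    (h : IsPushout i.hom f.hom j.hom k.hom) : IsPushout i f j k :=
  IsPushout.of_map (U t) (hom_ext h.w) h

theorem isIso_hom {X Y : Rt t} (f : X ⟶ Y) [IsIso f] : IsIso f.hom :=
  ((U t).mapIso (asIso f)).isIso_hom

theorem isPushout_hom₀ {A B X Q : Rt t} {i : A ⟶ B} {f : A ⟶ X} {j : B ⟶ Q} {k : X ⟶ Q}
    (h : IsPushout i f j k) (_ : HasColimit (span i f ⋙ U t)) :
    IsPushout i.hom f.hom j.hom k.hom := h.map (U t)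

theorem hasColimit_span {A B X : Rt t} (i : A ⟶ B) (f : A ⟶ X) [HasPushout i.hom f.hom] :
    HasColimit (span i f ⋙ U t) := hasColimit_of_iso (spanCompIso (U t) i f)

theorem isPushout_hom {A B X Q : Rt t} {i : A ⟶ B} {f : A ⟶ X} {j : B ⟶ Q} {k : X ⟶ Q}
    (h : IsPushout i f j k) (_ : HasPushout i.hom f.hom) : IsPushout i.hom f.hom j.hom k.hom :=
  isPushout_hom₀ h (hasColimit_span i f)

instance [HasZeroMorphisms C] : HasZeroMorphisms (Rt t) where
  zero X Y := ⟨⟨0, by simp⟩⟩
  comp_zero f _ := hom_ext comp_zero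
  zero_comp _ _ _ f := hom_ext zero_comp

@[simp] theorem zero_hom [HasZeroMorphisms C] (X Y : Rt t) : (0 : X ⟶ Y).hom = 0 := rfl

instance [HasZeroMorphisms C] : (U t).PreservesZeroMorphisms := ⟨fun _ _ => rfl⟩

theorem isZero_iff [HasZeroMorphisms C] (X : Rt t) : IsZero X ↔ IsZero X.obj := by
  rw [IsZero.iff_id_eq_zero, IsZero.iff_id_eq_zero]
  exact ⟨congrArg Hom.hom, fun h => hom_ext h⟩

instance [HasZeroMorphisms C] [HasZeroObject C] : HasZeroObject (Rt t) :=
  ⟨⟨⟨0, 𝟙 _, (isZero_zero C).eq_of_src _ _⟩, (isZero_iff _).2 (isZero_zero C)⟩⟩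

/-- an object with the trivial action -/
abbrev tr (X : C) (h : (t.h X).hom = 𝟙 X) : Rt t := ⟨X, 𝟙 X, by simp [h]⟩

/-- a morphism of objects with trivial actions -/
abbrev trHom {X Y : Rt t} (f : X.obj ⟶ Y.obj) (hX : X.γ = 𝟙 _)
    (hY : Y.γ = 𝟙 _) : X ⟶ Y := ⟨f, by rw [hX, hY]; simp⟩

end colim

variable {C : Type u} [Category.{v} C] [HasZeroObject C] [HasZeroMorphisms C]
  [HasBinaryCoproducts C] [CofCat C] [MonoidalCategory C] [SymmetricCategory C] [TensorCofCat C]
  {t : Tw C}

omit [HasZeroObject C] [HasZeroMorphisms C] [CofCat C] [SymmetricCategory C] [TensorCofCat C] in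
theorem cmp_desc {X Y Z : Rt t} (f : X ⟶ Z) (g : Y ⟶ Z) :
    coprodComparison (U t) X Y ≫ (coprod.desc f g).hom = coprod.desc f.hom g.hom := by
  apply coprod.hom_ext
  · rw [coprodComparison_inl_assoc, coprod.inl_desc]
    exact congrArg Hom.hom (coprod.inl_desc f g)
  · rw [coprodComparison_inr_assoc, coprod.inr_desc]
    exact congrArg Hom.hom (coprod.inr_desc f g)

omit [SymmetricCategory C] [TensorCofCat C] [MonoidalCategory C] in
theorem cof_of_comp {X Y Z : C} (e : X ⟶ Y) [IsIso e] {f : Y ⟶ Z} (h : Cof (e ≫ f)) : Cof f := by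
  have := Cof_comp _ _ (Cof_of_isIso (inv e)) h
  rwa [IsIso.inv_hom_id_assoc] at this

end Rt

variable {C : Type u} [Category.{v} C] [HasZeroObject C] [HasZeroMorphisms C]
  [HasBinaryCoproducts C] [CofCat C] [MonoidalCategory C] [SymmetricCategory C] [TensorCofCat C]

/-- the central automorphism is trivial on the interval -/
class TwI (t : Tw C) : Prop where
  hI : (t.h (I : C)).hom = 𝟙 _

namespace Rt

variable {t : Tw C} [TwI t]

theorem cyl_h (X : C) : Cyl.map (t.h X).hom = (t.h (Cyl.obj X)).hom := by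
  rw [← cancel_epi (cyl X).hom, ← cyl_natural, t.nat, t.ten, TwI.hI, tensorHom_id]

instance cofCat : CofCat (Rt t) where
  W := (W : MorphismProperty C).inverseImage (U t)
  Cof := (Cof : MorphismProperty C).inverseImage (U t)
  W_of_isIso f hf := have := isIso_hom f; W_of_isIso f.hom
  Cof_of_isIso f hf := have := isIso_hom f; Cof_of_isIso f.hom
  W_comp f g hf hg := W_comp f.hom g.hom hf hg
  W_of_comp_left f g hf hg := W_of_comp_left f.hom g.hom hf hg
  W_of_comp_right f g hf hg := W_of_comp_right f.hom g.hom hf hg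
  Cof_comp f g hf hg := Cof_comp f.hom g.hom hf hg
  Cof_zero hZ _ f := Cof_zero ((isZero_iff _).1 hZ) f.hom
  hasPushout i f hi :=
    have := hasPushout i.hom f.hom hi
    have := hasColimit_span i f
    hasColimit_of_created _ (U t)
  Cof_pushout {_ _ _ _ i f _ _} h hi :=
    Cof_pushout (isPushout_hom h (hasPushout i.hom f.hom hi)) hi
  W_pushout {_ _ _ _ i f _ _} h hi hi' :=
    W_pushout (isPushout_hom h (hasPushout i.hom f.hom hi)) hi hi'
  Cyl := map Cyl cyl_h
  i₀ := { app := fun X => ⟨i₀.app X.obj, i₀.naturality X.γ⟩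
          naturality := fun _ _ f => hom_ext (i₀.naturality f.hom) }
  i₁ := { app := fun X => ⟨i₁.app X.obj, i₁.naturality X.γ⟩
          naturality := fun _ _ f => hom_ext (i₁.naturality f.hom) }
  π := { app := fun X => ⟨π.app X.obj, π.naturality X.γ⟩
         naturality := fun _ _ f => hom_ext (π.naturality f.hom) }
  i₀_π X := hom_ext (i₀_π X.obj)
  i₁_π X := hom_ext (i₁_π X.obj)
  W_π X := W_π X.obj
  Cof_ends X := cof_of_comp (coprodComparison (U t) X X) (by
    rw [cmp_desc]; exact Cof_ends X.obj)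
  Cof_pushoutProduct {A B P} j a b d hj h ha hb := by
    have h1 : coprodComparison (U t) A A ≫ (coprod.map j j).hom =
        coprod.map j.hom j.hom ≫ coprodComparison (U t) B B := coprodComparison_natural (U t) j j
    have h2 := cof_of_comp (coprodComparison (U t) A A)
      ((cmp_desc (X := A) (Y := A) (Z := (map Cyl cyl_h).obj A) ⟨i₀.app A.obj, i₀.naturality A.γ⟩
        ⟨i₁.app A.obj, i₁.naturality A.γ⟩).symm ▸ Cof_ends A.obj)
    refine Cof_pushoutProduct j.hom (coprodComparison (U t) B B ≫ a.hom) b.hom d.hom hj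
      ((isPushout_hom h.flip (hasPushout _ (coprod.map j j).hom h2)).flip.of_iso (asIso (coprodComparison (U t) A A)).symm
        (asIso (coprodComparison (U t) B B)).symm (Iso.refl _) (Iso.refl _) ?_ ?_ ?_ ?_) ?_
      (congrArg Hom.hom hb)
    · simp only [Iso.symm_hom, asIso_inv, IsIso.eq_inv_comp, reassoc_of% h1]
      simp
    · exact ((IsIso.eq_inv_comp _).2 ((congrArg (_ ≫ ·) (Category.comp_id _)).trans
        (cmp_desc (t := t) _ _)))
    · simp
    · exact (Category.comp_id _).trans (Category.id_comp _).symm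
    · exact (Category.assoc _ _ _).trans ((congrArg (fun x => _ ≫ Hom.hom x) ha).trans
        (cmp_desc (t := t) _ _))

theorem W_iff {X Y : Rt t} (f : X ⟶ Y) : W f ↔ W f.hom := Iff.rfl

theorem Cof_iff {X Y : Rt t} (f : X ⟶ Y) : Cof f ↔ Cof f.hom := Iff.rfl

theorem isPushout_hom' {A B X Q : Rt t} {i : A ⟶ B} {f : A ⟶ X} {j : B ⟶ Q} {k : X ⟶ Q}
    (h : IsPushout i f j k) (hi : Cof i) : IsPushout i.hom f.hom j.hom k.hom :=
  isPushout_hom h (hasPushout i.hom f.hom hi)

instance tensorCofCat : TensorCofCat (Rt t) where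
  W_whiskerLeft Z _ _ f hf := W_whiskerLeft Z.obj f.hom hf
  Cof_whiskerLeft Z _ _ f hf := Cof_whiskerLeft Z.obj f.hom hf
  isZero_tensor Z X hX := (isZero_iff _).2 (isZero_tensor Z.obj X.obj ((isZero_iff _).1 hX))
  isPushout_whiskerLeft Z _ _ _ _ _ _ _ _ h hi :=
    isPushout_of_hom (isPushout_whiskerLeft Z.obj (isPushout_hom' h hi) hi)
  I := tr I TwI.hI
  e₀ := trHom e₀ rfl rfl
  e₁ := trHom e₁ rfl rfl
  p := trHom p rfl rfl
  cyl X := isoMk (cyl X.obj) (by
    change (X.γ ⊗ₘ 𝟙 _) ≫ (cyl X.obj).hom = (cyl X.obj).hom ≫ Cyl.map X.γ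
    rw [tensorHom_id, cyl_natural])
  cyl_natural f := hom_ext (cyl_natural f.hom)
  cyl_e₀ X := hom_ext (cyl_e₀ X.obj)
  cyl_e₁ X := hom_ext (cyl_e₁ X.obj)
  cyl_p X := hom_ext (cyl_p X.obj)

instance : TwI (tw t) := ⟨rfl⟩

omit [HasZeroObject C] [HasZeroMorphisms C] [HasBinaryCoproducts C] [CofCat C] [SymmetricCategory C]
  [TensorCofCat C] [TwI t] in
theorem sigma_map_hom {J : Type w} [HasCoproductsOfShape J C] {X Y : J → Rt t}
    (f : ∀ j, X j ⟶ Y j) : sigmaComparison (U t) X ≫ (Limits.Sigma.map f).hom =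
      Limits.Sigma.map (fun j => (f j).hom) ≫ sigmaComparison (U t) Y := by
  refine Limits.Sigma.hom_ext _ _ fun j => ?_
  have h1 : Sigma.ι (fun j => (X j).obj) j ≫ sigmaComparison (U t) X = (Sigma.ι X j).hom :=
    ι_comp_sigmaComparison (U t) X j
  have h2 : Sigma.ι (fun j => (Y j).obj) j ≫ sigmaComparison (U t) Y = (Sigma.ι Y j).hom :=
    ι_comp_sigmaComparison (U t) Y j
  change Sigma.ι (fun j => (X j).obj) j ≫ _ = Sigma.ι (fun j => (X j).obj) j ≫ _
  rw [reassoc_of% h1, Sigma.ι_map_assoc, h2]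
  exact congrArg Hom.hom (Sigma.ι_map f j)

instance (J : Type w) [HasCoproductsOfShape J C] [CofCoproducts C J] : CofCoproducts (Rt t) J where
  W_map {X Y} f hf := W_of_comp_left (sigmaComparison (U t) X) _ (W_of_isIso _) (by
    rw [sigma_map_hom]
    exact W_comp _ _ (CofCoproducts.W_map _ hf) (W_of_isIso _))
  Cof_map {X Y} f hf := cof_of_comp (sigmaComparison (U t) X) (by
    rw [sigma_map_hom]
    exact Cof_comp _ _ (CofCoproducts.Cof_map _ hf) (Cof_of_isIso _))

omit [HasZeroObject C] [HasZeroMorphisms C] [HasBinaryCoproducts C] [CofCat C] [SymmetricCategory C]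
  [TensorCofCat C] [TwI t] in
theorem preservesColimit_tensorLeft {J : Type w} [HasCoproductsOfShape J C]
    (h : ∀ (Z : C) (X : J → C), PreservesColimit (Discrete.functor X) (tensorLeft Z))
    (Z : Rt t) (X : J → Rt t) : PreservesColimit (Discrete.functor X) (tensorLeft Z) := by
  have h0 : PreservesColimit (Discrete.functor X ⋙ U t) (tensorLeft Z.obj) :=
    have := h Z.obj fun j => (X j).obj
    preservesColimit_of_iso_diagram _ (Discrete.compNatIsoDiscrete X (U t)).symm
  have h1 : PreservesColimit (Discrete.functor X) (tensorLeft Z ⋙ U t) :=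
    inferInstanceAs (PreservesColimit (Discrete.functor X) (U t ⋙ tensorLeft Z.obj))
  exact preservesColimit_of_reflects_of_preserves _ (U t)

end Rt

/-- the central automorphism is trivial on the objects of the stable model -/
structure TwP (P : StabModel C) (t : Tw C) : Prop where
  hCI : (t.h P.m.CI).hom = 𝟙 _
  hS : (t.h P.m.S).hom = 𝟙 _
  hY : (t.h P.Y).hom = 𝟙 _

namespace Rt

variable {t : Tw C} [TwI t] {P : StabModel C}

omit [HasBinaryCoproducts C] [CofCat C] [SymmetricCategory C] [TensorCofCat C] [TwI t] in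
theorem isPushout_zero_of_hom {A B Q : Rt t} {i : A ⟶ B} {q : B ⟶ Q}
    (h : IsPushout i.hom (0 : A.obj ⟶ (0 : C)) q.hom (0 : (0 : C) ⟶ Q.obj)) :
    IsPushout i (0 : A ⟶ (0 : Rt t)) q (0 : (0 : Rt t) ⟶ Q) :=
  isPushout_of_hom (h.of_iso (Iso.refl _) (Iso.refl _)
    ((isZero_zero C).iso ((isZero_iff _).1 (isZero_zero _))) (Iso.refl _) (by simp) (by simp)
    (by simp) (by simp))

/-- the cone and the circle with trivial actions -/
def coneModel (h : TwP P t) : ConeModel (Rt t) where
  CI := tr P.m.CI h.hCI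
  S := tr P.m.S h.hS
  c := trHom P.m.c rfl rfl
  q := trHom P.m.q rfl rfl
  s := trHom P.m.s rfl rfl
  e₀_q := hom_ext P.m.e₀_q
  isPushout_q := isPushout_zero_of_hom P.m.isPushout_q
  isPushout_s := isPushout_zero_of_hom P.m.isPushout_s

theorem htpy_of_hom {A B : Rt t} {f g : A ⟶ B} (hA : A.γ = 𝟙 _) (hB : B.γ = 𝟙 _)
    (h : Htpy f.hom g.hom) : Htpy f g := by
  obtain ⟨H, h0, h1⟩ := h
  exact ⟨trHom (X := Cyl.obj A) H ((congrArg Cyl.map hA).trans (Cyl.map_id _)) hB, hom_ext h0,
    hom_ext h1⟩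

/-- the stable model with trivial actions -/
def stabModel (h : TwP P t) : StabModel (Rt t) where
  m := coneModel h
  e :=
    { pos := trHom P.e.pos rfl rfl
      neg := trHom P.e.neg rfl rfl
      isPushout := isPushout_of_hom P.e.isPushout
      flip := trHom P.e.flip rfl rfl
      pos_flip := hom_ext P.e.pos_flip
      neg_flip := hom_ext P.e.neg_flip
      ex := trHom P.e.ex rfl rfl
      pos_ex := hom_ext P.e.pos_ex
      neg_ex := hom_ext P.e.neg_ex
      htpy_ex := htpy_of_hom rfl rfl P.e.htpy_ex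
      htpy_swap := htpy_of_hom (id_tensorHom_id _ _) (id_tensorHom_id _ _) P.e.htpy_swap }
  Y := tr P.Y h.hY
  w := trHom P.w (id_tensorHom_id _ _) rfl
  hw := P.hw

theorem twP (h : TwP P t) : TwP (stabModel h) (tw t) := ⟨rfl, rfl, rfl⟩

end Rt

end Vale.Agent.P236Z.Cat
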