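import Vale.Agent.P236Z.Cat.Defs
import Vale.Agent.P236Z.Cat.RtCof
import Vale.Agent.P236Z.Cat.Exf
import Mathlib.CategoryTheory.Localization.Adjunction

/-!
# P236: induction
-/

open CategoryTheory Limits MonoidalCategory ZeroObject
open Vale.Agent.P251 Vale.Agent.P251.H Vale.Agent.P251.H.CofCat Vale.Agent.P251.H.TensorCofCat

universe v₃ u₃ v₄ u₄

noncomputable section
namespace Vale.Agent.P236Z.Cat

section pw
variable {D : Type 1} [Category.{0} D] {D' : Type 1} [Category.{0} D']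

theorem pw_zero {X : D} (γ : X ⟶ X) : pw γ 0 = 𝟙 X := rfl
theorem pw_one {X : D} (γ : X ⟶ X) : pw γ 1 = γ := rfl
theorem pw_two {X : D} (γ : X ⟶ X) : pw γ 2 = γ ≫ γ := rfl

theorem fin3 {p : Fin 3 → Prop} (h0 : p 0) (h1 : p 1) (h2 : p 2) (i : Fin 3) : p i := by
  fin_cases i
  exacts [h0, h1, h2]

@[reassoc]
theorem pw_nat {X Y : D} {γ : X ⟶ X} {γ' : Y ⟶ Y} {f : X ⟶ Y} (h : f ≫ γ' = γ ≫ f) (i : Fin 3) :
    f ≫ pw γ' i = pw γ i ≫ f := by
  refine fin3 (p := fun i => f ≫ pw γ' i = pw γ i ≫ f) (by simp [pw_zero]) h ?_ i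
  rw [pw_two, pw_two, reassoc_of% h, h, Category.assoc]

theorem map_pw (F : D ⥤ D') {X : D} (γ : X ⟶ X) (i : Fin 3) :
    F.map (pw γ i) = pw (F.map γ) i :=
  fin3 (p := fun i => F.map (pw γ i) = pw (F.map γ) i) (F.map_id _) rfl (F.map_comp _ _) i

end pw

/-- transport of a colimit cofan -/
def cofanIso {D : Type u₃} [Category.{v₃} D] {I : Type} {Y Y' Q Q' : D} {f : I → (Y ⟶ Q)}
    {f' : I → (Y' ⟶ Q')} (h : IsColimit (Cofan.mk Q f)) (a : Y ≅ Y') (b : Q ≅ Q')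
    (w : ∀ i, a.hom ≫ f' i = f i ≫ b.hom) : IsColimit (Cofan.mk Q' f') :=
  Cofan.IsColimit.mk _ (fun s => b.inv ≫ Cofan.IsColimit.desc h fun i => a.hom ≫ s.inj i)
    (fun s i => by
      have h1 : f i ≫ Cofan.IsColimit.desc h (fun i => a.hom ≫ s.inj i) = a.hom ≫ s.inj i :=
        Cofan.IsColimit.fac h _ i
      change f' i ≫ _ = _
      rw [← cancel_epi a.hom, reassoc_of% w, Iso.hom_inv_id_assoc, h1])
    (fun s m hm => by
      rw [Iso.eq_inv_comp]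
      refine Cofan.IsColimit.hom_ext h _ _ fun i => ?_
      have h1 : f i ≫ Cofan.IsColimit.desc h (fun i => a.hom ≫ s.inj i) = a.hom ≫ s.inj i :=
        Cofan.IsColimit.fac h _ i
      have h2 : f' i ≫ m = s.inj i := hm i
      change f i ≫ _ = f i ≫ _
      rw [h1, ← reassoc_of% w, h2])

namespace Rt

section
variable {C : Type 1} [Category.{0} C] [MonoidalCategory C] [HasCoproductsOfShape (Fin 3) C]
  (t : Tw C)

/-- the inclusions -/
def ι3 (Y : C) (i : Fin 3) : Y ⟶ ∐ fun _ : Fin 3 => Y := Sigma.ι (fun _ : Fin 3 => Y) i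

/-- maps out of the sum of three copies -/
def desc3 {Y Z : C} (f : Fin 3 → (Y ⟶ Z)) : (∐ fun _ : Fin 3 => Y) ⟶ Z := Sigma.desc f

omit [MonoidalCategory C] in
@[reassoc] theorem ι3_desc3 {Y Z : C} (f : Fin 3 → (Y ⟶ Z)) (i : Fin 3) :
    ι3 Y i ≫ desc3 f = f i := Sigma.ι_desc _ _

omit [MonoidalCategory C] in
theorem ext3 {Y Z : C} {f g : (∐ fun _ : Fin 3 => Y) ⟶ Z} (h0 : ι3 Y 0 ≫ f = ι3 Y 0 ≫ g)
    (h1 : ι3 Y 1 ≫ f = ι3 Y 1 ≫ g) (h2 : ι3 Y 2 ≫ f = ι3 Y 2 ≫ g) : f = g :=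
  Limits.Sigma.hom_ext _ _ (fin3 (p := fun i => ι3 Y i ≫ f = ι3 Y i ≫ g) h0 h1 h2)

/-- the action on the induced object -/
def γ3 (Y : C) : (∐ fun _ : Fin 3 => Y) ⟶ ∐ fun _ : Fin 3 => Y :=
  desc3 ![ι3 Y 1, ι3 Y 2, (t.h Y).hom ≫ ι3 Y 0]

@[reassoc] theorem ι0_γ3 (Y : C) : ι3 Y 0 ≫ γ3 t Y = ι3 Y 1 := ι3_desc3 _ 0
@[reassoc] theorem ι1_γ3 (Y : C) : ι3 Y 1 ≫ γ3 t Y = ι3 Y 2 := ι3_desc3 _ 1
@[reassoc] theorem ι2_γ3 (Y : C) : ι3 Y 2 ≫ γ3 t Y = (t.h Y).hom ≫ ι3 Y 0 := ι3_desc3 _ 2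

omit [MonoidalCategory C] in
@[reassoc] theorem ι3_map {X Y : C} (f : X ⟶ Y) (i : Fin 3) :
    ι3 X i ≫ Limits.Sigma.map (fun _ : Fin 3 => f) = f ≫ ι3 Y i := Sigma.ι_map _ _

theorem γ3_cube (Y : C) : γ3 t Y ≫ γ3 t Y ≫ γ3 t Y = (t.h _).hom := ext3
  (by rw [ι0_γ3_assoc, ι1_γ3_assoc, ι2_γ3, t.nat])
  (by rw [ι1_γ3_assoc, ι2_γ3_assoc, ι0_γ3, t.nat])
  (by rw [ι2_γ3_assoc, ι0_γ3_assoc, ι1_γ3, t.nat])

theorem γ3_map {X Y : C} (f : X ⟶ Y) : γ3 t X ≫ Limits.Sigma.map (fun _ : Fin 3 => f) =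
    Limits.Sigma.map (fun _ : Fin 3 => f) ≫ γ3 t Y := ext3
  (by rw [ι0_γ3_assoc, ι3_map, ι3_map_assoc, ι0_γ3])
  (by rw [ι1_γ3_assoc, ι3_map, ι3_map_assoc, ι1_γ3])
  (by rw [ι2_γ3_assoc, ι3_map, ι3_map_assoc, ι2_γ3, reassoc_of% t.nat f])

/-- induction -/
@[simps] def ind : C ⥤ Rt t where
  obj Y := ⟨∐ fun _ : Fin 3 => Y, γ3 t Y, γ3_cube t Y⟩
  map f := ⟨Limits.Sigma.map fun _ => f, γ3_map t f⟩
  map_id _ := hom_ext (Limits.Sigma.map_id)
  map_comp f g := hom_ext (Limits.Sigma.map_comp_map (fun _ : Fin 3 => f) fun _ => g).symm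

theorem ι0_pw (Y : C) (i : Fin 3) : ι3 Y 0 ≫ pw (γ3 t Y) i = ι3 Y i :=
  fin3 (p := fun i => ι3 Y 0 ≫ pw (γ3 t Y) i = ι3 Y i) (Category.comp_id _) (ι0_γ3 t Y)
    (by rw [pw_two, ι0_γ3_assoc, ι1_γ3]) i

/-- induction is left adjoint to restriction -/
def adj : ind t ⊣ U t where
  unit := { app := fun Y => ι3 Y 0, naturality := fun _ _ f => (ι3_map f 0).symm }
  counit :=
    { app := fun X => ⟨desc3 (pw X.γ), by
        change γ3 t X.obj ≫ desc3 (pw X.γ) = desc3 (pw X.γ) ≫ X.γ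
        refine ext3 ?_ ?_ ?_
        · rw [ι0_γ3_assoc, ι3_desc3, ι3_desc3_assoc, pw_zero, pw_one, Category.id_comp]
        · rw [ι1_γ3_assoc, ι3_desc3, ι3_desc3_assoc, pw_two, pw_one]
        · rw [ι2_γ3_assoc, ι3_desc3, ι3_desc3_assoc, pw_zero, pw_two, Category.assoc, X.cube,
            Category.comp_id]⟩
      naturality := fun X Y f => hom_ext (Limits.Sigma.hom_ext _ _ fun i => by
        change ι3 X.obj i ≫ Limits.Sigma.map (fun _ : Fin 3 => f.hom) ≫ desc3 (pw Y.γ) =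
          ι3 X.obj i ≫ desc3 (pw X.γ) ≫ f.hom
        rw [ι3_map_assoc, ι3_desc3, ι3_desc3_assoc, pw_nat f.comm.symm]) }
  left_triangle_components Y := hom_ext (Limits.Sigma.hom_ext _ _ fun i => by
    change ι3 Y i ≫ Limits.Sigma.map (fun _ : Fin 3 => ι3 Y 0) ≫ desc3 (pw (γ3 t Y)) =
      ι3 Y i ≫ 𝟙 _
    rw [ι3_map_assoc, ι3_desc3, ι0_pw, Category.comp_id])
  right_triangle_components X := ι3_desc3 (pw X.γ) 0

end

variable {C : Type 1} [Category.{0} C] [HasZeroObject C] [HasZeroMorphisms C]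
  [HasBinaryCoproducts C] [CofCat C] [MonoidalCategory C] [SymmetricCategory C] [TensorCofCat C]
  {t : Tw C} [TwI t] {P : StabModel C} (h : TwP P t)

/-- restriction as a functor of stable models -/
abbrev mfU : MF (stabModel h) P :=
  { Φ := U t, w := fun _ hf => hf, cof := fun _ hf => hf, po := fun h hi => isPushout_hom' h hi,
    ci := Iso.refl _, s := Iso.refl _,
    c_ci := (Category.id_comp _).trans (Category.comp_id _),
    s_s := (Category.comp_id _).trans (Category.id_comp _).symm }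

variable {D₀ : Type u₃} [Category.{v₃} D₀] (L₀ : C ⥤ D₀) [L₀.IsLocalization (W (C := C))]
  {D₀' : Type u₄} [Category.{v₄} D₀'] (L₀' : Rt t ⥤ D₀') [L₀'.IsLocalization (W (C := Rt t))]

/-- restriction -/
abbrev UL : TT (stabModel h) L₀' ⥤ TT P L₀ := (mfU h).F L₀' L₀

/-- restriction is induced -/
abbrev eU : TT.L (stabModel h) L₀' ⋙ UL h L₀ L₀' ≅ U t ⋙ TT.L P L₀ := (mfU h).e L₀' L₀

theorem sat (hs : ∀ X : C, IsZero ((TT.L P L₀).obj X) → W (0 : X ⟶ 0)) (X : Rt t)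
    (hX : IsZero ((UL h L₀ L₀').obj ((TT.L (stabModel h) L₀').obj X))) : W (0 : X ⟶ 0) := by
  have h1 := hs X.obj (hX.of_iso ((eU h L₀ L₀').app X).symm)
  have h2 := W_comp _ _ h1
    (W_of_isIso ((isZero_zero C).iso ((isZero_iff (0 : Rt t)).1 (isZero_zero _))).hom)
  rw [zero_comp] at h2
  exact h2

theorem cons (hs : ∀ X : C, IsZero ((TT.L P L₀).obj X) → W (0 : X ⟶ 0))
    (X : TT (stabModel h) L₀') (hX : IsZero ((UL h L₀ L₀').obj X)) : IsZero X := by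
  let e := (TT.L (stabModel h) L₀').objObjPreimageIso X
  have h1 := sat h L₀ L₀' hs _ (hX.of_iso ((UL h L₀ L₀').mapIso e))
  have := Localization.inverts (TT.L (stabModel h) L₀') W _ h1
  exact ((isZero_map (TT.L (stabModel h) L₀') (isZero_zero _)).of_iso
    (asIso ((TT.L (stabModel h) L₀').map
      (0 : (TT.L (stabModel h) L₀').objPreimage X ⟶ (0 : Rt t))))).of_iso e.symm

variable [HasCoproductsOfShape (Fin 3) C] [CofCoproducts C (Fin 3)]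

theorem ind_inverts : (W (C := C)).IsInvertedBy (ind t ⋙ TT.L (stabModel h) L₀') :=
  fun _ _ f hf => Localization.inverts (TT.L (stabModel h) L₀') W ((ind t).map f)
    (CofCoproducts.W_map (fun _ : Fin 3 => f) fun _ => hf)

/-- induction -/
def indL : TT P L₀ ⥤ TT (stabModel h) L₀' := lf (TT.L P L₀) W _ (ind_inverts h L₀')

/-- induction is induced -/
def eI : TT.L P L₀ ⋙ indL h L₀ L₀' ≅ ind t ⋙ TT.L (stabModel h) L₀' :=
  lfIso (TT.L P L₀) W _ (ind_inverts h L₀')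

instance : CatCommSq (ind t) (TT.L P L₀) (TT.L (stabModel h) L₀') (indL h L₀ L₀') :=
  ⟨(eI h L₀ L₀').symm⟩

instance : CatCommSq (U t) (TT.L (stabModel h) L₀') (TT.L P L₀) (UL h L₀ L₀') :=
  ⟨(eU h L₀ L₀').symm⟩

/-- induction is left adjoint to restriction -/
def adjL : indL h L₀ L₀' ⊣ UL h L₀ L₀' :=
  (adj t).localization (TT.L P L₀) W (TT.L (stabModel h) L₀') W _ _

theorem adjL_unit (Y : C) : (adjL h L₀ L₀').unit.app ((TT.L P L₀).obj Y) =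
    (TT.L P L₀).map (ι3 Y 0) ≫ (eU h L₀ L₀').inv.app ((ind t).obj Y) ≫
      (UL h L₀ L₀').map ((eI h L₀ L₀').inv.app Y) :=
  (adj t).localization_unit_app _ _ _ _ _ _ Y

end Rt

namespace Rt

variable {C : Type 1} [Category.{0} C] [HasZeroObject C] [HasZeroMorphisms C]
  [HasBinaryCoproducts C] [CofCat C] [MonoidalCategory C] [SymmetricCategory C] [TensorCofCat C]
  {t : Tw C} [TwI t] {P : StabModel C} (h : TwP P t)
  {D₀ : Type 1} [Category.{0} D₀] (L₀ : C ⥤ D₀) [L₀.IsLocalization (W (C := C))]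
  {D₀' : Type 1} [Category.{0} D₀'] (L₀' : Rt t ⥤ D₀') [L₀'.IsLocalization (W (C := Rt t))]
  [HasCoproductsOfShape (Fin 3) C] [CofCoproducts C (Fin 3)]

theorem cofanL (t' : Tw (TT (stabModel h) L₀'))
    (ht : ∀ X, (t'.h ((TT.L (stabModel h) L₀').obj X)).hom =
      (TT.L (stabModel h) L₀').map ((tw t).h X).hom) (Y : TT P L₀) :
    Nonempty (IsColimit (Cofan.mk ((UL h L₀ L₀').obj ((indL h L₀ L₀').obj Y))
      fun i : Fin 3 => (adjL h L₀ L₀').unit.app Y ≫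
        (UL h L₀ L₀').map (pw (t'.h ((indL h L₀ L₀').obj Y)).hom i))) := by
  let Z := (TT.L P L₀).objPreimage Y
  let e : (TT.L P L₀).obj Z ≅ Y := (TT.L P L₀).objObjPreimageIso Y
  let a : (TT.L P L₀).obj (∐ fun _ : Fin 3 => Z) ≅
      (UL h L₀ L₀').obj ((TT.L (stabModel h) L₀').obj ((ind t).obj Z)) :=
    ((eU h L₀ L₀').app ((ind t).obj Z)).symm
  let b : (TT.L (stabModel h) L₀').obj ((ind t).obj Z) ≅ (indL h L₀ L₀').obj Y :=
    ((eI h L₀ L₀').app Z).symm ≪≫ (indL h L₀ L₀').mapIso e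
  have h0 := isColimitOfHasCoproductOfPreservesColimit (TT.L P L₀) (fun _ : Fin 3 => Z)
  refine ⟨cofanIso (f := fun i => (TT.L P L₀).map (ι3 Z i)) h0 e (a ≪≫ (UL h L₀ L₀').mapIso b)
    fun i => ?_⟩
  have h1 : e.hom ≫ (adjL h L₀ L₀').unit.app Y =
      (TT.L P L₀).map (ι3 Z 0) ≫ a.hom ≫ (UL h L₀ L₀').map b.hom := by
    refine ((adjL h L₀ L₀').unit.naturality e.hom).trans ?_
    rw [adjL_unit]
    exact (Category.assoc _ _ _).trans (congrArg _ ((Category.assoc _ _ _).trans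
      (congrArg _ ((UL h L₀ L₀').map_comp _ _).symm)))
  have h2 : (TT.L P L₀).map (γ3 t Z) ≫ a.hom = a.hom ≫
      (UL h L₀ L₀').map ((TT.L (stabModel h) L₀').map ((tw t).h ((ind t).obj Z)).hom) :=
    (eU h L₀ L₀').inv.naturality ((tw t).h ((ind t).obj Z)).hom
  rw [reassoc_of% h1, ← Functor.map_comp, pw_nat (t'.nat b.hom), Functor.map_comp, ht, map_pw,
    pw_nat_assoc h2.symm, ← map_pw, ← Functor.map_comp_assoc, ι0_pw]
  rfl

end Rt

end Vale.Agent.P236Z.Cat
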