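import Vale.Agent.P236Z.Cat.Cube
import Mathlib.CategoryTheory.Localization.Monoidal.Functor

/-!
# P236: lifting functors and natural transformations to localizations
-/

open CategoryTheory MonoidalCategory Functor.LaxMonoidal Functor.OplaxMonoidal

noncomputable section
namespace Vale.Agent.P236Z.Cat

variable {C D E : Type*} [Category* C] [Category* D] [Category* E] (L : C ⥤ D)

theorem ess_ext [L.EssSurj] {F G : D ⥤ E} (a b : F ⟶ G)
    (h : ∀ Y, a.app (L.obj Y) = b.app (L.obj Y)) (X : D) : a.app X = b.app X := by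
  rw [← cancel_epi (F.map (L.objObjPreimageIso X).hom), a.naturality, b.naturality, h]

section desc
variable (W : MorphismProperty C) [L.IsLocalization W]

/-- the isomorphism induced by an isomorphism of the composites with the localization functor -/
def desc {F G : D ⥤ E} (e : L ⋙ F ≅ L ⋙ G) : F ≅ G :=
  (Localization.fullyFaithfulWhiskeringLeft L W E).preimageIso e

theorem whiskerLeft_desc {F G : D ⥤ E} (e : L ⋙ F ≅ L ⋙ G) :
    L.whiskerLeft (desc L W e).hom = e.hom :=
  (Localization.fullyFaithfulWhiskeringLeft L W E).map_preimage e.hom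

theorem desc_app {F G : D ⥤ E} (e : L ⋙ F ≅ L ⋙ G) (X : C) :
    (desc L W e).hom.app (L.obj X) = e.hom.app X :=
  congrArg (fun τ => NatTrans.app τ X) (whiskerLeft_desc L W e)

/-- the lifted functor -/
def lf (G : C ⥤ E) (hG : W.IsInvertedBy G) : D ⥤ E := Localization.lift G hG L

/-- the lifted functor lifts -/
def lfIso (G : C ⥤ E) (hG : W.IsInvertedBy G) : L ⋙ lf L W G hG ≅ G := Localization.fac G hG L

instance (G : C ⥤ E) (hG : W.IsInvertedBy G) : Localization.Lifting L W G (lf L W G hG) :=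
  ⟨lfIso L W G hG⟩

end desc

variable [MonoidalCategory C] [MonoidalCategory D] [MonoidalCategory E] [L.Monoidal]

theorem isMonoidal_of_essSurj [L.EssSurj] {F G : D ⥤ E} [F.LaxMonoidal] [G.LaxMonoidal]
    (τ : F ⟶ G) (h : NatTrans.IsMonoidal (L.whiskerLeft τ)) : NatTrans.IsMonoidal τ where
  unit := by
    have h1 : (ε F ≫ F.map (ε L)) ≫ τ.app (L.obj (𝟙_ C)) = ε G ≫ G.map (ε L) := h.unit
    rw [Category.assoc, τ.naturality, ← Category.assoc] at h1
    exact (cancel_mono _).1 h1
  tensor X Y := by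
    have h2 : ∀ A B : C, μ F (L.obj A) (L.obj B) ≫ τ.app _ =
        (τ.app _ ⊗ₘ τ.app _) ≫ μ G (L.obj A) (L.obj B) := fun A B => by
      have h1 : (μ F (L.obj A) (L.obj B) ≫ F.map (μ L A B)) ≫ τ.app (L.obj (A ⊗ B)) =
          (τ.app (L.obj A) ⊗ₘ τ.app (L.obj B)) ≫ μ G (L.obj A) (L.obj B) ≫ G.map (μ L A B) :=
        h.tensor A B
      rw [Category.assoc, τ.naturality, ← Category.assoc, ← Category.assoc] at h1
      exact (cancel_mono _).1 h1
    have hi : IsIso (F.map (L.objObjPreimageIso X).hom ⊗ₘ F.map (L.objObjPreimageIso Y).hom) :=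
      (F.mapIso (L.objObjPreimageIso X) ⊗ᵢ F.mapIso (L.objObjPreimageIso Y)).isIso_hom
    rw [← cancel_epi (F.map (L.objObjPreimageIso X).hom ⊗ₘ F.map (L.objObjPreimageIso Y).hom),
      μ_natural_assoc, τ.naturality, reassoc_of% h2, tensorHom_comp_tensorHom_assoc, τ.naturality,
      τ.naturality, ← tensorHom_comp_tensorHom_assoc, μ_natural]

variable (W : MorphismProperty C) [L.IsLocalization W]

instance {F G : D ⥤ E} [F.LaxMonoidal] [G.LaxMonoidal] (e : L ⋙ F ≅ L ⋙ G)
    [h : NatTrans.IsMonoidal e.hom] : NatTrans.IsMonoidal (desc L W e).hom :=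
  have := Localization.essSurj L W
  isMonoidal_of_essSurj L _ ((whiskerLeft_desc L W e).symm ▸ h)

instance [W.ContainsIdentities] (G : C ⥤ E) [G.Monoidal] (hG : W.IsInvertedBy G) :
    (lf L W G hG).Monoidal := Localization.Monoidal.functorMonoidalOfComp L W _ G

instance [W.ContainsIdentities] (G : C ⥤ E) [G.Monoidal] (hG : W.IsInvertedBy G) :
    NatTrans.IsMonoidal (lfIso L W G hG).hom :=
  Localization.Monoidal.lifting_isMonoidal L W (lf L W G hG) G

/-- the central automorphism of the localization -/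
def Tw.loc (t : Tw C) : Tw D :=
  let e : L ⋙ 𝟭 D ≅ L ⋙ 𝟭 D := NatIso.ofComponents (fun X => L.mapIso (t.h X)) (fun f =>
    ((L.map_comp _ _).symm.trans (congrArg L.map (t.nat f))).trans (L.map_comp _ _))
  have : NatTrans.IsMonoidal e.hom :=
    { unit := by
        change (𝟙 _ ≫ ε L) ≫ L.map (t.h (𝟙_ C)).hom = 𝟙 _ ≫ ε L
        rw [t.one, L.map_id, Category.comp_id]
      tensor := fun X Y => by
        change (𝟙 _ ≫ μ L X Y) ≫ L.map (t.h (X ⊗ Y)).hom =
          (L.map (t.h X).hom ⊗ₘ L.map (t.h Y).hom) ≫ 𝟙 _ ≫ μ L X Y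
        rw [t.ten, Category.id_comp, μ_natural] }
  { h := fun X => (desc L W e).app X
    nat := fun f => (desc L W e).hom.naturality f
    ten := fun X Y => ((Category.id_comp _).symm.trans
      (NatTrans.IsMonoidal.tensor (τ := (desc L W e).hom) X Y)).trans (Category.comp_id _)
    one := (Category.id_comp _).symm.trans (NatTrans.IsMonoidal.unit (τ := (desc L W e).hom)) }

theorem Tw.loc_h (t : Tw C) (X : C) : ((t.loc L W).h (L.obj X)).hom = L.map (t.h X).hom :=
  desc_app L W _ X

/-- the central automorphism as a natural transformation -/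
@[simps] def Tw.nt (t : Tw C) : 𝟭 C ⟶ 𝟭 C where
  app X := (t.h X).hom
  naturality _ _ f := t.nat f

end Vale.Agent.P236Z.Cat

namespace Vale.Agent.P236Z.Cat

variable {C D E : Type*} [Category* C] [Category* D] [Category* E] (L : C ⥤ D)
  [MonoidalCategory C] [MonoidalCategory D] [MonoidalCategory E] [BraidedCategory C]
  [BraidedCategory D] [BraidedCategory E] [L.Braided]

theorem braided_of_essSurj [L.EssSurj] {F : D ⥤ E} [F.Monoidal] {G : C ⥤ E} [G.Braided]
    (e : L ⋙ F ≅ G) [h : NatTrans.IsMonoidal e.hom] (X Y : D) :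
    μ F X Y ≫ F.map (β_ X Y).hom = (β_ (F.obj X) (F.obj Y)).hom ≫ μ F Y X := by
  have h2 : ∀ A B : C, μ F (L.obj A) (L.obj B) ≫ F.map (β_ (L.obj A) (L.obj B)).hom =
      (β_ _ _).hom ≫ μ F (L.obj B) (L.obj A) := fun A B => by
    have h1 : ∀ A B : C, μ F (L.obj A) (L.obj B) ≫ F.map (μ L A B) ≫ e.hom.app (A ⊗ B) =
        (e.hom.app A ⊗ₘ e.hom.app B) ≫ μ G A B := fun A B =>
      (Category.assoc _ _ _).symm.trans (h.tensor A B)
    have h3 : F.map (L.map (β_ A B).hom) ≫ e.hom.app (B ⊗ A) =
        e.hom.app (A ⊗ B) ≫ G.map (β_ A B).hom := e.hom.naturality _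
    rw [← cancel_mono (F.map (μ L B A) ≫ e.hom.app (B ⊗ A)), Category.assoc, Category.assoc, h1,
      ← F.map_comp_assoc, ← Functor.Braided.braided, F.map_comp_assoc, h3, reassoc_of% h1,
      Functor.Braided.braided]
    exact BraidedCategory.braiding_naturality_assoc _ _ _
  have hi : IsIso (F.map (L.objObjPreimageIso X).hom ⊗ₘ F.map (L.objObjPreimageIso Y).hom) :=
    (F.mapIso (L.objObjPreimageIso X) ⊗ᵢ F.mapIso (L.objObjPreimageIso Y)).isIso_hom
  rw [← cancel_epi (F.map (L.objObjPreimageIso X).hom ⊗ₘ F.map (L.objObjPreimageIso Y).hom),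
    μ_natural_assoc, ← F.map_comp, BraidedCategory.braiding_naturality, F.map_comp, reassoc_of% h2,
    BraidedCategory.braiding_naturality_assoc, μ_natural]

instance (W : MorphismProperty C) [L.IsLocalization W] [W.ContainsIdentities] (G : C ⥤ E)
    [G.Braided] (hG : W.IsInvertedBy G) : (lf L W G hG).Braided where
  braided X Y :=
    have := Localization.essSurj L W
    braided_of_essSurj L (lfIso L W G hG) X Y

end Vale.Agent.P236Z.Cat
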