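import Vale.Agent.P236Z.Cat.Api0

/-!
# P236: norm maps of rings for a step of the Borel tower
-/

open CategoryTheory MonoidalCategory Limits Pretriangulated
open Functor.LaxMonoidal Functor.OplaxMonoidal
open Vale.Agent.P251 Vale.Agent.P251.T Vale.Agent.P251.G
open scoped CategoryTheory.Obj

noncomputable section
namespace Vale.Agent.P236Z.Cat

namespace Step

namespace Nm

variable {D : Type 1} [Category.{0} D] [MonoidalCategory D]

@[reassoc]
theorem mul3_hom {R R' : D} [MonObj R] [MonObj R'] (φ : R ⟶ R') [IsMonHom φ] :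
    mul3 R ≫ φ = (φ ⊗ₘ φ ⊗ₘ φ) ≫ mul3 R' := by
  simp only [mul3, Category.assoc, IsMonHom.mul_hom, ← id_tensorHom,
    tensorHom_comp_tensorHom_assoc, Category.id_comp, Category.comp_id]

variable [SymmetricCategory D] (Y : D) [MonObj Y]

theorem cube_one : MonObj.one (X := Y ⊗ Y ⊗ Y) =
    ε (cube D) ≫ (MonObj.one (X := Y) ⊗ₘ MonObj.one (X := Y) ⊗ₘ MonObj.one (X := Y)) := by
  simp only [cube_ε, MonObj.tensorObj.one_def, Category.assoc, ← id_tensorHom,
    tensorHom_comp_tensorHom, Category.id_comp]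

theorem cube_mul : MonObj.mul (X := Y ⊗ Y ⊗ Y) = mix Y Y Y Y Y Y ≫
    (MonObj.mul (X := Y) ⊗ₘ MonObj.mul (X := Y) ⊗ₘ MonObj.mul (X := Y)) := by
  simp only [mix, MonObj.tensorObj.mul_def, Category.assoc, ← id_tensorHom,
    tensorHom_comp_tensorHom, Category.id_comp]

theorem tr3_mul3 : tr3 Y ≫ (mul3 Y ⊗ₘ mul3 Y ⊗ₘ mul3 Y) = mul3 (Y ⊗ Y ⊗ Y) := by
  have h := mix_natural (𝟙 Y) (𝟙 Y) (𝟙 Y) (MonObj.mul (X := Y)) (MonObj.mul (X := Y))
    (MonObj.mul (X := Y))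
  simp only [id_tensorHom, MonoidalCategory.whiskerLeft_id] at h
  simp only [tr3, mul3, cube_mul, MonoidalCategory.whiskerLeft_comp, Category.assoc,
    reassoc_of% h, tensorHom_comp_tensorHom]

variable [IsCommMonObj Y]

instance mul_mon : IsMonHom (MonObj.mul (X := Y)) where
  one_hom := by simp [MonObj.tensorObj.one_def, ← unitors_equal]
  mul_hom := by simp [MonObj.tensorObj.mul_def]

instance mul3_mon : IsMonHom (mul3 Y) := by
  unfold mul3
  infer_instance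

@[reassoc]
theorem rot_mul3 : rot Y Y Y ≫ mul3 Y = mul3 Y := by
  rw [rot, mul3, Category.assoc, ← BraidedCategory.braiding_naturality_left_assoc,
    IsCommMonObj.mul_comm, MonObj.mul_assoc_flip]

end Nm

end Step

variable {T₀ : TTC} {F : I.SpaceFunctor T₀.C} {T T' : TTC} {K : Type 1} [Category.{0} K]
  [MonoidalCategory K] [SymmetricCategory K] {tK : Tw K} {u : K ⥤ I.FCat} {v : I.FCat ⥤ K}
  [v.Braided] {hv : ∀ X, (tK.h (v.obj X)).hom = 𝟙 _} {L : Lvl T₀ F T tK u v}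
  {L' : Lvl T₀ F T' (Rt.tw tK) (Rt.U tK ⋙ u) (Rt.triv v hv)} (s : Step L L')

namespace Step

open Nm

/-- the restriction of a norm is the third tensor power -/
def νIso (Y : T.C) : s.U.F.obj (s.N.obj Y) ≅ Y ⊗ Y ⊗ Y := s.ν.app Y

@[reassoc]
theorem ν_nat {A B : T.C} (f : A ⟶ B) :
    s.U.F.map (s.N.map f) ≫ s.ν.hom.app B = s.ν.hom.app A ≫ (f ⊗ₘ f ⊗ₘ f) := s.ν.hom.naturality f

@[reassoc]
theorem sh_nat {A B : T.C} (f : A ⟶ B) : s.N.map (f ⊗ₘ f ⊗ₘ f) ≫ s.sh.hom.app B =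
    s.sh.hom.app A ≫ s.N.map (f ⊗ₘ f ⊗ₘ f) := s.sh.hom.naturality f

instance νIso_mon (Y : T.C) [MonObj Y] : IsMonHom (s.νIso Y).hom where
  one_hom := by
    have h := s.ν_mon.unit
    rw [Functor.LaxMonoidal.comp_ε, Category.assoc] at h
    simp only [νIso, Iso.app_hom, Functor.obj.η_def, Functor.map_comp, Category.assoc, ν_nat,
      cube_one]
    rw [reassoc_of% h]
  mul_hom := by
    have h := s.ν_mon.tensor Y Y
    rw [Functor.LaxMonoidal.comp_μ, Category.assoc, cube_μ] at h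
    simp only [νIso, Iso.app_hom, Functor.obj.μ_def, Functor.map_comp, Category.assoc, ν_nat,
      cube_mul]
    rw [reassoc_of% h]

/-- the automorphism of the norm of the third tensor power -/
def shIso (Y : T.C) : s.N.obj (Y ⊗ Y ⊗ Y) ≅ s.N.obj (Y ⊗ Y ⊗ Y) := s.sh.app Y

instance shIso_mon (Y : T.C) [MonObj Y] : IsMonHom (s.shIso Y).hom where
  one_hom := by
    have h := s.sh_mon.unit
    rw [Functor.LaxMonoidal.comp_ε, Category.assoc] at h
    simp only [shIso, Iso.app_hom, Functor.obj.η_def, Functor.map_comp, Category.assoc, sh_nat,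
      cube_one]
    rw [reassoc_of% h]
  mul_hom := by
    have h := s.sh_mon.tensor Y Y
    rw [Functor.LaxMonoidal.comp_μ, Category.assoc, cube_μ] at h
    simp only [shIso, Iso.app_hom, Functor.obj.μ_def, Functor.map_comp, Category.assoc, sh_nat,
      cube_mul]
    rw [reassoc_of% h]

theorem isNm_nmN (Y : T.C) [MonObj Y] [IsCommMonObj Y] : s.IsNm (s.N.obj Y) (s.nmN Y) where
  mon := inferInstanceAs
    (IsMonHom (s.N.map (s.νIso Y).hom ≫ (s.shIso Y).hom ≫ s.N.map (mul3 Y)))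
  res := by
    have h := mul3_hom (s.νIso Y).hom
    simp only [νIso, Iso.app_hom] at h
    rw [← cancel_mono (s.ν.hom.app Y)]
    simp only [nmN, Functor.map_comp, Category.assoc, ν_nat, reassoc_of% s.sh_U Y, ν_nat_assoc, h,
      Tw.shear, tensorHom_comp_tensorHom_assoc, tensorHom_comp_tensorHom, rot_mul3,
      Category.id_comp, Category.comp_id, tr3_mul3, s.ν_h, reassoc_of% s.ν_h Y]
  conj := by
    simp only [nmN, Category.assoc]
    rw [← s.N.map_comp_assoc, s.ν_h, s.N.map_comp_assoc, reassoc_of% s.sh_rot Y, ← L'.t.nat,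
      ← s.N.map_comp_assoc, Category.assoc, rot_mul3, rot_mul3]

theorem nmN_natural {Y Y' : T.C} [MonObj Y] [MonObj Y'] (φ : Y ⟶ Y') [IsMonHom φ] :
    s.N.map (s.U.F.map (s.N.map φ)) ≫ s.nmN Y' = s.nmN Y ≫ s.N.map φ := by
  simp only [nmN, Category.assoc]
  rw [← s.N.map_comp_assoc, ν_nat, s.N.map_comp_assoc, sh_nat_assoc, ← s.N.map_comp, ← mul3_hom,
    s.N.map_comp]

theorem IsNm.map_conj {R A : T'.C} [MonObj R] {nm : s.N.obj (s.U.F.obj R) ⟶ R} (h : s.IsNm R nm)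
    (x : s.U.F.obj A ⟶ s.U.F.obj R) :
    s.N.map (s.γ' A ≫ x ≫ s.γ R) ≫ nm = s.rotN A ≫ s.N.map x ≫ nm := by
  simp only [rotN, Functor.map_comp, Category.assoc, h.conj]
  rw [← Category.assoc (s.N.map x), L'.t.nat]

theorem IsNm.map_mul {R : T'.C} [MonObj R] {nm : s.N.obj (s.U.F.obj R) ⟶ R} (h : s.IsNm R nm)
    {A B : T.C} (x : A ⟶ s.U.F.obj R) (y : B ⟶ s.U.F.obj R) :
    μ s.N A B ≫ s.N.map ((x ⊗ₘ y) ≫ MonObj.mul (X := s.U.F.obj R)) ≫ nm =
      ((s.N.map x ≫ nm) ⊗ₘ (s.N.map y ≫ nm)) ≫ MonObj.mul (X := R) := by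
  have h1 := h.mon.mul_hom
  rw [Functor.obj.μ_def, Category.assoc] at h1
  rw [s.N.map_comp, Category.assoc, ← μ_natural_assoc, h1, tensorHom_comp_tensorHom_assoc]

theorem IsNm.map_one {R : T'.C} [MonObj R] {nm : s.N.obj (s.U.F.obj R) ⟶ R} (h : s.IsNm R nm) :
    ε s.N ≫ s.N.map (MonObj.one (X := s.U.F.obj R)) ≫ nm = MonObj.one (X := R) := by
  have h1 := h.mon.one_hom
  rwa [Functor.obj.η_def, Category.assoc] at h1

theorem IsNm.of_iso {R R' : T'.C} [MonObj R] [MonObj R'] {nm : s.N.obj (s.U.F.obj R) ⟶ R}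
    (h : s.IsNm R nm) (e : R ≅ R') [IsMonHom e.hom] :
    s.IsNm R' (s.N.map (s.U.F.map e.inv) ≫ nm ≫ e.hom) := by
  have h1 : s.γ R' ≫ s.U.F.map e.inv = s.U.F.map e.inv ≫ s.γ R := by
    rw [← s.U.F.map_comp, ← s.U.F.map_comp, L'.t.nat]
  have h2 : s.γ R ≫ s.U.F.map e.hom = s.U.F.map e.hom ≫ s.γ R' := by
    rw [← s.U.F.map_comp, ← s.U.F.map_comp, L'.t.nat]
  have := h.mon
  refine ⟨inferInstance, ?_, ?_⟩
  · simp only [Functor.map_comp, h.res, ν_nat_assoc, Category.assoc, mul3_hom,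
      tensorHom_comp_tensorHom_assoc, tensorHom_comp_tensorHom, h2, reassoc_of% h2,
      Category.id_comp, Iso.map_inv_hom_id_assoc, Iso.map_inv_hom_id]
  · rw [← s.N.map_comp_assoc, h1, s.N.map_comp_assoc, reassoc_of% h.conj, ← L'.t.nat,
      Category.assoc, Category.assoc]

/-- the third tensor power of a norm -/
def cubeIso (E : T.C) : s.N.obj E ⊗ s.N.obj E ⊗ s.N.obj E ≅ s.N.obj (E ⊗ E ⊗ E) :=
  whiskerLeftIso _ (Functor.Monoidal.μIso s.N E E) ≪≫ Functor.Monoidal.μIso s.N E (E ⊗ E)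

instance cubeIso_mon (E : T.C) [MonObj E] : IsMonHom (s.cubeIso E).hom :=
  inferInstanceAs (IsMonHom (s.N.obj E ◁ μ s.N E E ≫ μ s.N E (E ⊗ E)))

end Step

namespace Tower

variable (W : Tower) (E : W.T₀.C)

/-- the restriction of the double norm -/
def resIso : W.s₂.U.F.obj (W.s₂.N.obj (W.s₁.N.obj E)) ≅ W.s₁.N.obj (E ⊗ E ⊗ E) :=
  W.s₂.νIso _ ≪≫ W.s₁.cubeIso E

instance resIso_mon [MonObj E] : IsMonHom (W.resIso E).hom :=
  inferInstanceAs (IsMonHom ((W.s₂.νIso _).hom ≫ (W.s₁.cubeIso E).hom))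

/-- the norm map of the restriction of the double norm -/
theorem isNm_res [MonObj E] [IsCommMonObj E] :
    W.s₁.IsNm (W.s₂.U.F.obj (W.s₂.N.obj (W.s₁.N.obj E)))
      (W.s₁.N.map (W.s₁.U.F.map (W.resIso E).hom) ≫ W.s₁.nmN (E ⊗ E ⊗ E) ≫ (W.resIso E).inv) :=
  haveI : IsMonHom (W.resIso E).symm.hom := inferInstanceAs (IsMonHom (W.resIso E).inv)
  (W.s₁.isNm_nmN (E ⊗ E ⊗ E)).of_iso _ (W.resIso E).symm

end Tower

end Vale.Agent.P236Z.Cat
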