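import Vale.Agent.P236Z.Cat.Api0

/-!
# P236: the projection formula, internal homs, invertible objects, homotopy invariance
-/

open CategoryTheory MonoidalCategory Limits Pretriangulated
open Functor.LaxMonoidal Functor.OplaxMonoidal
open Vale.Agent.P251 Vale.Agent.P251.T Vale.Agent.P251.G
open scoped CategoryTheory.Obj

noncomputable section
namespace Vale.Agent.P236Z.Cat

section pw

variable {D : Type 1} [Category.{0} D] [MonoidalCategory D] (t : Tw D)

theorem Tw.pw_nat {X Y : D} (f : X ⟶ Y) (i : Fin 3) :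
    pw (t.h X).hom i ≫ f = f ≫ pw (t.h Y).hom i := by
  fin_cases i
  · simp [pw]
  · simp [pw, t.nat]
  · simp [pw, ← t.nat]

theorem Tw.pw_ten (X Y : D) (i : Fin 3) :
    pw (t.h (X ⊗ Y)).hom i = pw (t.h X).hom i ⊗ₘ pw (t.h Y).hom i := by
  fin_cases i
  · simp [pw]
  · simp [pw, t.ten]
  · simp [pw, t.ten, tensorHom_comp_tensorHom]

instance Tw.isIso_pw (X : D) (i : Fin 3) : IsIso (pw (t.h X).hom i) := by
  fin_cases i
  · exact inferInstanceAs (IsIso (𝟙 X))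
  · exact inferInstanceAs (IsIso (t.h X).hom)
  · exact inferInstanceAs (IsIso ((t.h X).hom ≫ (t.h X).hom))

/-- For an invertible object the evaluation is an isomorphism. -/
theorem isIso_ev_of_inv [SymmetricCategory D] [MonoidalClosed D] {A Y : D} (e : A ⊗ Y ≅ 𝟙_ D)
    (Z : D) : IsIso ((ihom.ev A).app Z) := by
  have : (tensorLeft A).IsEquivalence :=
    (CategoryTheory.Equivalence.mk (tensorLeft A) (tensorLeft Y)
      ((leftUnitorNatIso D).symm ≪≫ (tensoringLeft D).mapIso (β_ Y A ≪≫ e).symm ≪≫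
        tensorLeftTensor Y A)
      ((tensorLeftTensor A Y).symm ≪≫ (tensoringLeft D).mapIso e ≪≫
        leftUnitorNatIso D)).isEquivalence_functor
  exact inferInstanceAs (IsIso ((ihom.adjunction A).counit.app Z))

end pw

section homotopy

open LC

theorem fcII : FC II := by
  refine FC.hequiv (𝟙_ I.FCat).property ⟨point (X := II) 0,
    ofCompact (X := II) (Y := LC.of Unit) (fun _ => ()) continuous_const,
    Homotopic.of_eq ?_, ofCompact (X := LC.of (unitInterval × unitInterval)) (Y := II)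
      (fun p => p.1 * p.2) (continuous_fst.mul continuous_snd), ?_, ?_⟩
  · exact hom_ext fun _ => rfl
  · exact hom_ext fun x => congrArg OnePoint.some (mul_zero x)
  · exact hom_ext fun x => congrArg OnePoint.some (mul_one x)

/-- the unit interval -/
abbrev IIF : I.FCat := ⟨II, fcII⟩

/-- a point of the unit interval -/
abbrev ptF (t : unitInterval) : 𝟙_ I.FCat ⟶ IIF := I.FCat.hom (point (X := II) t)

variable {T₀ : TTC} {F : I.SpaceFunctor T₀.C} {T : TTC} {K : Type 1} [Category.{0} K]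
  [MonoidalCategory K] [SymmetricCategory K] {tK : Tw K} {u : K ⥤ I.FCat}

/-- the inclusion at time `t` in the cylinder -/
def inclK (v : I.FCat ⥤ K) [v.Braided] (t : unitInterval) (A : K) : A ⟶ A ⊗ v.obj IIF :=
  (ρ_ A).inv ≫ A ◁ (ε v ≫ v.map (ptF t))

variable {v : I.FCat ⥤ K} [v.Braided]

theorem S_ptF (F : I.SpaceFunctor T₀.C) : F.S.map (ptF 0) = F.S.map (ptF 1) :=
  F.map_eq _ _ ⟨(λ_ II).hom, hom_ext fun _ => rfl, hom_ext fun _ => rfl⟩

/-- Homotopy invariance at every level. -/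
theorem Lvl.J_inclK (L : Lvl T₀ F T tK u v) (A : K) :
    L.J.map (inclK v 0 A) = L.J.map (inclK v 1 A) := by
  have h : L.J.map (v.map (ptF 0)) = L.J.map (v.map (ptF 1)) := by
    rw [← cancel_mono (L.Jtv.hom.app IIF)]
    have h0 := L.Jtv.hom.naturality (ptF 0)
    have h1 := L.Jtv.hom.naturality (ptF 1)
    simp only [Functor.comp_map] at h0 h1
    rw [h0, h1, S_ptF]
  simp only [inclK, Functor.map_comp, Functor.Monoidal.map_whiskerLeft, h]

theorem Lvl.J_homotopy (L : Lvl T₀ F T tK u v) {A B : K} {f g : A ⟶ B} (H : A ⊗ v.obj IIF ⟶ B)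
    (h0 : inclK v 0 A ≫ H = f) (h1 : inclK v 1 A ≫ H = g) : L.J.map f = L.J.map g := by
  rw [← h0, ← h1, Functor.map_comp, Functor.map_comp, L.J_inclK]

/-- Homotopy invariance for spaces with an action of `C₃`. -/
theorem Tower.J_homotopy₁ (W : Tower) {A B : K1} (f g : A ⟶ B) (H : A.obj.obj ⊗ II ⟶ B.obj.obj)
    (hγ : A.γ.hom ▷ II ≫ H = H ≫ B.γ.hom) (h0 : incl 0 _ ≫ H = f.hom.hom)
    (h1 : incl 1 _ ≫ H = g.hom.hom) : W.L₁.J.map f = W.L₁.J.map g := by
  refine W.L₁.J_homotopy (Rt.homMk (X := A ⊗ v1.obj IIF) (I.FCat.hom H) ?_) ?_ ?_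
  · apply ObjectProperty.hom_ext
    rw [← tensorHom_id] at hγ
    exact hγ
  · apply Rt.hom_ext
    apply ObjectProperty.hom_ext
    rw [← h0]
    exact hom_ext fun _ => rfl
  · apply Rt.hom_ext
    apply ObjectProperty.hom_ext
    rw [← h1]
    exact hom_ext fun _ => rfl

/-- Homotopy invariance for spaces with an action of `C₉`. -/
theorem Tower.J_homotopy₂ (W : Tower) {A B : K2} (f g : A ⟶ B)
    (H : A.obj.obj.obj ⊗ II ⟶ B.obj.obj.obj)
    (hγ : A.γ.hom.hom ▷ II ≫ H = H ≫ B.γ.hom.hom) (h0 : incl 0 _ ≫ H = f.hom.hom.hom)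
    (h1 : incl 1 _ ≫ H = g.hom.hom.hom) : W.L₂.J.map f = W.L₂.J.map g := by
  have hc : ∀ X : K2, X.obj.γ.hom = X.γ.hom.hom ≫ X.γ.hom.hom ≫ X.γ.hom.hom := fun X =>
    (congrArg (fun f => f.hom.hom) X.cube).symm
  have hγ' : A.obj.γ.hom ▷ II ≫ H = H ≫ B.obj.γ.hom := by
    rw [hc, hc, comp_whiskerRight, comp_whiskerRight, Category.assoc, Category.assoc, hγ,
      reassoc_of% hγ, reassoc_of% hγ]
  refine W.L₂.J_homotopy (Rt.homMk (X := A ⊗ v2.obj IIF)
    (Rt.homMk (X := (A ⊗ v2.obj IIF).obj) (I.FCat.hom H) ?_) ?_) ?_ ?_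
  · apply ObjectProperty.hom_ext
    rw [← tensorHom_id] at hγ'
    exact hγ'
  · apply Rt.hom_ext
    apply ObjectProperty.hom_ext
    rw [← tensorHom_id] at hγ
    exact hγ
  · apply Rt.hom_ext
    apply Rt.hom_ext
    apply ObjectProperty.hom_ext
    rw [← h0]
    exact hom_ext fun _ => rfl
  · apply Rt.hom_ext
    apply Rt.hom_ext
    apply ObjectProperty.hom_ext
    rw [← h1]
    exact hom_ext fun _ => rfl

end homotopy

variable {T₀ : TTC} {F : I.SpaceFunctor T₀.C} {T T' : TTC} {K : Type 1} [Category.{0} K]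
  [MonoidalCategory K] [SymmetricCategory K] {tK : Tw K} {u : K ⥤ I.FCat} {v : I.FCat ⥤ K}
  [v.Braided] {hv : ∀ X, (tK.h (v.obj X)).hom = 𝟙 _} {L : Lvl T₀ F T tK u v}
  {L' : Lvl T₀ F T' (Rt.tw tK) (Rt.U tK ⋙ u) (Rt.triv v hv)} (s : Step L L')

namespace Step

theorem reflIso {X Y : T'.C} (f : X ⟶ Y) [h : IsIso (s.U.F.map f)] : IsIso f := by
  obtain ⟨Z, g, k, hT⟩ := distinguished_cocone_triangle f
  have h1 := (Triangle.isZero₃_iff_isIso₁ _ (s.U.F.map_distinguished _ hT)).2 h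
  exact (Triangle.isZero₃_iff_isIso₁ _ hT).1 (s.cons _ h1)

/-- the unit of the adjunction between induction and restriction -/
def pun (Y : T.C) : Y ⟶ s.U.F.obj (s.ind.obj Y) := s.adj.unit.app Y

theorem pun_eq (Y : T.C) : s.pun Y = s.adj.unit.app Y := rfl

theorem homEquiv_pun {Z : T.C} {W : T'.C} (a : s.ind.obj Z ⟶ W) :
    s.adj.homEquiv _ _ a = s.pun Z ≫ s.U.F.map a := s.adj.homEquiv_unit _ _ a

theorem ind_ext {Z : T.C} {W : T'.C} {a b : s.ind.obj Z ⟶ W}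
    (h : s.pun Z ≫ s.U.F.map a = s.pun Z ≫ s.U.F.map b) : a = b :=
  (s.adj.homEquiv _ _).injective (by rwa [homEquiv_pun, homEquiv_pun])

@[reassoc]
theorem pun_projMap (X : T'.C) (Y : T.C) :
    s.pun (s.U.F.obj X ⊗ Y) ≫ s.U.F.map (s.projMap X Y) =
      s.U.F.obj X ◁ s.pun Y ≫ μ s.U.F X (s.ind.obj Y) := by
  rw [← homEquiv_pun, projMap, Equiv.apply_symm_apply]
  rfl

@[reassoc]
theorem pun_ind {Y Y' : T.C} (g : Y ⟶ Y') :
    s.pun Y ≫ s.U.F.map (s.ind.map g) = g ≫ s.pun Y' :=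
  s.adj.unit_naturality g

@[reassoc]
theorem projMap_natural_left {X X' : T'.C} (f : X ⟶ X') (Y : T.C) :
    s.ind.map (s.U.F.map f ▷ Y) ≫ s.projMap X' Y = s.projMap X Y ≫ f ▷ s.ind.obj Y := by
  apply s.ind_ext
  rw [Functor.map_comp, Functor.map_comp, pun_ind_assoc, pun_projMap, pun_projMap_assoc,
    ← μ_natural_left, whisker_exchange_assoc]

@[reassoc]
theorem projMap_natural_right (X : T'.C) {Y Y' : T.C} (g : Y ⟶ Y') :
    s.ind.map (s.U.F.obj X ◁ g) ≫ s.projMap X Y' = s.projMap X Y ≫ X ◁ s.ind.map g := by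
  apply s.ind_ext
  rw [Functor.map_comp, Functor.map_comp, pun_ind_assoc, pun_projMap, pun_projMap_assoc,
    ← μ_natural_right, ← MonoidalCategory.whiskerLeft_comp_assoc,
    ← MonoidalCategory.whiskerLeft_comp_assoc, pun_ind]

/-- the legs of the coproduct decomposition of the restriction of an induced object -/
def leg (Y : T.C) (i : Fin 3) : Y ⟶ s.U.F.obj (s.ind.obj Y) :=
  s.pun Y ≫ s.U.F.map (pw (L'.t.h (s.ind.obj Y)).hom i)

theorem cofan_leg (Y : T.C) :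
    Nonempty (IsColimit (Cofan.mk (f := fun _ : Fin 3 => Y) _ (s.leg Y))) := s.cofan Y

theorem leg_projMap (X : T'.C) (Y : T.C) (i : Fin 3) :
    s.leg (s.U.F.obj X ⊗ Y) i ≫ s.U.F.map (s.projMap X Y) ≫ δ s.U.F X (s.ind.obj Y) =
      s.U.F.map (pw (L'.t.h X).hom i) ▷ Y ≫ s.U.F.obj X ◁ s.leg Y i := by
  rw [leg, leg, Category.assoc, ← Functor.map_comp_assoc, Tw.pw_nat, Functor.map_comp_assoc,
    pun_projMap_assoc, Tw.pw_ten, ← μ_natural_assoc, Functor.Monoidal.μ_δ, Category.comp_id,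
    tensorHom_def, whisker_exchange_assoc, MonoidalCategory.whiskerLeft_comp]

instance isIso_projMap (X : T'.C) (Y : T.C) : IsIso (s.projMap X Y) := by
  obtain ⟨c⟩ := s.cofan_leg Y
  obtain ⟨c₁⟩ := s.cofan_leg (s.U.F.obj X ⊗ Y)
  have c₂ := isColimitCofanMkObjOfIsColimit (tensorLeft (s.U.F.obj X)) (fun _ : Fin 3 => Y) _ c
  have h : IsIso (s.U.F.map (s.projMap X Y) ≫ δ s.U.F X (s.ind.obj Y)) := by
    let ψ : s.U.F.obj X ⊗ s.U.F.obj (s.ind.obj Y) ⟶ s.U.F.obj (s.ind.obj (s.U.F.obj X ⊗ Y)) :=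
      Cofan.IsColimit.desc c₂ fun i => inv (s.U.F.map (pw (L'.t.h X).hom i)) ▷ Y ≫
        s.leg (s.U.F.obj X ⊗ Y) i
    have hψ : ∀ i, s.U.F.obj X ◁ s.leg Y i ≫ ψ =
        inv (s.U.F.map (pw (L'.t.h X).hom i)) ▷ Y ≫ s.leg (s.U.F.obj X ⊗ Y) i :=
      fun i => Cofan.IsColimit.fac c₂ _ i
    refine ⟨ψ, Cofan.IsColimit.hom_ext c₁ _ _ fun i => ?_,
      Cofan.IsColimit.hom_ext c₂ _ _ fun i => ?_⟩
    · change s.leg _ i ≫ (_ ≫ _) ≫ ψ = s.leg _ i ≫ 𝟙 _
      rw [← Category.assoc, leg_projMap, Category.assoc, hψ, ← comp_whiskerRight_assoc,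
        IsIso.hom_inv_id, id_whiskerRight, Category.id_comp, Category.comp_id]
    · change s.U.F.obj X ◁ s.leg Y i ≫ ψ ≫ _ = s.U.F.obj X ◁ s.leg Y i ≫ 𝟙 _
      rw [← Category.assoc, hψ, Category.assoc, leg_projMap, ← comp_whiskerRight_assoc,
        IsIso.inv_hom_id, id_whiskerRight, Category.id_comp, Category.comp_id]
  have := IsIso.of_isIso_comp_right (s.U.F.map (s.projMap X Y)) (δ s.U.F X (s.ind.obj Y))
  exact s.reflIso _

@[reassoc]
theorem ihomMap_ev (X Y : T'.C) :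
    s.U.F.obj X ◁ s.ihomMap X Y ≫ (ihom.ev (s.U.F.obj X)).app (s.U.F.obj Y) =
      μ s.U.F X ((ihom X).obj Y) ≫ s.U.F.map ((ihom.ev X).app Y) := by
  rw [← MonoidalClosed.uncurry_eq, ihomMap, MonoidalClosed.uncurry_curry]

instance isIso_ihomMap (X Y : T'.C) : IsIso (s.ihomMap X Y) := by
  refine isIso_of_yoneda_map_bijective _ fun Z => ?_
  let e : (Z ⟶ s.U.F.obj ((ihom X).obj Y)) ≃ (Z ⟶ (ihom (s.U.F.obj X)).obj (s.U.F.obj Y)) :=
    (s.adj.homEquiv _ _).symm.trans <| ((ihom.adjunction X).homEquiv _ _).symm.trans <|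
      ((asIso (s.projMap X Z)).symm.homCongr (Iso.refl Y)).trans <|
        (s.adj.homEquiv _ _).trans ((ihom.adjunction (s.U.F.obj X)).homEquiv _ _)
  have he : (fun z => z ≫ s.ihomMap X Y) = e := by
    funext z
    obtain ⟨w, rfl⟩ := (s.adj.homEquiv _ _).surjective z
    change _ = MonoidalClosed.curry (s.adj.homEquiv _ _ (s.projMap X Z ≫
      MonoidalClosed.uncurry ((s.adj.homEquiv _ _).symm (s.adj.homEquiv _ _ w)) ≫ 𝟙 Y))
    rw [Equiv.symm_apply_apply, Category.comp_id, ihomMap, ← MonoidalClosed.curry_natural_left,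
      homEquiv_pun, homEquiv_pun, MonoidalClosed.uncurry_eq,
      Functor.map_comp, Functor.map_comp, pun_projMap_assoc, ← μ_natural_right_assoc,
      MonoidalCategory.whiskerLeft_comp_assoc]
  rw [he]
  exact e.bijective

theorem isIso_ev (X : T'.C) (Y : T.C) (e : s.U.F.obj X ⊗ Y ≅ 𝟙_ T.C) (Z : T'.C) :
    IsIso ((ihom.ev X).app Z) := by
  have h1 := isIso_ev_of_inv e (s.U.F.obj Z)
  have h2 : IsIso (μ s.U.F X ((ihom X).obj Z) ≫ s.U.F.map ((ihom.ev X).app Z)) := by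
    rw [← ihomMap_ev]
    infer_instance
  have := IsIso.of_isIso_comp_left (μ s.U.F X ((ihom X).obj Z)) (s.U.F.map ((ihom.ev X).app Z))
  exact s.reflIso _

theorem exists_inv (X : T'.C) (Y : T.C) (e : s.U.F.obj X ⊗ Y ≅ 𝟙_ T.C) :
    ∃ X' : T'.C, Nonempty (X ⊗ X' ≅ 𝟙_ T'.C) :=
  have := s.isIso_ev X Y e (𝟙_ T'.C)
  ⟨(ihom X).obj (𝟙_ T'.C), ⟨asIso ((ihom.ev X).app (𝟙_ T'.C))⟩⟩

include s in
theorem isIso_J {A B : Rt tK} (f : A ⟶ B) [h : IsIso (L.J.map f.hom)] : IsIso (L'.J.map f) := by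
  have h1 : s.U.F.map (L'.J.map f) =
      s.JU.hom.app A ≫ L.J.map f.hom ≫ s.JU.inv.app B := by
    rw [← Category.assoc]
    exact (Iso.eq_comp_inv (s.JU.app B)).2 (s.JU.hom.naturality f)
  have : IsIso (s.U.F.map (L'.J.map f)) := by
    rw [h1]
    infer_instance
  exact s.reflIso _

end Step

end Vale.Agent.P236Z.Cat
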