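import Vale.Agent.P236Z.Cat.Cube

/-!
# P236: objects with a cube root of the central automorphism

For `t = Tw.id D` the category `Rt t` is the category of objects with an action of the cyclic group of
order three, and `Rt (Rt.tw t)` is the category of objects with an action of the cyclic group of
order nine.
-/

open CategoryTheory MonoidalCategory Functor.LaxMonoidal Functor.OplaxMonoidal

universe v u v' u'

namespace Vale.Agent.P236Z.Cat

variable {D : Type u} [Category.{v} D] [MonoidalCategory D]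

/-- an object with a cube root of `t.h` -/
structure Rt (t : Tw D) where
  /-- the underlying object -/
  obj : D
  /-- the action of the generator -/
  γ : obj ⟶ obj
  cube : γ ≫ γ ≫ γ = (t.h obj).hom

namespace Rt

variable {t : Tw D}

/-- equivariant morphisms -/
@[ext] structure Hom (X Y : Rt t) where
  /-- the underlying morphism -/
  hom : X.obj ⟶ Y.obj
  comm : X.γ ≫ hom = hom ≫ Y.γ

instance : Category (Rt t) where
  Hom := Hom
  id X := ⟨𝟙 _, by simp⟩
  comp f g := ⟨f.hom ≫ g.hom, by rw [reassoc_of% f.comm, g.comm, Category.assoc]⟩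

@[ext] theorem hom_ext {X Y : Rt t} {f g : X ⟶ Y} (h : f.hom = g.hom) : f = g := Hom.ext h

@[simp] theorem id_hom (X : Rt t) : Hom.hom (𝟙 X) = 𝟙 X.obj := rfl

@[simp, reassoc] theorem comp_hom {X Y Z : Rt t} (f : X ⟶ Y) (g : Y ⟶ Z) :
    (f ≫ g).hom = f.hom ≫ g.hom := rfl

/-- an equivariant morphism -/
abbrev homMk {X Y : Rt t} (f : X.obj ⟶ Y.obj) (h : X.γ ≫ f = f ≫ Y.γ) : X ⟶ Y := ⟨f, h⟩

/-- an equivariant isomorphism -/
@[simps] def isoMk {X Y : Rt t} (e : X.obj ≅ Y.obj) (h : X.γ ≫ e.hom = e.hom ≫ Y.γ) : X ≅ Y where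
  hom := ⟨e.hom, h⟩
  inv := ⟨e.inv, by rw [Iso.comp_inv_eq, Category.assoc, h, e.inv_hom_id_assoc]⟩
  hom_inv_id := hom_ext e.hom_inv_id
  inv_hom_id := hom_ext e.inv_hom_id

/-- the action as an isomorphism -/
@[simps] def γIso (X : Rt t) : X.obj ≅ X.obj where
  hom := X.γ
  inv := X.γ ≫ X.γ ≫ (t.h X.obj).inv
  hom_inv_id := by rw [reassoc_of% X.cube, Iso.hom_inv_id]
  inv_hom_id := by
    have h : (t.h X.obj).inv ≫ X.γ = X.γ ≫ (t.h X.obj).inv := by
      rw [Iso.inv_comp_eq, ← reassoc_of% t.nat, Iso.hom_inv_id, Category.comp_id]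
    rw [Category.assoc, Category.assoc, h, reassoc_of% X.cube, Iso.hom_inv_id]

instance (X : Rt t) : IsIso X.γ := X.γIso.isIso_hom

variable (t) in
/-- the forgetful functor -/
abbrev U : Rt t ⥤ D where
  obj X := X.obj
  map f := f.hom

instance : (U t).Faithful := ⟨fun h => hom_ext h⟩

theorem isIso_of_hom {X Y : Rt t} (f : X ⟶ Y) [IsIso f.hom] : IsIso f :=
  (isoMk (asIso f.hom) f.comm).isIso_hom

instance : MonoidalCategoryStruct (Rt t) where
  tensorObj X Y := ⟨X.obj ⊗ Y.obj, X.γ ⊗ₘ Y.γ, by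
    simp only [tensorHom_comp_tensorHom, X.cube, Y.cube, t.ten]⟩
  whiskerLeft X _ _ f := ⟨X.obj ◁ f.hom, by
    simp only [← id_tensorHom, tensorHom_comp_tensorHom, f.comm, Category.comp_id,
      Category.id_comp]⟩
  whiskerRight f Y := ⟨f.hom ▷ Y.obj, by
    simp only [← tensorHom_id, tensorHom_comp_tensorHom, f.comm, Category.comp_id,
      Category.id_comp]⟩
  tensorHom f g := ⟨f.hom ⊗ₘ g.hom, by simp only [tensorHom_comp_tensorHom, f.comm, g.comm]⟩
  tensorUnit := ⟨𝟙_ D, 𝟙 _, by simp [t.one]⟩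
  associator X Y Z := isoMk (α_ X.obj Y.obj Z.obj) (associator_naturality _ _ _)
  leftUnitor X := isoMk (λ_ X.obj) (by simp)
  rightUnitor X := isoMk (ρ_ X.obj) (by simp)

@[simp] theorem tensor_obj (X Y : Rt t) : (X ⊗ Y).obj = X.obj ⊗ Y.obj := rfl
@[simp] theorem tensor_γ (X Y : Rt t) : (X ⊗ Y).γ = X.γ ⊗ₘ Y.γ := rfl
@[simp] theorem unit_obj : (𝟙_ (Rt t)).obj = 𝟙_ D := rfl
@[simp] theorem unit_γ : (𝟙_ (Rt t)).γ = 𝟙 _ := rfl
@[simp] theorem whiskerLeft_hom (X : Rt t) {Y Z : Rt t} (f : Y ⟶ Z) :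
    (X ◁ f).hom = X.obj ◁ f.hom := rfl
@[simp] theorem whiskerRight_hom {X Y : Rt t} (f : X ⟶ Y) (Z : Rt t) :
    (f ▷ Z).hom = f.hom ▷ Z.obj := rfl
@[simp] theorem tensorHom_hom {X Y X' Y' : Rt t} (f : X ⟶ Y) (g : X' ⟶ Y') :
    (f ⊗ₘ g).hom = f.hom ⊗ₘ g.hom := rfl
@[simp] theorem associator_hom (X Y Z : Rt t) :
    (α_ X Y Z).hom.hom = (α_ X.obj Y.obj Z.obj).hom := rfl
@[simp] theorem associator_inv (X Y Z : Rt t) :
    (α_ X Y Z).inv.hom = (α_ X.obj Y.obj Z.obj).inv := rfl
@[simp] theorem leftUnitor_hom (X : Rt t) : (λ_ X).hom.hom = (λ_ X.obj).hom := rfl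
@[simp] theorem leftUnitor_inv (X : Rt t) : (λ_ X).inv.hom = (λ_ X.obj).inv := rfl
@[simp] theorem rightUnitor_hom (X : Rt t) : (ρ_ X).hom.hom = (ρ_ X.obj).hom := rfl
@[simp] theorem rightUnitor_inv (X : Rt t) : (ρ_ X).inv.hom = (ρ_ X.obj).inv := rfl

instance : MonoidalCategory (Rt t) where
  tensorHom_def f g := hom_ext (tensorHom_def f.hom g.hom)
  id_tensorHom_id X Y := hom_ext (id_tensorHom_id X.obj Y.obj)
  tensorHom_comp_tensorHom f g h k := hom_ext (tensorHom_comp_tensorHom f.hom g.hom h.hom k.hom)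
  whiskerLeft_id X Y := hom_ext (MonoidalCategory.whiskerLeft_id X.obj Y.obj)
  id_whiskerRight X Y := hom_ext (id_whiskerRight X.obj Y.obj)
  associator_naturality f g h := hom_ext (associator_naturality f.hom g.hom h.hom)
  leftUnitor_naturality f := hom_ext (leftUnitor_naturality f.hom)
  rightUnitor_naturality f := hom_ext (rightUnitor_naturality f.hom)
  pentagon W X Y Z := hom_ext (pentagon W.obj X.obj Y.obj Z.obj)
  triangle X Y := hom_ext (triangle X.obj Y.obj)

instance : (U t).Monoidal := Functor.CoreMonoidal.toMonoidal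
  { εIso := Iso.refl _
    μIso := fun _ _ => Iso.refl _ }

@[simp] theorem U_ε : ε (U t) = 𝟙 _ := rfl
@[simp] theorem U_η : η (U t) = 𝟙 _ := rfl
@[simp] theorem U_μ (X Y : Rt t) : μ (U t) X Y = 𝟙 _ := rfl
@[simp] theorem U_δ (X Y : Rt t) : δ (U t) X Y = 𝟙 _ := rfl

variable (t) in
/-- the action of the generator is central -/
@[simps] def tw : Tw (Rt t) where
  h X := isoMk X.γIso rfl
  nat f := hom_ext f.comm.symm
  ten _ _ := rfl
  one := rfl

section map
variable {D' : Type u'} [Category.{v'} D'] [MonoidalCategory D'] {t' : Tw D'} (F : D ⥤ D')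

/-- the functor induced by a functor which is compatible with the central automorphisms -/
@[simps] def map (hF : ∀ X, F.map (t.h X).hom = (t'.h (F.obj X)).hom) : Rt t ⥤ Rt t' where
  obj X := ⟨F.obj X.obj, F.map X.γ, by rw [← F.map_comp, ← F.map_comp, X.cube, hF]⟩
  map f := ⟨F.map f.hom, ((F.map_comp _ _).symm.trans (congrArg F.map f.comm)).trans
    (F.map_comp _ _)⟩

instance (hF : ∀ X, F.map (t.h X).hom = (t'.h (F.obj X)).hom) [F.Monoidal] :
    (map F hF).Monoidal := Functor.CoreMonoidal.toMonoidal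
  { εIso := isoMk (Functor.Monoidal.εIso F) (by
      change 𝟙 _ ≫ ε F = ε F ≫ F.map (𝟙 _)
      simp)
    μIso := fun X Y => isoMk (Functor.Monoidal.μIso F X.obj Y.obj) (μ_natural F _ _)
    μIso_hom_natural_left := fun f _ => hom_ext (μ_natural_left F f.hom _)
    μIso_hom_natural_right := fun _ f => hom_ext (μ_natural_right F _ f.hom)
    associativity := fun _ _ _ => hom_ext (associativity F _ _ _)
    left_unitality := fun _ => hom_ext (left_unitality F _)
    right_unitality := fun _ => hom_ext (right_unitality F _) }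

/-- the trivial action -/
@[simps] def triv (hF : ∀ X, (t'.h (F.obj X)).hom = 𝟙 _) : D ⥤ Rt t' where
  obj X := ⟨F.obj X, 𝟙 _, by simp [hF]⟩
  map f := ⟨F.map f, by simp⟩

instance (hF : ∀ X, (t'.h (F.obj X)).hom = 𝟙 _) [F.Monoidal] :
    (triv F hF).Monoidal := Functor.CoreMonoidal.toMonoidal
  { εIso := isoMk (Functor.Monoidal.εIso F)
      ((Category.id_comp _).trans (Category.comp_id _).symm)
    μIso := fun X Y => isoMk (Functor.Monoidal.μIso F X Y) (by
      change (𝟙 _ ⊗ₘ 𝟙 _) ≫ μ F X Y = μ F X Y ≫ 𝟙 _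
      simp)
    μIso_hom_natural_left := fun f _ => hom_ext (μ_natural_left F f _)
    μIso_hom_natural_right := fun _ f => hom_ext (μ_natural_right F _ f)
    associativity := fun _ _ _ => hom_ext (associativity F _ _ _)
    left_unitality := fun _ => hom_ext (left_unitality F _)
    right_unitality := fun _ => hom_ext (right_unitality F _) }

end map

variable [SymmetricCategory D]

instance : SymmetricCategory (Rt t) where
  braiding X Y := isoMk (β_ X.obj Y.obj) (BraidedCategory.braiding_naturality _ _)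
  braiding_naturality_right _ _ _ f := hom_ext (BraidedCategory.braiding_naturality_right _ f.hom)
  braiding_naturality_left f _ := hom_ext (BraidedCategory.braiding_naturality_left f.hom _)
  hexagon_forward _ _ _ := hom_ext (BraidedCategory.hexagon_forward _ _ _)
  hexagon_reverse _ _ _ := hom_ext (BraidedCategory.hexagon_reverse _ _ _)
  symmetry _ _ := hom_ext (SymmetricCategory.symmetry _ _)

@[simp] theorem braiding_hom (X Y : Rt t) : (β_ X Y).hom.hom = (β_ X.obj Y.obj).hom := rfl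
@[simp] theorem braiding_inv (X Y : Rt t) : (β_ X Y).inv.hom = (β_ X.obj Y.obj).inv := rfl

instance : (U t).Braided where

section map
variable {D' : Type u'} [Category.{v'} D'] [MonoidalCategory D'] [SymmetricCategory D'] {t' : Tw D'}
  (F : D ⥤ D') [F.Braided]

instance (hF : ∀ X, F.map (t.h X).hom = (t'.h (F.obj X)).hom) : (map F hF).Braided where
  braided X Y := hom_ext (Functor.Braided.braided (F := F) X.obj Y.obj)

instance (hF : ∀ X, (t'.h (F.obj X)).hom = 𝟙 _) : (triv F hF).Braided where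
  braided X Y := hom_ext (Functor.Braided.braided (F := F) X Y)

end map

variable (t) in
/-- the norm -/
@[simps] def N : D ⥤ Rt t where
  obj Y := ⟨Y ⊗ Y ⊗ Y, t.rot Y, t.rot_cube Y⟩
  map f := ⟨f ⊗ₘ f ⊗ₘ f, (t.rot_natural f).symm⟩
  map_id X := hom_ext ((Cat.cube D).map_id X)
  map_comp f g := hom_ext ((Cat.cube D).map_comp f g)

instance : (N t).Monoidal := Functor.CoreMonoidal.toMonoidal
  { εIso := isoMk (Functor.Monoidal.εIso (Cat.cube D)) ((Category.id_comp _).trans t.ε_rot.symm)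
    μIso := fun X Y => isoMk (Functor.Monoidal.μIso (Cat.cube D) X Y) (by
      change (t.rot X ⊗ₘ t.rot Y) ≫ μ (Cat.cube D) X Y = μ (Cat.cube D) X Y ≫ t.rot (X ⊗ Y)
      rw [cube_μ, t.mix_rot])
    μIso_hom_natural_left := fun f _ => hom_ext (μ_natural_left (Cat.cube D) f _)
    μIso_hom_natural_right := fun _ f => hom_ext (μ_natural_right (Cat.cube D) _ f)
    associativity := fun _ _ _ => hom_ext (associativity (Cat.cube D) _ _ _)
    left_unitality := fun _ => hom_ext (left_unitality (Cat.cube D) _)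
    right_unitality := fun _ => hom_ext (right_unitality (Cat.cube D) _) }

theorem N_μ (X Y : D) : (μ (N t) X Y).hom = μ (Cat.cube D) X Y := rfl
theorem N_ε : (ε (N t)).hom = ε (Cat.cube D) := rfl

instance : (N t).Braided where
  braided X Y := hom_ext (Functor.Braided.braided (F := Cat.cube D) X Y)

end Rt

end Vale.Agent.P236Z.Cat
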