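import Vale.Agent.P236Z.Cat.Rt

/-!
# P236: monoidal functors and third tensor powers; the shear isomorphism
-/

open CategoryTheory MonoidalCategory Functor.LaxMonoidal Functor.OplaxMonoidal

universe v u v' u' v'' u''

namespace Vale.Agent.P236Z.Cat

variable {D : Type u} [Category.{v} D] [MonoidalCategory D]
  {D' : Type u'} [Category.{v'} D'] [MonoidalCategory D']
  {D'' : Type u''} [Category.{v''} D''] [MonoidalCategory D'']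

/-- the threefold structure map -/
def m3 (F : D ⥤ D') [F.LaxMonoidal] (A B C : D) :
    F.obj A ⊗ F.obj B ⊗ F.obj C ⟶ F.obj (A ⊗ B ⊗ C) := F.obj A ◁ μ F B C ≫ μ F A (B ⊗ C)

instance (F : D ⥤ D') [F.Monoidal] (A B C : D) : IsIso (m3 F A B C) := by
  unfold m3; infer_instance

@[reassoc]
theorem m3_natural (F : D ⥤ D') [F.LaxMonoidal] {A B C X Y Z : D} (a : A ⟶ X) (b : B ⟶ Y)
    (c : C ⟶ Z) : (F.map a ⊗ₘ F.map b ⊗ₘ F.map c) ≫ m3 F X Y Z =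
      m3 F A B C ≫ F.map (a ⊗ₘ b ⊗ₘ c) := by
  simp only [m3, ← id_tensorHom, tensorHom_comp_tensorHom_assoc, Category.assoc, ← μ_natural,
    Category.comp_id, Category.id_comp]

@[reassoc]
theorem m3_mon {F G : D ⥤ D'} [F.LaxMonoidal] [G.LaxMonoidal] (τ : F ⟶ G)
    [NatTrans.IsMonoidal τ] (A B C : D) :
    (τ.app A ⊗ₘ τ.app B ⊗ₘ τ.app C) ≫ m3 G A B C = m3 F A B C ≫ τ.app (A ⊗ B ⊗ C) := by
  simp only [m3, ← id_tensorHom, tensorHom_comp_tensorHom_assoc, Category.assoc,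
    NatTrans.IsMonoidal.tensor, Category.comp_id, Category.id_comp]

theorem m3_comp (F : D ⥤ D') [F.LaxMonoidal] (G : D' ⥤ D'') [G.LaxMonoidal] (A B C : D) :
    m3 (F ⋙ G) A B C = m3 G (F.obj A) (F.obj B) (F.obj C) ≫ G.map (m3 F A B C) := by
  simp [m3]

variable [SymmetricCategory D] [SymmetricCategory D']

section
variable (F : D ⥤ D') [F.Braided]

@[reassoc]
theorem rot_m3 (A B C : D) :
    rot (F.obj A) (F.obj B) (F.obj C) ≫ m3 F C A B = m3 F A B C ≫ F.map (rot A B C) := by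
  rw [rot, rot, m3, m3, F.map_comp, Category.assoc, Category.assoc,
    Functor.LaxMonoidal.associativity_inv_assoc, Functor.Braided.braided, BraidedCategory.braiding_naturality_left_assoc]

@[reassoc]
theorem mix_m3 (A B C A' B' C' : D) :
    mix (F.obj A) (F.obj B) (F.obj C) (F.obj A') (F.obj B') (F.obj C') ≫
      (μ F A A' ⊗ₘ μ F B B' ⊗ₘ μ F C C') ≫ m3 F (A ⊗ A') (B ⊗ B') (C ⊗ C') =
      (m3 F A B C ⊗ₘ m3 F A' B' C') ≫ μ F _ _ ≫ F.map (mix A B C A' B' C') := by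
  have h := tensorμ_comp_μ_tensorHom_μ_comp_μ F B C B' C'
  rw [mix, mix, m3, m3, m3, F.map_comp, ← tensorHom_comp_tensorHom, Category.assoc, Category.assoc,
    ← tensorμ_comp_μ_tensorHom_μ_comp_μ_assoc, ← μ_natural_right]
  simp only [← id_tensorHom, tensorHom_comp_tensorHom_assoc, tensorμ_natural_assoc, h,
    Category.comp_id, Category.id_comp]
  rw [id_tensorHom_id, Category.id_comp]

/-- a braided functor commutes with third tensor powers -/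
noncomputable def cubeIso : F ⋙ cube D' ≅ cube D ⋙ F :=
  NatIso.ofComponents (fun X => asIso (m3 F X X X)) fun f => m3_natural F f f f

theorem cubeIso_hom (X : D) : (cubeIso F).hom.app X = m3 F X X X := rfl

theorem cubeIso_inv (X : D) : (cubeIso F).inv.app X = inv (m3 F X X X) := rfl

instance : NatTrans.IsMonoidal (cubeIso F).hom where
  unit := by
    change (ε (cube D') ≫ (ε F ⊗ₘ ε F ⊗ₘ ε F)) ≫ m3 F _ _ _ = ε F ≫ F.map (ε (cube D))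
    have h : (λ_ (𝟙_ D')).inv ≫ (ε F ⊗ₘ ε F) ≫ μ F _ _ = ε F ≫ F.map (λ_ (𝟙_ D)).inv := by
      rw [tensorHom_def', Category.assoc, ← leftUnitor_inv_naturality_assoc,
        Functor.LaxMonoidal.left_unitality_inv]
    rw [cube_ε, cube_ε, F.map_comp, ← reassoc_of% h, ← μ_natural_right, m3]
    simp only [← id_tensorHom, tensorHom_comp_tensorHom_assoc, Category.assoc, h,
      Category.comp_id, Category.id_comp]
  tensor X Y := by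
    change (μ (cube D') _ _ ≫ (μ F X Y ⊗ₘ μ F X Y ⊗ₘ μ F X Y)) ≫ m3 F _ _ _ =
      (m3 F X X X ⊗ₘ m3 F Y Y Y) ≫ μ F _ _ ≫ F.map (μ (cube D) X Y)
    rw [cube_μ, cube_μ, Category.assoc, mix_m3]

@[reassoc]
theorem trot_m3 {t : Tw D} {t' : Tw D'} {Y : D}
    (h : F.map (t.h Y).hom = (t'.h (F.obj Y)).hom) :
    t'.rot (F.obj Y) ≫ m3 F Y Y Y = m3 F Y Y Y ≫ F.map (t.rot Y) := by
  rw [Tw.rot, Tw.rot, F.map_comp, ← rot_m3_assoc, ← m3_natural, h, F.map_id, Category.assoc]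

end

theorem tr3_eq (Y : D) : tr3 Y = m3 (cube D) Y Y Y := by rw [m3, cube_μ, cube_μ, tr3]

/-- the rotation as a natural transformation -/
def rotN (D : Type u) [Category.{v} D] [MonoidalCategory D] [SymmetricCategory D] :
    cube D ⟶ cube D where
  app Y := rot Y Y Y
  naturality _ _ f := rot_natural f f f

instance : NatTrans.IsMonoidal (rotN D) where
  unit := ε_rot
  tensor X Y := by
    rw [cube_μ]
    exact mix_rot X X X Y Y Y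

/-- the twisted rotation as a natural transformation -/
def Tw.rotN (t : Tw D) : cube D ⟶ cube D where
  app Y := t.rot Y
  naturality _ _ f := t.rot_natural f

instance (t : Tw D) : NatTrans.IsMonoidal t.rotN where
  unit := t.ε_rot
  tensor X Y := by
    rw [cube_μ]
    exact t.mix_rot X Y

/-- the tensor product of three natural transformations -/
def tens3 {F G : D'' ⥤ D} (a b c : F ⟶ G) : F ⋙ cube D ⟶ G ⋙ cube D where
  app X := a.app X ⊗ₘ b.app X ⊗ₘ c.app X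
  naturality X Y f := by
    change (F.map f ⊗ₘ F.map f ⊗ₘ F.map f) ≫ _ = _ ≫ (G.map f ⊗ₘ G.map f ⊗ₘ G.map f)
    simp only [tensorHom_comp_tensorHom, NatTrans.naturality]

instance {F G : D'' ⥤ D} [F.LaxMonoidal] [G.LaxMonoidal] (a b c : F ⟶ G) [NatTrans.IsMonoidal a]
    [NatTrans.IsMonoidal b] [NatTrans.IsMonoidal c] : NatTrans.IsMonoidal (tens3 a b c) where
  unit := by
    change (ε (cube D) ≫ (ε F ⊗ₘ ε F ⊗ₘ ε F)) ≫ (a.app _ ⊗ₘ b.app _ ⊗ₘ c.app _) =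
      ε (cube D) ≫ (ε G ⊗ₘ ε G ⊗ₘ ε G)
    simp only [Category.assoc, tensorHom_comp_tensorHom, NatTrans.IsMonoidal.unit]
  tensor X Y := by
    change (μ (cube D) _ _ ≫ (μ F X Y ⊗ₘ μ F X Y ⊗ₘ μ F X Y)) ≫ (a.app _ ⊗ₘ b.app _ ⊗ₘ c.app _) =
      ((a.app X ⊗ₘ b.app X ⊗ₘ c.app X) ⊗ₘ (a.app Y ⊗ₘ b.app Y ⊗ₘ c.app Y)) ≫ μ (cube D) _ _ ≫
        (μ G X Y ⊗ₘ μ G X Y ⊗ₘ μ G X Y)
    rw [cube_μ, cube_μ, mix_natural_assoc, Category.assoc]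
    simp only [tensorHom_comp_tensorHom, NatTrans.IsMonoidal.tensor]

@[reassoc]
theorem rot_tr3 (Y : D) :
    rot _ _ _ ≫ tr3 Y = tr3 Y ≫ (rot Y Y Y ⊗ₘ rot Y Y Y ⊗ₘ rot Y Y Y) := by
  rw [tr3_eq]
  exact rot_m3 (cube D) Y Y Y

@[reassoc]
theorem tr3_m3 (F : D ⥤ D') [F.Braided] (Y : D) :
    tr3 (F.obj Y) ≫ (m3 F Y Y Y ⊗ₘ m3 F Y Y Y ⊗ₘ m3 F Y Y Y) ≫ m3 F _ _ _ =
      (m3 F Y Y Y ⊗ₘ m3 F Y Y Y ⊗ₘ m3 F Y Y Y) ≫ m3 F _ _ _ ≫ F.map (tr3 Y) := by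
  have h := m3_mon (cubeIso F).hom Y Y Y
  rw [m3_comp, m3_comp, Category.assoc] at h
  rw [tr3_eq, tr3_eq]
  exact h.symm

namespace Tw

variable (t : Tw D)

@[reassoc]
theorem rot3_tr3 (Y : D) :
    (t.rot Y ⊗ₘ t.rot Y ⊗ₘ t.rot Y) ≫ tr3 Y = tr3 Y ≫ t.rot (Y ⊗ Y ⊗ Y) := by
  rw [tr3_eq]
  exact m3_mon t.rotN Y Y Y

/-- the shear as a natural transformation -/
noncomputable def shearN : cube D ⋙ cube D ⟶ cube D ⋙ cube D :=
  tens3 (𝟙 _) t.rotN (t.rotN ≫ t.rotN) ≫ (cubeIso (cube D)).hom ≫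
    tens3 (𝟙 _) (Cat.rotN D ≫ Cat.rotN D) (Cat.rotN D)

instance : NatTrans.IsMonoidal t.shearN := by unfold shearN; infer_instance

theorem shearN_app (Y : D) : t.shearN.app Y = t.shear Y := by
  rw [shear, tr3_eq]
  rfl

instance (Y : D) : IsIso (t.shear Y) := by
  rw [shear, tr3_eq]
  infer_instance

/-- the shear as an isomorphism -/
noncomputable def shearIso (Y : D) : (Y ⊗ Y ⊗ Y) ⊗ (Y ⊗ Y ⊗ Y) ⊗ (Y ⊗ Y ⊗ Y) ≅
    (Y ⊗ Y ⊗ Y) ⊗ (Y ⊗ Y ⊗ Y) ⊗ (Y ⊗ Y ⊗ Y) := asIso (t.shear Y)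

@[reassoc]
theorem shear_natural {X Y : D} (f : X ⟶ Y) :
    (cube D).map ((cube D).map f) ≫ t.shear Y = t.shear X ≫ (cube D).map ((cube D).map f) := by
  rw [← shearN_app, ← shearN_app]
  exact t.shearN.naturality f

theorem shear_equiv (Y : D) :
    t.rot (Y ⊗ Y ⊗ Y) ≫ t.shear Y = t.shear Y ≫ t.rot (Y ⊗ Y ⊗ Y) := by
  have h1 : t.rot (Y ⊗ Y ⊗ Y) ≫ (𝟙 _ ⊗ₘ t.rot Y ⊗ₘ (t.rot Y ≫ t.rot Y)) =
      (𝟙 _ ⊗ₘ t.rot Y ⊗ₘ (t.rot Y ≫ t.rot Y)) ≫ (t.rot Y ⊗ₘ t.rot Y ⊗ₘ t.rot Y) ≫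
        Cat.rot _ _ _ := by
    rw [tensorHom_comp_tensorHom_assoc, tensorHom_comp_tensorHom, Cat.rot_natural, Category.assoc,
      t.rot_cube, rot, Category.assoc]
    simp only [tensorHom_comp_tensorHom, Category.comp_id, Category.id_comp]
  rw [shear, reassoc_of% h1, rot_tr3_assoc, rot3_tr3_assoc]
  simp only [rot, Category.assoc, Cat.rot_natural_assoc, tensorHom_comp_tensorHom, t.nat,
    Category.comp_id, Category.id_comp, rot_rot_rot]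

theorem shear_rot (Y : D) : (t.rot Y ⊗ₘ t.rot Y ⊗ₘ t.rot Y) ≫ t.shear Y = t.shear Y ≫
    ((Cat.rot Y Y Y ≫ Cat.rot Y Y Y) ⊗ₘ (Cat.rot Y Y Y ≫ Cat.rot Y Y Y) ⊗ₘ
      (Cat.rot Y Y Y ≫ Cat.rot Y Y Y)) ≫ t.rot (Y ⊗ Y ⊗ Y) := by
  have h1 : (t.rot Y ⊗ₘ t.rot Y ⊗ₘ t.rot Y) ≫ (𝟙 _ ⊗ₘ t.rot Y ⊗ₘ (t.rot Y ≫ t.rot Y)) =
      (𝟙 _ ⊗ₘ t.rot Y ⊗ₘ (t.rot Y ≫ t.rot Y)) ≫ (t.rot Y ⊗ₘ t.rot Y ⊗ₘ t.rot Y) := by
    simp only [tensorHom_comp_tensorHom, Category.comp_id, Category.id_comp, Category.assoc]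
  rw [shear, reassoc_of% h1, rot3_tr3_assoc]
  simp only [rot, Category.assoc, Cat.rot_natural_assoc, tensorHom_comp_tensorHom,
    Category.comp_id, Category.id_comp, rot_rot_rot, rot_rot_rot_assoc]

theorem shear_m3 (F : D ⥤ D') [F.Braided] {t' : Tw D'} {Y : D}
    (h : F.map (t.h Y).hom = (t'.h (F.obj Y)).hom) :
    t'.shear (F.obj Y) ≫ (m3 F Y Y Y ⊗ₘ m3 F Y Y Y ⊗ₘ m3 F Y Y Y) ≫ m3 F _ _ _ =
      (m3 F Y Y Y ⊗ₘ m3 F Y Y Y ⊗ₘ m3 F Y Y Y) ≫ m3 F _ _ _ ≫ F.map (t.shear Y) := by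
  have h1 : (𝟙 _ ⊗ₘ (Cat.rot _ _ _ ≫ Cat.rot _ _ _) ⊗ₘ Cat.rot _ _ _) ≫
      (m3 F Y Y Y ⊗ₘ m3 F Y Y Y ⊗ₘ m3 F Y Y Y) = (m3 F Y Y Y ⊗ₘ m3 F Y Y Y ⊗ₘ m3 F Y Y Y) ≫
      (F.map (𝟙 _) ⊗ₘ F.map (Cat.rot Y Y Y ≫ Cat.rot Y Y Y) ⊗ₘ F.map (Cat.rot Y Y Y)) := by
    simp only [tensorHom_comp_tensorHom, Category.assoc, rot_m3, rot_m3_assoc, F.map_id,
      F.map_comp, Category.comp_id, Category.id_comp]
  have h2 : (𝟙 _ ⊗ₘ t'.rot (F.obj Y) ⊗ₘ (t'.rot (F.obj Y) ≫ t'.rot (F.obj Y))) ≫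
      (m3 F Y Y Y ⊗ₘ m3 F Y Y Y ⊗ₘ m3 F Y Y Y) = (m3 F Y Y Y ⊗ₘ m3 F Y Y Y ⊗ₘ m3 F Y Y Y) ≫
      (F.map (𝟙 _) ⊗ₘ F.map (t.rot Y) ⊗ₘ F.map (t.rot Y ≫ t.rot Y)) := by
    simp only [tensorHom_comp_tensorHom, Category.assoc, trot_m3 F h, trot_m3_assoc F h, F.map_id,
      F.map_comp, Category.comp_id, Category.id_comp]
  rw [shear, shear, Category.assoc, Category.assoc, reassoc_of% h1, m3_natural, tr3_m3_assoc,
    reassoc_of% h2, m3_natural_assoc, F.map_comp (_ ⊗ₘ _), F.map_comp (tr3 Y)]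

end Tw

namespace Rt

variable (t : Tw D)

/-- the shear isomorphism -/
noncomputable def sh : Cat.cube D ⋙ N t ≅ Cat.cube D ⋙ N t :=
  NatIso.ofComponents (fun Y => isoMk (X := (N t).obj (Y ⊗ Y ⊗ Y)) (Y := (N t).obj (Y ⊗ Y ⊗ Y))
    (t.shearIso Y) (t.shear_equiv Y))
    fun f => hom_ext (t.shear_natural f)

theorem sh_hom (Y : D) : ((sh t).hom.app Y).hom = t.shear Y := rfl

instance : NatTrans.IsMonoidal (sh t).hom where
  unit := hom_ext ((congrArg (_ ≫ ·) (t.shearN_app _).symm).trans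
    (NatTrans.IsMonoidal.unit (τ := t.shearN)))
  tensor X Y := hom_ext (by
    have h := NatTrans.IsMonoidal.tensor (τ := t.shearN) X Y
    rw [t.shearN_app, t.shearN_app, t.shearN_app] at h
    exact h)

end Rt

end Vale.Agent.P236Z.Cat
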