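import Vale.Agent.P236Z.Cat.Asm3
import Vale.Agent.P251.H.Exists
import Vale.Agent.P251.H.HCofJ

/-!
# P236: the tower of Borel equivariant stable homotopy categories exists
-/

open CategoryTheory Limits MonoidalCategory ZeroObject Pretriangulated
open Vale.Agent.P251 Vale.Agent.P251.H Vale.Agent.P251.H.CofCat Vale.Agent.P251.H.TensorCofCat
open Vale.Agent.P251.G Vale.Agent.P251.H.StabInput

noncomputable section
namespace Vale.Agent.P236Z.Cat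

section gen
variable {C₀ : Type 1} [Category.{0} C₀] [HasZeroObject C₀] [HasZeroMorphisms C₀]
  [HasBinaryCoproducts C₀] [CofCat C₀] [MonoidalCategory C₀] [SymmetricCategory C₀]
  [TensorCofCat C₀] [HasCoproducts.{0} C₀] [∀ J : Type, CofCoproducts C₀ J]
  {P₀ : StabModel C₀} {D₀ : Type 1} [Category.{0} D₀] {L₀ : C₀ ⥤ D₀}
  [L₀.IsLocalization (W (C := C₀))]
  {g₀ : Good P₀ L₀} {F : I.SpaceFunctor g₀.T.C} {j₀ : I.FCat ⥤ C₀} [j₀.Braided]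
  (e₀ : F.S ≅ j₀ ⋙ TT.L P₀ L₀)
  (hj : ∀ {A B Q : I.FCat} {i : A ⟶ B} {q : B ⟶ Q}, IsCof (𝟭 _) i q →
    Cof (j₀.map i) ∧ IsPushout (j₀.map i) (0 : _ ⟶ (0 : C₀)) (j₀.map q) (0 : (0 : C₀) ⟶ _))

omit [∀ J : Type, CofCoproducts C₀ J] [j₀.Braided] in
include hj in
theorem exists_conn0 {A B Q : I.FCat} {i : A ⟶ B} {q : B ⟶ Q} (h : IsCof (𝟭 _) i q) :
    ∃ d, IsConn (TT.τ P₀ L₀) (j₀.map i) (j₀.map q) d := exists_isConn _ (hj h).1 (hj h).2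

/-- the suspension spectra -/
def x0 (X : I.FCat) : (F.S.obj X : TT P₀ L₀) ≅ (TT.L P₀ L₀).obj (j₀.obj X) := e₀.app X

omit [j₀.Braided] in
@[reassoc]
theorem x0_nat {X Y : I.FCat} (f : X ⟶ Y) : F.S.map f ≫ (x0 e₀ Y).hom =
    (x0 e₀ X).hom ≫ (TT.L P₀ L₀).map (j₀.map f) := e₀.hom.naturality f

/-- the connecting morphisms -/
def conn0 : Conn g₀.T F where
  cδ {A _ Q _ _} h := (x0 e₀ Q).hom ≫ (exists_conn0 (P₀ := P₀) (L₀ := L₀) hj h).choose ≫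
    (x0 e₀ A).inv⟦(1 : ℤ)⟧'
  dist {A B Q i q} h := dist_of_exists (exists_conn0 (P₀ := P₀) (L₀ := L₀) hj h).choose_spec
    (x0 e₀ A) (x0 e₀ B) (x0 e₀ Q) (x0_nat e₀ i) (x0_nat e₀ q) (by
      change ((x0 e₀ Q).hom ≫ (exists_conn0 (P₀ := P₀) (L₀ := L₀) hj h).choose ≫
        (x0 e₀ A).inv⟦(1 : ℤ)⟧') ≫ (x0 e₀ A).hom⟦(1 : ℤ)⟧' =
          (x0 e₀ Q).hom ≫ (exists_conn0 (P₀ := P₀) (L₀ := L₀) hj h).choose
      rw [Category.assoc, Category.assoc, ← Functor.map_comp, Iso.inv_hom_id,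
        CategoryTheory.Functor.map_id, Category.comp_id])
  cδ_nat {A B Q A' B' Q' i q i' q'} h h' a b c w₁ w₂ := by
    have h1 := (exists_conn0 (P₀ := P₀) (L₀ := L₀) hj h).choose_spec.naturality
      (exists_conn0 (P₀ := P₀) (L₀ := L₀) hj h').choose_spec
      (((j₀.map_comp _ _).symm.trans (congrArg j₀.map w₁)).trans (j₀.map_comp _ _))
      (((j₀.map_comp _ _).symm.trans (congrArg j₀.map w₂)).trans (j₀.map_comp _ _))
    have h2 : (x0 e₀ A).inv ≫ F.S.map a = (TT.L P₀ L₀).map (j₀.map a) ≫ (x0 e₀ A').inv := by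
      rw [Iso.inv_comp_eq, ← x0_nat_assoc, Iso.hom_inv_id, Category.comp_id]
    rw [x0_nat_assoc, ← reassoc_of% h1, Category.assoc, Category.assoc, ← Functor.map_comp, h2,
      Functor.map_comp]

variable [NatTrans.IsMonoidal e₀.hom]

/-- the first level is given by the model -/
def rel0 : Rel e₀ g₀ (Tw.id C₀) (lvl0 (conn0 e₀ hj)) where
  ht X := ((TT.L P₀ L₀).map_id X).symm
  φ := MF.id P₀
  φ_h _ := rfl
  φ_cop _ := inferInstanceAs (PreservesColimitsOfShape _ (𝟭 C₀))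
  l := Lft.id L₀
  j := j₀
  j_h X := j₀.map_id X
  eJ := e₀
  jtv := j₀.leftUnitor ≪≫ j₀.rightUnitor.symm
  Jtv X := by
    change (𝟙 _ ≫ 𝟙 _) ≫ (x0 e₀ X).hom ≫ 𝟙 _ ≫ 𝟙 _ =
      (x0 e₀ X).hom ≫ (TT.L P₀ L₀).map (𝟙 (j₀.obj X) ≫ 𝟙 (j₀.obj X))
    simp
  conn {A B Q i q} h := by
    have h2 : (x0 e₀ Q).inv ≫ ((x0 e₀ Q).hom ≫ (exists_conn0 (P₀ := P₀) (L₀ := L₀) hj h).choose ≫
        (x0 e₀ A).inv⟦(1 : ℤ)⟧') ≫ (x0 e₀ A).hom⟦(1 : ℤ)⟧' =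
        (exists_conn0 (P₀ := P₀) (L₀ := L₀) hj h).choose := by
      simp [← Functor.map_comp]
    exact h2.symm ▸ (exists_conn0 (P₀ := P₀) (L₀ := L₀) hj h).choose_spec

instance : MonoidalClosed g₀.T.C := g₀.T.closed
instance : HasProducts.{0} g₀.T.C := g₀.T.products

include e₀ hj in
theorem tower_of [TwI (Tw.id C₀)] (hs : T.StableCat g₀.T.C) : StTower := by
  have h₀ : TwP P₀ (Tw.id C₀) := ⟨rfl, rfl, rfl⟩
  obtain ⟨D₁, _, L₁, _⟩ := g₀.exists_loc h₀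
  obtain ⟨D₂, _, L₂, _⟩ := (g₀.next h₀ L₁).exists_loc (Rt.twP h₀)
  exact ⟨{ T₀ := g₀.T, stable := hs, F := F, c := conn0 e₀ hj, T₁ := _, T₂ := _, L₁ := _, L₂ := _,
           s₁ := (rel0 e₀ hj).step h₀ L₁ hv0,
           s₂ := ((rel0 e₀ hj).next h₀ L₁ hv0).step (Rt.twP h₀) L₂ hv1 }⟩

end gen

theorem cof_JF {A B Q : I.FCat} {i : A ⟶ B} {q : B ⟶ Q} (h : IsCof (𝟭 _) i q) :
    Cof ((JF WC).map i) ∧ IsPushout ((JF WC).map i) (0 : _ ⟶ (0 : FlatCat WC)) ((JF WC).map q)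
      (0 : (0 : FlatCat WC) ⟶ _) := by
  refine ⟨exists_ext_of_cofib h.1, isPushout_flat_of_hom ?_⟩
  have hz : IsZero (0 : FlatCat WC).obj := (Flat WC).ι.map_isZero (isZero_zero _)
  exact (StabInput.pushout (M := CF) _ _ _ _ h.1.injective h.2).of_iso (Iso.refl _) (Iso.refl _)
    (StabInput.isZero_empty.iso hz) (Iso.refl _)
    ((Category.comp_id _).trans (Category.id_comp _).symm) (hz.eq_of_tgt _ _)
    ((Category.comp_id _).trans (Category.id_comp _).symm) (StabInput.isZero_empty.eq_of_src _ _)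

theorem sat0 {D : Type 1} [Category.{0} D] (L : FlatCat WC ⥤ D)
    [L.IsLocalization (W (C := FlatCat WC))] (Y : FlatCat WC)
    (hY : IsZero ((TT.L PC L).obj Y)) : W (0 : Y ⟶ 0) := by
  have hz : IsZero ((TT.L PC L).obj (0 : FlatCat WC)) := isZero_map _ (isZero_zero _)
  refine (piW_iff (GG := GGC) _).2 fun A hA => ?_
  have hf : Flat WC A := by
    obtain ⟨n, K, hK, ⟨e⟩⟩ := hA
    exact (flatInput _).flat_of_iso e.symm ((flatInput _).flat_cell n hK)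
  have h1 := phiF_bijective GGC (TT.L PC L) (A := ⟨A, hf⟩) hA Y
  have h0 := phiF_bijective GGC (TT.L PC L) (A := ⟨A, hf⟩) hA (0 : FlatCat WC)
  refine ⟨fun x y _ => h1.1 (hY.eq_of_tgt _ _), fun y => ?_⟩
  obtain ⟨x, -⟩ := h1.2 0
  exact ⟨x, h0.1 (hz.eq_of_tgt _ _)⟩

/-- **(CAT)** the tower exists -/
theorem stTower : StTower := by
  obtain ⟨D, _, L, hL⟩ := exists_small_loc PC (isCpt_TT GGC _ unit_GGC)
    (isGen_TT I.FCP _ (fun _ h => h) (spaceFunctor GGC _ J_GGC) fun _ => ⟨Iso.refl _⟩)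
    (small_TT GGC _ unit_GGC)
  let g : Good PC L :=
    { pres := flat_preservesColimit_tensorLeft WC, sat := sat0 L, G := 𝟙_ _,
      cpt := isCpt_TT GGC L unit_GGC,
      gen := isGen_TT I.FCP L (fun _ h => h) (spaceFunctor GGC L J_GGC) fun _ => ⟨Iso.refl _⟩ }
  have : TwI (Tw.id (FlatCat WC)) := ⟨rfl⟩
  exact @tower_of _ _ _ _ _ _ _ _ _ _ _ _ _ _ _ _ g (spaceFunctor GGC L J_GGC) (JF WC) _
    (Iso.refl _) cof_JF NatTrans.IsMonoidal.id _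
    (@stableCat_of g.T.C _ _ _ _ _ _ _ _ _ _ _ _ g.cpt g.gen g.T.closed g.T.products)

end Vale.Agent.P236Z.Cat
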