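import Vale.Agent.P236Z.Cat.Api0
import Mathlib.CategoryTheory.Triangulated.Adjunction

/-!
# P236: the Wirthmueller isomorphism and the transfer

Induction is also right adjoint to restriction (`adj'`); the transfer `tr`.
-/

open CategoryTheory MonoidalCategory Limits Pretriangulated
open Functor.LaxMonoidal Functor.OplaxMonoidal
open Vale.Agent.P251 Vale.Agent.P251.T Vale.Agent.P251.G
open scoped CategoryTheory.Obj

noncomputable section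
namespace Vale.Agent.P236Z.Cat

variable {T₀ : TTC} {F : I.SpaceFunctor T₀.C} {T T' : TTC} {K : Type 1} [Category.{0} K]
  [MonoidalCategory K] [SymmetricCategory K] {tK : Tw K} {u : K ⥤ I.FCat} {v : I.FCat ⥤ K}
  [v.Braided] {hv : ∀ X, (tK.h (v.obj X)).hom = 𝟙 _} {L : Lvl T₀ F T tK u v}
  {L' : Lvl T₀ F T' (Rt.tw tK) (Rt.U tK ⋙ u) (Rt.triv v hv)} (s : Step L L')

namespace Step

@[simp] theorem pw0 {D : Type 1} [Category.{0} D] {X : D} (γ : X ⟶ X) : pw γ 0 = 𝟙 X := rfl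
@[simp] theorem pw1 {D : Type 1} [Category.{0} D] {X : D} (γ : X ⟶ X) : pw γ 1 = γ := rfl
@[simp] theorem pw2 {D : Type 1} [Category.{0} D] {X : D} (γ : X ⟶ X) : pw γ 2 = γ ≫ γ := rfl

theorem fin3_cases {P : Fin 3 → Prop} (h0 : P 0) (h1 : P 1) (h2 : P 2) : ∀ i, P i
  | 0 => h0
  | 1 => h1
  | 2 => h2

@[reassoc]
theorem pw_comm {D : Type 1} [Category.{0} D] {X Y : D} {a : X ⟶ X} {b : Y ⟶ Y} {f : X ⟶ Y}
    (h : f ≫ b = a ≫ f) (i : Fin 3) : f ≫ pw b i = pw a i ≫ f := by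
  revert i
  refine fin3_cases (by simp) h ?_
  rw [pw2, pw2, reassoc_of% h, h, Category.assoc]

instance : s.U.F.ReflectsIsomorphisms where
  reflects f _ := by
    obtain ⟨Z, g, h, D⟩ := H.exists_cone f
    exact (Triangle.isZero₃_iff_isIso₁ _ D).1 (s.cons Z
      ((Triangle.isZero₃_iff_isIso₁ _ (s.U.F.map_distinguished _ D)).2 ‹_›))

instance : s.ind.CommShift ℤ := s.adj.leftAdjointCommShift ℤ
instance : s.adj.CommShift ℤ := s.adj.commShift_of_rightAdjoint ℤ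
instance : s.ind.IsTriangulated := s.adj.isTriangulated_leftAdjoint
instance : s.ind.Additive := inferInstance

@[reassoc (attr := simp)]
theorem γ_γ' (X : T'.C) : s.γ X ≫ s.γ' X = 𝟙 _ := by
  rw [← s.U.F.map_comp, Iso.hom_inv_id, s.U.F.map_id]

@[reassoc (attr := simp)]
theorem γ'_γ (X : T'.C) : s.γ' X ≫ s.γ X = 𝟙 _ := by
  rw [← s.U.F.map_comp, Iso.inv_hom_id, s.U.F.map_id]

@[reassoc]
theorem γ_nat {X Y : T'.C} (f : X ⟶ Y) : s.U.F.map f ≫ s.γ Y = s.γ X ≫ s.U.F.map f := by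
  rw [← s.U.F.map_comp, L'.t.nat, s.U.F.map_comp]

@[reassoc]
theorem γ'_nat {X Y : T'.C} (f : X ⟶ Y) : s.U.F.map f ≫ s.γ' Y = s.γ' X ≫ s.U.F.map f := by
  rw [← cancel_epi (s.γ X), γ_γ'_assoc, ← s.γ_nat_assoc, γ_γ', Category.comp_id]

@[reassoc]
theorem γ_cube (X : T'.C) : s.γ X ≫ s.γ X ≫ s.γ X = (L.t.h (s.U.F.obj X)).hom := by
  rw [← s.cube_h, s.U.F.map_comp, s.U.F.map_comp]

theorem map_pw (X : T'.C) (i : Fin 3) : s.U.F.map (pw (L'.t.h X).hom i) = pw (s.γ X) i := by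
  revert i
  exact fin3_cases (s.U.F.map_id _) rfl (s.U.F.map_comp _ _)

/-- the unit -/
def un (Y : T.C) : Y ⟶ s.U.F.obj (s.ind.obj Y) := s.adj.unit.app Y

/-- the counit -/
def cu (X : T'.C) : s.ind.obj (s.U.F.obj X) ⟶ X := s.adj.counit.app X

@[reassoc]
theorem un_nat {Y Y' : T.C} (g : Y ⟶ Y') : s.un Y ≫ s.U.F.map (s.ind.map g) = g ≫ s.un Y' :=
  (s.adj.unit.naturality g).symm

@[reassoc]
theorem cu_nat {X X' : T'.C} (f : X ⟶ X') : s.ind.map (s.U.F.map f) ≫ s.cu X' = s.cu X ≫ f :=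
  s.adj.counit.naturality f

@[reassoc (attr := simp)]
theorem un_cu (X : T'.C) : s.un (s.U.F.obj X) ≫ s.U.F.map (s.cu X) = 𝟙 _ :=
  s.adj.right_triangle_components X

theorem un_ext {Y : T.C} {X : T'.C} {f g : s.ind.obj Y ⟶ X}
    (h : s.un Y ≫ s.U.F.map f = s.un Y ≫ s.U.F.map g) : f = g :=
  (s.adj.homEquiv Y X).injective h

theorem ind_lift {Y : T.C} {X : T'.C} (g : Y ⟶ s.U.F.obj X) :
    ∃ f : s.ind.obj Y ⟶ X, s.un Y ≫ s.U.F.map f = g :=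
  (s.adj.homEquiv Y X).surjective g

theorem cof_ext {Y W : T.C} {f g : s.U.F.obj (s.ind.obj Y) ⟶ W} (h0 : s.un Y ≫ f = s.un Y ≫ g)
    (h1 : s.un Y ≫ s.γ _ ≫ f = s.un Y ≫ s.γ _ ≫ g)
    (h2 : s.un Y ≫ s.γ _ ≫ s.γ _ ≫ f = s.un Y ≫ s.γ _ ≫ s.γ _ ≫ g) : f = g := by
  refine Cofan.IsColimit.hom_ext (s.cofan Y).some _ _ fun i => ?_
  change (s.un Y ≫ s.U.F.map _) ≫ f = (s.un Y ≫ s.U.F.map _) ≫ g
  rw [s.map_pw]
  revert i
  exact fin3_cases (by simpa using h0) (by simpa using h1) (by simpa using h2)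

/-- the projection onto the first summand -/
def pr (Y : T.C) : s.U.F.obj (s.ind.obj Y) ⟶ Y :=
  Cofan.IsColimit.desc (s.cofan Y).some fun i => if i = 0 then 𝟙 Y else 0

theorem unit_pr (Y : T.C) (i : Fin 3) :
    s.adj.unit.app Y ≫ pw (s.γ (s.ind.obj Y)) i ≫ s.pr Y = if i = 0 then 𝟙 Y else 0 := by
  rw [← s.map_pw]
  exact (Category.assoc _ _ _).symm.trans
    (Cofan.IsColimit.fac (s.cofan Y).some (fun i => if i = 0 then 𝟙 Y else 0) i)

@[reassoc (attr := simp)]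
theorem un_pr (Y : T.C) : s.un Y ≫ s.pr Y = 𝟙 Y :=
  (congrArg (s.un Y ≫ ·) (Category.id_comp _).symm).trans (s.unit_pr Y 0)

@[reassoc (attr := simp)]
theorem un_pr1 (Y : T.C) : s.un Y ≫ s.γ _ ≫ s.pr Y = 0 := s.unit_pr Y 1

@[reassoc (attr := simp)]
theorem un_pr2 (Y : T.C) : s.un Y ≫ s.γ _ ≫ s.γ _ ≫ s.pr Y = 0 :=
  (congrArg (s.un Y ≫ ·) (Category.assoc _ _ _).symm).trans (s.unit_pr Y 2)

@[reassoc (attr := simp)]
theorem un_pr1' (Y : T.C) : s.un Y ≫ s.γ' _ ≫ s.pr Y = 0 := by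
  rw [← cancel_epi (L.t.h Y).hom, ← reassoc_of% L.t.nat, ← s.γ_cube_assoc, γ_γ'_assoc, un_pr2,
    comp_zero]

@[reassoc (attr := simp)]
theorem un_pr2' (Y : T.C) : s.un Y ≫ s.γ' _ ≫ s.γ' _ ≫ s.pr Y = 0 := by
  rw [← cancel_epi (L.t.h Y).hom, ← reassoc_of% L.t.nat, ← s.γ_cube_assoc, γ_γ'_assoc, γ_γ'_assoc,
    un_pr1, comp_zero]

@[reassoc]
theorem pr_nat {Y Y' : T.C} (g : Y ⟶ Y') : s.U.F.map (s.ind.map g) ≫ s.pr Y' = s.pr Y ≫ g := by
  refine s.cof_ext ?_ ?_ ?_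
  · simp [s.un_nat_assoc]
  · rw [← s.γ_nat_assoc (s.ind.map g), s.un_nat_assoc]
    simp
  · rw [← s.γ_nat_assoc (s.ind.map g), ← s.γ_nat_assoc (s.ind.map g), s.un_nat_assoc]
    simp

theorem sum_pr' (Y : T.C) : ∑ i : Fin 3, pw (s.γ' (s.ind.obj Y)) i ≫ s.pr Y ≫ s.un Y ≫
    pw (s.γ (s.ind.obj Y)) i = 𝟙 _ := by
  refine s.cof_ext ?_ ?_ ?_ <;> simp [Fin.sum_univ_three]

theorem sum_pr (Y : T.C) : ∑ i : Fin 3, pw (s.γ' (s.ind.obj Y)) i ≫ s.pr Y ≫ s.adj.unit.app Y ≫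
    pw (s.γ (s.ind.obj Y)) i = 𝟙 _ := s.sum_pr' Y

/-- averages are equivariant -/
theorem γ_avg {X Y : T'.C} (k : s.U.F.obj X ⟶ s.U.F.obj Y) :
    s.γ X ≫ ∑ i : Fin 3, pw (s.γ' X) i ≫ k ≫ pw (s.γ Y) i =
      (∑ i : Fin 3, pw (s.γ' X) i ≫ k ≫ pw (s.γ Y) i) ≫ s.γ Y := by
  simp only [Fin.sum_univ_three, pw0, pw1, pw2, Preadditive.comp_add,
    Preadditive.add_comp, Category.assoc, Category.id_comp, Category.comp_id, γ_γ'_assoc]
  rw [s.γ_cube Y, L.t.nat, ← s.γ_cube_assoc, γ'_γ_assoc, γ'_γ_assoc]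
  abel

/-- a map into the restriction of an induced object is determined by its three components -/
theorem eq_sum {W Y : T.C} (f : W ⟶ s.U.F.obj (s.ind.obj Y)) :
    f = ∑ i : Fin 3, (f ≫ pw (s.γ' _) i ≫ s.pr Y) ≫ s.un Y ≫ pw (s.γ _) i := by
  conv_lhs => rw [← Category.comp_id f, ← s.sum_pr' Y, Preadditive.comp_sum]
  simp only [Category.assoc]

theorem map_eq_sum {X : T'.C} {Y : T.C} (f : X ⟶ s.ind.obj Y) : s.U.F.map f =
    ∑ i : Fin 3, pw (s.γ' X) i ≫ ((s.U.F.map f ≫ s.pr Y) ≫ s.un Y) ≫ pw (s.γ _) i := by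
  refine (s.eq_sum _).trans (Finset.sum_congr rfl fun i _ => ?_)
  rw [pw_comm_assoc (s.γ'_nat f)]
  simp only [Category.assoc]

theorem bij_ind (Z Y : T.C) :
    Function.Bijective fun f : s.ind.obj Z ⟶ s.ind.obj Y => s.U.F.map f ≫ s.pr Y := by
  refine ⟨fun f g h => s.un_ext ?_, fun k => ?_⟩
  · have h' : s.U.F.map f ≫ s.pr Y = s.U.F.map g ≫ s.pr Y := h
    rw [s.map_eq_sum f, s.map_eq_sum g, h']
  · have ha := s.γ_avg (k ≫ s.un Y)
    have hp : (∑ i : Fin 3, pw (s.γ' _) i ≫ (k ≫ s.un Y) ≫ pw (s.γ _) i) ≫ s.pr Y = k := by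
      simp [Fin.sum_univ_three]
    generalize (∑ i : Fin 3, pw (s.γ' _) i ≫ (k ≫ s.un Y) ≫ pw (s.γ _) i) = a at ha hp
    obtain ⟨f, hf⟩ := s.ind_lift (s.un Z ≫ a)
    refine ⟨f, (congrArg (· ≫ s.pr Y) (s.cof_ext hf ?_ ?_)).trans hp⟩
    · rw [← s.γ_nat, reassoc_of% hf, ha]
    · rw [← s.γ_nat, ← s.γ_nat_assoc, reassoc_of% hf, ha, reassoc_of% ha]

/-- the functor `X ↦ Hom(U X, Y)` -/
def resCoh (Y : T.C) : H.Coh.{0} T'.C where
  obj X := s.U.F.obj X ⟶ Y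
  res f g := s.U.F.map f ≫ g
  res_id := by simp
  res_comp := by simp
  res_add := by simp
  add_res := by simp
  exact {_ _ _ f g _} D y hy := by
    have D' : H.Dist (s.U.F.map f) (s.U.F.map g) _ := s.U.F.map_distinguished _ D
    exact D'.desc₂ y hy
  prod X := by
    let hl := isColimitOfHasCoproductOfPreservesColimit s.U.F X
    refine ⟨fun x y h => Cofan.IsColimit.hom_ext hl _ _ (fun i => congrFun h i), fun x => ?_⟩
    exact ⟨Cofan.IsColimit.desc hl x, funext fun i => Cofan.IsColimit.fac hl x i⟩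

theorem bij_pr (X : T'.C) (Y : T.C) :
    Function.Bijective fun f : X ⟶ s.ind.obj Y => s.U.F.map f ≫ s.pr Y := by
  obtain ⟨R, y, hy⟩ := H.brown_cpt T'.cpt T'.gen (s.resCoh Y)
    (fun n => inferInstanceAs (Small.{0} (s.U.F.obj (T'.G⟦n⟧) ⟶ Y)))
  change s.U.F.obj R ⟶ Y at y
  replace hy : ∀ B, Function.Bijective fun f : B ⟶ R => s.U.F.map f ≫ y := hy
  obtain ⟨w, hw⟩ := (hy _).2 (s.pr Y)
  have e : ∀ B, (fun f : B ⟶ s.ind.obj Y => s.U.F.map f ≫ s.pr Y) =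
      (fun f : B ⟶ R => s.U.F.map f ≫ y) ∘ fun f => f ≫ w := fun B => funext fun f => by
    simp [← hw]
  have : IsIso (s.U.F.map w) := by
    refine isIso_of_yoneda_map_bijective _ fun Z => ?_
    have h1 := (Function.Bijective.of_comp_iff' (hy _) _).1 (e _ ▸ s.bij_ind Z Y)
    refine (Function.Bijective.of_comp_iff _ (s.adj.homEquiv Z _).bijective).1 ?_
    have h2 := (s.adj.homEquiv Z R).bijective.comp h1
    rwa [show (s.adj.homEquiv Z R ∘ fun f => f ≫ w) = (fun x => x ≫ s.U.F.map w) ∘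
      s.adj.homEquiv Z (s.ind.obj Y) from
      funext fun f => s.adj.homEquiv_naturality_right f w] at h2
  have : IsIso w := isIso_of_reflects_iso w s.U.F
  rw [e]
  exact (hy X).comp ⟨fun f g h => (cancel_mono w).1 h, fun g => ⟨g ≫ inv w, by simp⟩⟩

/-- induction is right adjoint to restriction -/
def adj' : s.U.F ⊣ s.ind := Adjunction.mkOfHomEquiv
  { homEquiv := fun X Y => (Equiv.ofBijective _ (s.bij_pr X Y)).symm
    homEquiv_naturality_left_symm := fun f g =>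
      (congrArg (· ≫ s.pr _) (s.U.F.map_comp f g)).trans (Category.assoc _ _ _)
    homEquiv_naturality_right := fun {X Y Y'} f g => by
      rw [Equiv.symm_apply_eq]
      obtain ⟨a, rfl⟩ := (Equiv.ofBijective _ (s.bij_pr X Y)).surjective f
      rw [Equiv.symm_apply_apply]
      simp [s.pr_nat] }

theorem adj'_counit (Y : T.C) : s.adj'.counit.app Y = s.pr Y :=
  (congrArg (· ≫ s.pr Y) (s.U.F.map_id _)).trans (Category.id_comp _)

/-- the unit of the second adjunction -/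
def un' (X : T'.C) : X ⟶ s.ind.obj (s.U.F.obj X) := s.adj'.unit.app X

@[reassoc]
theorem un'_nat {X X' : T'.C} (f : X ⟶ X') : s.un' X ≫ s.ind.map (s.U.F.map f) = f ≫ s.un' X' :=
  (s.adj'.unit.naturality f).symm

@[reassoc (attr := simp)]
theorem un'_pr (X : T'.C) : s.U.F.map (s.un' X) ≫ s.pr (s.U.F.obj X) = 𝟙 _ :=
  s.adj'_counit _ ▸ s.adj'.left_triangle_components X

/-- the transfer -/
def tr {X Y : T'.C} (k : s.U.F.obj X ⟶ s.U.F.obj Y) : X ⟶ Y :=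
  s.adj'.unit.app X ≫ s.ind.map k ≫ s.adj.counit.app Y

theorem tr_eq {X Y : T'.C} (k : s.U.F.obj X ⟶ s.U.F.obj Y) :
    s.tr k = s.un' X ≫ s.ind.map k ≫ s.cu Y := rfl

theorem tr_add {X Y : T'.C} (k k' : s.U.F.obj X ⟶ s.U.F.obj Y) :
    s.tr (k + k') = s.tr k + s.tr k' := by
  simp [tr_eq]

theorem tr_zero {X Y : T'.C} : s.tr (0 : s.U.F.obj X ⟶ s.U.F.obj Y) = 0 := by
  simp [tr_eq]

theorem U_tr {X Y : T'.C} (k : s.U.F.obj X ⟶ s.U.F.obj Y) :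
    s.U.F.map (s.tr k) = ∑ i : Fin 3, pw (s.γ' X) i ≫ k ≫ pw (s.γ Y) i := by
  rw [tr_eq, s.U.F.map_comp, s.map_eq_sum (s.un' X), Preadditive.sum_comp]
  refine Finset.sum_congr rfl fun i _ => ?_
  rw [un'_pr, Category.id_comp, Category.assoc, Category.assoc, ← pw_comm (s.γ_nat _),
    s.U.F.map_comp, Category.assoc, s.un_nat_assoc, un_cu_assoc]

theorem tr_comp {X X' Y Y' : T'.C} (f : X' ⟶ X) (k : s.U.F.obj X ⟶ s.U.F.obj Y) (g : Y ⟶ Y') :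
    s.tr (s.U.F.map f ≫ k ≫ s.U.F.map g) = f ≫ s.tr k ≫ g := by
  simp only [tr_eq, s.ind.map_comp, Category.assoc, s.un'_nat_assoc, s.cu_nat]

theorem tr_conj {X Y : T'.C} (k : s.U.F.obj X ⟶ s.U.F.obj Y) :
    s.tr (s.γ' X ≫ k ≫ s.γ Y) = s.tr k := by
  rw [s.tr_comp, L'.t.nat, Iso.inv_hom_id_assoc]

end Step

end Vale.Agent.P236Z.Cat
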