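import Vale.Agent.P236Z.Cat.Wir

/-!
# P236: the transfer and the tensor product
-/

open CategoryTheory MonoidalCategory Limits Pretriangulated
open Functor.LaxMonoidal Functor.OplaxMonoidal
open Vale.Agent.P251 Vale.Agent.P251.T Vale.Agent.P251.G
open scoped CategoryTheory.Obj

noncomputable section
namespace Vale.Agent.P236Z.Cat

variable {T₀ : TTC} {F : I.SpaceFunctor T₀.C} {T T' : TTC} {K : Type 1} [Category.{0} K]
  [MonoidalCategory K] [SymmetricCategory K] {tK : Tw K} {u : K ⥤ I.FCat} {v : I.FCat ⥤ K}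
  [v.Braided] {hv : ∀ X, (tK.h (v.obj X)).hom = 𝟙 _} {L : Lvl T₀ F T tK u v}
  {L' : Lvl T₀ F T' (Rt.tw tK) (Rt.U tK ⋙ u) (Rt.triv v hv)} (s : Step L L')

namespace Step

@[reassoc]
theorem μ_γ (X Y : T'.C) : μ s.U.F X Y ≫ s.γ (X ⊗ Y) = (s.γ X ⊗ₘ s.γ Y) ≫ μ s.U.F X Y := by
  rw [γ, L'.t.ten, μ_natural]

@[reassoc]
theorem γ'_δ (X Y : T'.C) : s.γ' (X ⊗ Y) ≫ δ s.U.F X Y = δ s.U.F X Y ≫ (s.γ' X ⊗ₘ s.γ' Y) := by
  rw [← cancel_epi (s.γ (X ⊗ Y)), ← cancel_epi (μ s.U.F X Y), γ_γ'_assoc, s.μ_γ_assoc]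
  simp

@[reassoc]
theorem μ_pw (X Y : T'.C) (i : Fin 3) : μ s.U.F X Y ≫ pw (s.γ (X ⊗ Y)) i =
    (pw (s.γ X) i ⊗ₘ pw (s.γ Y) i) ≫ μ s.U.F X Y := by
  rw [pw_comm (s.μ_γ X Y)]
  revert i
  exact fin3_cases (by simp) rfl (by simp)

@[reassoc]
theorem pw_δ (X Y : T'.C) (i : Fin 3) : pw (s.γ' (X ⊗ Y)) i ≫ δ s.U.F X Y =
    δ s.U.F X Y ≫ (pw (s.γ' X) i ⊗ₘ pw (s.γ' Y) i) := by
  rw [← pw_comm (s.γ'_δ X Y).symm]
  revert i
  exact fin3_cases (by simp) rfl (by simp)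

theorem pw_pw (X : T'.C) (i : Fin 3) : pw (s.γ' X) i ≫ pw (s.γ X) i = 𝟙 _ := by
  revert i
  exact fin3_cases (by simp) (by simp) (by simp)

theorem coind_ext {X : T'.C} {Y : T.C} {f g : X ⟶ s.ind.obj Y}
    (h : s.U.F.map f ≫ s.pr Y = s.U.F.map g ≫ s.pr Y) : f = g := (s.bij_pr X Y).1 h

/-- the projection formula (both directions) -/
theorem exists_proj (Y : T.C) (Z : T'.C) :
    ∃ (p : s.ind.obj (Y ⊗ s.U.F.obj Z) ⟶ s.ind.obj Y ⊗ Z)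
      (q : s.ind.obj Y ⊗ Z ⟶ s.ind.obj (Y ⊗ s.U.F.obj Z)),
      s.un _ ≫ s.U.F.map p = s.un Y ▷ s.U.F.obj Z ≫ μ s.U.F _ Z ∧
      s.U.F.map q ≫ s.pr _ = δ s.U.F _ Z ≫ s.pr Y ▷ s.U.F.obj Z ∧ p ≫ q = 𝟙 _ ∧ q ≫ p = 𝟙 _ := by
  obtain ⟨p, hp⟩ := s.ind_lift (s.un Y ▷ s.U.F.obj Z ≫ μ s.U.F (s.ind.obj Y) Z)
  obtain ⟨q, hq⟩ := (s.bij_pr _ _).2 (δ s.U.F (s.ind.obj Y) Z ≫ s.pr Y ▷ s.U.F.obj Z)
  replace hq : s.U.F.map q ≫ s.pr _ = _ := hq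
  have h1 : p ≫ q = 𝟙 _ := by
    refine s.coind_ext ?_
    rw [s.U.F.map_comp, Category.assoc, hq, s.U.F.map_id, Category.id_comp]
    refine s.cof_ext ?_ ?_ ?_
    · rw [reassoc_of% hp, Functor.Monoidal.μ_δ_assoc, ← comp_whiskerRight, un_pr, un_pr,
        id_whiskerRight]
    · rw [← s.γ_nat_assoc p, reassoc_of% hp, s.μ_γ_assoc, Functor.Monoidal.μ_δ_assoc, un_pr1,
        ← tensorHom_id, ← tensorHom_id, tensorHom_comp_tensorHom, tensorHom_comp_tensorHom, un_pr1,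
        MonoidalPreadditive.zero_tensor]
    · rw [← s.γ_nat_assoc p, ← s.γ_nat_assoc p, reassoc_of% hp, s.μ_γ_assoc, s.μ_γ_assoc,
        Functor.Monoidal.μ_δ_assoc, un_pr2, ← tensorHom_id, ← tensorHom_id,
        tensorHom_comp_tensorHom, tensorHom_comp_tensorHom, tensorHom_comp_tensorHom, un_pr2,
        MonoidalPreadditive.zero_tensor]
  have h2 : s.U.F.map (q ≫ p) = 𝟙 _ := by
    rw [s.U.F.map_comp, s.map_eq_sum q, hq, Preadditive.sum_comp]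
    have : ∀ i : Fin 3, (pw (s.γ' _) i ≫ ((δ s.U.F (s.ind.obj Y) Z ≫ s.pr Y ▷ s.U.F.obj Z) ≫
        s.un _) ≫ pw (s.γ _) i) ≫ s.U.F.map p = δ s.U.F (s.ind.obj Y) Z ≫
        (pw (s.γ' _) i ≫ s.pr Y ≫ s.un Y ≫ pw (s.γ _) i) ▷ s.U.F.obj Z ≫ μ s.U.F _ Z := by
      intro i
      simp only [Category.assoc]
      rw [← pw_comm (s.γ_nat p), reassoc_of% hp, s.μ_pw, s.pw_δ_assoc]
      simp only [← tensorHom_id, tensorHom_comp_tensorHom_assoc, Category.id_comp, s.pw_pw]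
    rw [Finset.sum_congr rfl fun i _ => this i, ← Preadditive.comp_sum, ← Preadditive.sum_comp,
      ← sum_whiskerRight, s.sum_pr', id_whiskerRight, Category.id_comp, Functor.Monoidal.δ_μ]
  have : IsIso (s.U.F.map (q ≫ p)) := h2 ▸ inferInstance
  have : IsIso (q ≫ p) := isIso_of_reflects_iso _ s.U.F
  refine ⟨p, q, hp, hq, h1, ?_⟩
  rw [← cancel_epi (q ≫ p), Category.assoc, reassoc_of% h1, Category.comp_id]

theorem tr_whiskerRight {X Y : T'.C} (k : s.U.F.obj X ⟶ s.U.F.obj Y) (Z : T'.C) :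
    s.tr k ▷ Z = s.tr (δ s.U.F X Z ≫ k ▷ s.U.F.obj Z ≫ μ s.U.F Y Z) := by
  obtain ⟨p, q, hp, hq, -, h⟩ := s.exists_proj (s.U.F.obj X) Z
  have h1 : s.un' (X ⊗ Z) ≫ s.ind.map (δ s.U.F X Z) = s.un' X ▷ Z ≫ q := s.coind_ext (by
    rw [s.U.F.map_comp, s.U.F.map_comp, Category.assoc, Category.assoc, s.pr_nat, hq, un'_pr_assoc,
      ← δ_natural_left_assoc, ← comp_whiskerRight, un'_pr, id_whiskerRight, Category.comp_id])
  have h2 : s.ind.map (k ▷ s.U.F.obj Z ≫ μ s.U.F Y Z) ≫ s.cu _ =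
      p ≫ (s.ind.map k ≫ s.cu Y) ▷ Z := s.un_ext (by
    rw [s.U.F.map_comp, s.U.F.map_comp, s.un_nat_assoc, un_cu, reassoc_of% hp, ← μ_natural_left,
      ← comp_whiskerRight_assoc, s.U.F.map_comp, s.un_nat_assoc, un_cu, Category.comp_id,
      Category.comp_id])
  rw [tr_eq, tr_eq, s.ind.map_comp, Category.assoc, reassoc_of% h1, h2, reassoc_of% h,
    comp_whiskerRight]

theorem tr_tensor {X Y X' Y' : T'.C} (k : s.U.F.obj X ⟶ s.U.F.obj Y) (f : X' ⟶ Y') :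
    s.tr k ⊗ₘ f = s.tr (δ s.U.F X X' ≫ (k ⊗ₘ s.U.F.map f) ≫ μ s.U.F Y Y') := by
  have h := s.tr_comp (𝟙 _) (δ s.U.F X X' ≫ k ▷ s.U.F.obj X' ≫ μ s.U.F Y X') (Y ◁ f)
  rw [s.U.F.map_id, Category.id_comp, Category.id_comp, ← s.tr_whiskerRight] at h
  rw [tensorHom_def, ← h, tensorHom_def]
  simp only [Category.assoc, μ_natural_right]

/-- the projection formula -/
theorem isIso_projMap_wir (X : T'.C) (Y : T.C) : IsIso (s.projMap X Y) := by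
  obtain ⟨p, q, hp, -, h1, h2⟩ := s.exists_proj Y X
  have : IsIso p := ⟨q, h1, h2⟩
  have h : s.projMap X Y = s.ind.map (β_ _ _).hom ≫ p ≫ (β_ _ _).hom := s.un_ext (by
    rw [s.U.F.map_comp, s.U.F.map_comp, s.un_nat_assoc, reassoc_of% hp, Functor.Braided.braided,
      BraidedCategory.braiding_naturality_left_assoc, SymmetricCategory.symmetry_assoc]
    exact (s.adj.homEquiv _ _).apply_symm_apply _)
  rw [h]
  infer_instance

end Step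

end Vale.Agent.P236Z.Cat
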